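import Mathlib

/-!
Random subsets of a finite type and a Janson-type bound for families of hitting events.
-/

open Finset
open scoped Classical

noncomputable section

namespace Vale.Agent.P230

variable {ι : Type*} [Fintype ι] [DecidableEq ι]

/-- Weight of a subset when each element is kept independently with probability `p`. -/
def bw (p : ℝ) (W : Finset ι) : ℝ := p ^ (#W) * (1 - p) ^ (#(Wᶜ))

/-- Probability of a set of subsets. -/
def Pr (p : ℝ) (A : Set (Finset ι)) : ℝ := ∑ W, if W ∈ A then bw p W else 0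

/-- `W` meets every member of `I`. -/
def AllHit (I : Finset (Finset ι)) : Set (Finset ι) := {W | ∀ K ∈ I, ∃ f ∈ K, f ∈ W}

/-- Union of the members of `I`. -/
def supp (I : Finset (Finset ι)) : Finset ι := I.biUnion id

variable {p : ℝ}

lemma bw_nonneg (h0 : 0 ≤ p) (h1 : p ≤ 1) (W : Finset ι) : 0 ≤ bw p W :=
  mul_nonneg (pow_nonneg h0 _) (pow_nonneg (by linarith) _)

lemma sum_bw : ∑ W : Finset ι, bw p W = 1 := by
  have h : ∀ W : Finset ι, bw p W = (∏ _i ∈ W, p) * ∏ _i ∈ (univ \ W), (1 - p) := by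
    intro W; simp [bw, compl_eq_univ_sdiff]
  simp_rw [h]
  have := Finset.prod_add (fun _ : ι ↦ p) (fun _ ↦ 1 - p) univ
  simp only [powerset_univ] at this
  rw [← this]; simp

lemma Pr_nonneg (h0 : 0 ≤ p) (h1 : p ≤ 1) (A : Set (Finset ι)) : 0 ≤ Pr p A :=
  sum_nonneg fun W _ ↦ by split <;> [exact bw_nonneg h0 h1 W; exact le_rfl]

lemma Pr_mono (h0 : 0 ≤ p) (h1 : p ≤ 1) {A B : Set (Finset ι)} (h : A ⊆ B) :
    Pr p A ≤ Pr p B := by
  apply sum_le_sum; intro W _
  by_cases hA : W ∈ A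
  · simp [hA, h hA]
  · simp only [hA, if_false]; split <;> [exact bw_nonneg h0 h1 W; exact le_rfl]

lemma Pr_univ : Pr p (Set.univ : Set (Finset ι)) = 1 := by simp [Pr, sum_bw]

lemma Pr_le_one (h0 : 0 ≤ p) (h1 : p ≤ 1) (A : Set (Finset ι)) : Pr p A ≤ 1 :=
  (Pr_mono h0 h1 (Set.subset_univ A)).trans_eq Pr_univ

lemma Pr_inter_add_diff (A B : Set (Finset ι)) :
    Pr p (A ∩ B) + Pr p (A \ B) = Pr p A := by
  simp only [Pr, ← sum_add_distrib]
  refine sum_congr rfl fun W _ ↦ ?_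
  by_cases hA : W ∈ A <;> by_cases hB : W ∈ B <;> simp [hA, hB]

lemma Pr_compl (A : Set (Finset ι)) : Pr p Aᶜ = 1 - Pr p A := by
  have := Pr_inter_add_diff (p := p) Set.univ A
  rw [Set.univ_inter, Pr_univ, ← Set.compl_eq_univ_sdiff] at this
  linarith

lemma Pr_union_le (h0 : 0 ≤ p) (h1 : p ≤ 1) (A B : Set (Finset ι)) :
    Pr p (A ∪ B) ≤ Pr p A + Pr p B := by
  simp only [Pr, ← sum_add_distrib]
  refine sum_le_sum fun W _ ↦ ?_
  have := bw_nonneg h0 h1 W
  by_cases hA : W ∈ A <;> by_cases hB : W ∈ B <;> simp [hA, hB, this]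

lemma Pr_biUnion_le (h0 : 0 ≤ p) (h1 : p ≤ 1) {κ : Type*} (s : Finset κ)
    (A : κ → Set (Finset ι)) :
    Pr p (⋃ k ∈ s, A k) ≤ ∑ k ∈ s, Pr p (A k) := by
  induction s using Finset.induction_on with
  | empty => simp [Pr]
  | insert a s ha ih =>
    rw [Finset.set_biUnion_insert, sum_insert ha]
    exact (Pr_union_le h0 h1 _ _).trans (by linarith)

/-- Events depending on disjoint coordinates are independent. -/
lemma Pr_inter_indep (S : Finset ι) (A B : Set (Finset ι))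
    (hA : ∀ W, W ∈ A ↔ W ∩ S ∈ A) (hB : ∀ W, W ∈ B ↔ W \ S ∈ B) :
    Pr p (A ∩ B) = Pr p A * Pr p B := by
  set g : Finset ι → ℝ := fun a ↦ p ^ (#a) * (1 - p) ^ (#(S \ a)) with hg
  set h : Finset ι → ℝ := fun b ↦ p ^ (#b) * (1 - p) ^ (#(Sᶜ \ b)) with hh
  have key : ∀ W : Finset ι, bw p W = g (W ∩ S) * h (W \ S) := by
    intro W
    have e1 : #(W ∩ S) + #(W \ S) = #W := card_inter_add_card_sdiff W S
    have e2 : #(S \ (W ∩ S)) + #(Sᶜ \ (W \ S)) = #(Wᶜ) := by
      rw [← card_union_of_disjoint]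
      · congr 1; ext x; simp; tauto
      · rw [disjoint_left]; intro x; simp; tauto
    simp only [bw, hg, hh, ← e1, ← e2, pow_add]; ring
  have split : ∀ F G : Set (Finset ι),
      (∑ W, if W ∩ S ∈ F ∧ W \ S ∈ G then bw p W else 0) =
        (∑ a ∈ S.powerset, if a ∈ F then g a else 0) *
          ∑ b ∈ Sᶜ.powerset, if b ∈ G then h b else 0 := by
    intro F G
    rw [sum_mul_sum, ← sum_product']
    refine sum_nbij' (fun W ↦ (W ∩ S, W \ S)) (fun ab ↦ ab.1 ∪ ab.2) ?_ ?_ ?_ ?_ ?_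
    · intro W _; simp [subset_iff]
    · intro ab _; exact mem_univ _
    · intro W _; ext x; simp; tauto
    · rintro ⟨a, b⟩ hab
      simp only [mem_coe, mem_product, mem_powerset] at hab
      have : ∀ x ∈ b, x ∉ S := fun x hx ↦ by simpa using hab.2 hx
      change ((a ∪ b) ∩ S, (a ∪ b) \ S) = (a, b)
      refine Prod.ext ?_ ?_
      · ext x; simp only [mem_inter, mem_union]
        exact ⟨fun ⟨hx, hS⟩ ↦ hx.resolve_right (fun hb ↦ this x hb hS),
          fun hx ↦ ⟨Or.inl hx, hab.1 hx⟩⟩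
      · ext x; simp only [mem_sdiff, mem_union]
        exact ⟨fun ⟨hx, hS⟩ ↦ hx.resolve_left (fun ha ↦ hS (hab.1 ha)),
          fun hx ↦ ⟨Or.inr hx, this x hx⟩⟩
    · intro W _
      rw [key]
      by_cases hF : W ∩ S ∈ F <;> by_cases hG : W \ S ∈ G <;> simp [hF, hG]
  have one : (∑ a ∈ S.powerset, g a) * (∑ b ∈ Sᶜ.powerset, h b) = 1 := by
    have := split Set.univ Set.univ
    simpa [sum_bw] using this.symm
  have eA : Pr p A =
      (∑ a ∈ S.powerset, if a ∈ A then g a else 0) * ∑ b ∈ Sᶜ.powerset, h b := by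
    have := split A Set.univ
    simp only [Set.mem_univ, and_true, if_true] at this
    rw [← this]; exact sum_congr rfl fun W _ ↦ by simp only [← hA W]
  have eB : Pr p B =
      (∑ a ∈ S.powerset, g a) * ∑ b ∈ Sᶜ.powerset, if b ∈ B then h b else 0 := by
    have := split Set.univ B
    simp only [Set.mem_univ, true_and, if_true] at this
    rw [← this]; exact sum_congr rfl fun W _ ↦ by simp only [← hB W]
  have eAB : Pr p (A ∩ B) = (∑ a ∈ S.powerset, if a ∈ A then g a else 0) *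
      ∑ b ∈ Sᶜ.powerset, if b ∈ B then h b else 0 := by
    rw [← split A B]; exact sum_congr rfl fun W _ ↦ by simp only [Set.mem_inter_iff, ← hA W, ← hB W]
  rw [eA, eB, eAB]
  revert one
  generalize (∑ a ∈ S.powerset, if a ∈ A then g a else 0) = X
  generalize (∑ b ∈ Sᶜ.powerset, if b ∈ B then h b else 0) = Y
  intro one
  linear_combination (-(X * Y)) * one

/-- The Harris inequality for two up-closed families. -/
lemma Pr_mul_le_inter (h0 : 0 ≤ p) (h1 : p ≤ 1) {A B : Set (Finset ι)}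
    (hA : IsUpperSet A) (hB : IsUpperSet B) : Pr p A * Pr p B ≤ Pr p (A ∩ B) := by
  have mono : ∀ C : Set (Finset ι), IsUpperSet C →
      Monotone (fun W ↦ if W ∈ C then (1 : ℝ) else 0) := by
    intro C hC a b hab
    by_cases ha : a ∈ C
    · simp [ha, hC hab ha]
    · simp only [ha, if_false]; split <;> norm_num
  have := fkg (f := fun W ↦ if W ∈ A then (1 : ℝ) else 0)
    (g := fun W ↦ if W ∈ B then (1 : ℝ) else 0) (μ := bw p)
    (fun W ↦ bw_nonneg h0 h1 W) (fun W ↦ by simp only [Pi.zero_apply]; split <;> norm_num)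
    (fun W ↦ by simp only [Pi.zero_apply]; split <;> norm_num) (mono A hA) (mono B hB) (by
      intro a b
      have e1 : #(a ∩ b) + #(a ∪ b) = #a + #b := card_inter_add_card_union a b
      have e2 : #((a ∩ b)ᶜ) + #((a ∪ b)ᶜ) = #(aᶜ) + #(bᶜ) := by
        rw [compl_inter, compl_union]; exact card_union_add_card_inter _ _
      change bw p a * bw p b ≤ bw p (a ∩ b) * bw p (a ∪ b)
      simp only [bw]
      apply le_of_eq
      calc p ^ #a * (1 - p) ^ #aᶜ * (p ^ #b * (1 - p) ^ #bᶜ)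
          = p ^ (#a + #b) * (1 - p) ^ (#aᶜ + #bᶜ) := by rw [pow_add, pow_add]; ring
        _ = _ := by rw [← e1, ← e2, pow_add, pow_add]; ring)
  simp only [sum_bw, one_mul, mul_ite, mul_one, mul_zero] at this
  refine this.trans_eq (sum_congr rfl fun W _ ↦ ?_)
  by_cases hA : W ∈ A <;> by_cases hB : W ∈ B <;> simp [hA, hB]

lemma Pr_inter_le_mul (h0 : 0 ≤ p) (h1 : p ≤ 1) {E U : Set (Finset ι)}
    (hE : IsLowerSet E) (hU : IsUpperSet U) : Pr p (E ∩ U) ≤ Pr p E * Pr p U := by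
  have h := Pr_mul_le_inter h0 h1 hE.compl hU
  have e : Pr p (E ∩ U) + Pr p (Eᶜ ∩ U) = Pr p U := by
    rw [Set.inter_comm E, Set.inter_comm Eᶜ, ← Set.sdiff_eq]; exact Pr_inter_add_diff U E
  rw [Pr_compl] at h
  nlinarith

lemma isUpperSet_allHit (I : Finset (Finset ι)) : IsUpperSet (AllHit I) := by
  intro a b hab ha K hK
  obtain ⟨f, hf, hfa⟩ := ha K hK
  exact ⟨f, hf, hab hfa⟩

lemma allHit_union (I J : Finset (Finset ι)) : AllHit (I ∪ J) = AllHit I ∩ AllHit J := by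
  ext W; simp [AllHit, or_imp, forall_and]

lemma allHit_inter_supp {I : Finset (Finset ι)} {T : Finset ι} (h : supp I ⊆ T) (W : Finset ι) :
    W ∈ AllHit I ↔ W ∩ T ∈ AllHit I := by
  constructor
  · intro hW K hK
    obtain ⟨f, hf, hfW⟩ := hW K hK
    exact ⟨f, hf, mem_inter.2 ⟨hfW, h (mem_biUnion.2 ⟨K, hK, hf⟩)⟩⟩
  · exact fun hW ↦ isUpperSet_allHit I inter_subset_left hW

lemma Pr_mem (f : ι) : Pr p {W : Finset ι | f ∈ W} = p := by
  have hA : ∀ W, W ∈ ({W : Finset ι | f ∉ W}) ↔ W ∩ {f} ∈ {W : Finset ι | f ∉ W} := by simp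
  have e : Pr p {W : Finset ι | f ∉ W} = 1 - p := by
    simp only [Pr, Set.mem_setOf_eq]
    rw [← sum_filter]
    have : (univ.filter fun W : Finset ι ↦ f ∉ W) = (univ.erase f).powerset := by
      ext W; simp [subset_erase]
    rw [this]
    have key : ∀ W ∈ (univ.erase f).powerset,
        bw p W = (1 - p) * ((∏ _i ∈ W, p) * ∏ _i ∈ (univ.erase f) \ W, (1 - p)) := by
      intro W hW
      have hf : f ∉ W := by simp [subset_erase] at hW; exact hW
      have : Wᶜ = insert f ((univ.erase f) \ W) := by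
        ext x; by_cases hx : x = f <;> simp [hx, hf]
      simp only [bw, this, prod_const]
      rw [card_insert_of_notMem (by simp), pow_succ]; ring
    rw [sum_congr rfl key, ← mul_sum, ← prod_add]; simp
  have h := Pr_compl (p := p) {W : Finset ι | f ∉ W}
  rw [e] at h
  convert h using 1
  · congr 1; ext; simp
  · ring

lemma Pr_avoid (K : Finset ι) : Pr p {W : Finset ι | Disjoint K W} = (1 - p) ^ #K := by
  induction K using Finset.induction_on with
  | empty => simp [Pr_univ]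
  | insert a s ha ih =>
    have : {W : Finset ι | Disjoint (insert a s) W} =
        {W | a ∉ W} ∩ {W | Disjoint s W} := by ext W; simp [disjoint_insert_left]
    rw [this, Pr_inter_indep {a}, ih, card_insert_of_notMem ha, pow_succ']
    · congr 1
      have h := Pr_compl (p := p) {W : Finset ι | a ∈ W}
      rw [Pr_mem] at h
      exact h
    · intro W; simp
    · intro W
      simp only [Set.mem_ofPred_eq]
      exact ⟨fun h ↦ h.mono_right sdiff_subset, fun h ↦ disjoint_left.2 fun x hx hxW ↦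
        disjoint_left.1 h hx (mem_sdiff.2 ⟨hxW, fun e ↦ ha (mem_singleton.1 e ▸ hx)⟩)⟩

lemma allHit_singleton (K : Finset ι) :
    AllHit ({K} : Finset (Finset ι)) = {W | Disjoint K W}ᶜ := by
  ext W; simp [AllHit, not_disjoint_iff]

lemma Pr_hit (K : Finset ι) : Pr p (AllHit {K}) = 1 - (1 - p) ^ #K := by
  rw [allHit_singleton, Pr_compl, Pr_avoid]

lemma Pr_hit_ge (h1 : p ≤ 1) (K : Finset ι) :
    1 - Real.exp (-(p * #K)) ≤ Pr p (AllHit {K}) := by
  rw [Pr_hit]
  have : (1 - p) ^ #K ≤ Real.exp (-(p * #K)) := by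
    calc (1 - p) ^ #K ≤ (Real.exp (-p)) ^ #K :=
          pow_le_pow_left₀ (by linarith) (by linarith [Real.add_one_le_exp (-p)]) _
      _ = _ := by rw [← Real.exp_nat_mul]; ring_nf
  linarith

lemma prod_Pr_hit_le (h0 : 0 ≤ p) (h1 : p ≤ 1) (I : Finset (Finset ι)) :
    ∏ K ∈ I, Pr p (AllHit {K}) ≤ Pr p (AllHit I) := by
  induction I using Finset.induction_on with
  | empty =>
    have : AllHit (∅ : Finset (Finset ι)) = Set.univ := by ext; simp [AllHit]
    simp [this, Pr_univ]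
  | insert a s ha ih =>
    rw [prod_insert ha, insert_eq, allHit_union]
    exact (mul_le_mul_of_nonneg_left ih (Pr_nonneg h0 h1 _)).trans
      (Pr_mul_le_inter h0 h1 (isUpperSet_allHit _) (isUpperSet_allHit _))

lemma Pr_allHit_mem_le (h0 : 0 ≤ p) (h1 : p ≤ 1) (I : Finset (Finset ι)) (f : ι) :
    Pr p (AllHit I ∩ {W | f ∈ W}) * Pr p (AllHit (I.filter fun K ↦ f ∈ K)) ≤
      p * Pr p (AllHit I) := by
  set J := I.filter fun K ↦ f ∉ K with hJ
  have hI : I = J ∪ (I.filter fun K ↦ f ∈ K) := by ext K; simp [hJ]; tauto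
  have hsup : supp J ⊆ ({f} : Finset ι)ᶜ := by
    intro x hx; simp only [supp, hJ, mem_biUnion, mem_filter, id] at hx
    obtain ⟨K, ⟨_, hfK⟩, hxK⟩ := hx
    simp; rintro rfl; exact hfK hxK
  have ind : Pr p ({W | f ∈ W} ∩ AllHit J) = p * Pr p (AllHit J) := by
    rw [Pr_inter_indep {f}, Pr_mem]
    · intro W; simp
    · intro W; rw [allHit_inter_supp hsup W]; simp [sdiff_eq_inter_compl]
  calc _ ≤ Pr p ({W | f ∈ W} ∩ AllHit J) * Pr p (AllHit (I.filter fun K ↦ f ∈ K)) := by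
          refine mul_le_mul_of_nonneg_right (Pr_mono h0 h1 ?_) (Pr_nonneg h0 h1 _)
          rintro W ⟨hW, hf⟩
          exact ⟨hf, fun K hK ↦ hW K (mem_of_mem_filter _ hK)⟩
    _ = p * (Pr p (AllHit J) * Pr p (AllHit (I.filter fun K ↦ f ∈ K))) := by rw [ind]; ring
    _ ≤ p * Pr p (AllHit I) := by
          refine mul_le_mul_of_nonneg_left ?_ h0
          conv_rhs => rw [hI, allHit_union]
          exact Pr_mul_le_inter h0 h1 (isUpperSet_allHit _) (isUpperSet_allHit _)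

/-- Both families are hit and some common coordinate is present. -/
def Overlap (I J : Finset (Finset ι)) : Set (Finset ι) :=
  AllHit I ∩ AllHit J ∩ {W | ∃ f ∈ supp I ∩ supp J, f ∈ W}

lemma isUpperSet_overlap (I J : Finset (Finset ι)) : IsUpperSet (Overlap I J) :=
  ((isUpperSet_allHit I).inter (isUpperSet_allHit J)).inter
    fun a b hab ⟨f, hf, hfa⟩ ↦ ⟨f, hf, hab hfa⟩

lemma Pr_overlap_le (h0 : 0 ≤ p) (h1 : p ≤ 1) (I J : Finset (Finset ι)) {r : ℝ} (hr : 0 < r)
    (hI : ∀ f ∈ supp I ∩ supp J, r ≤ Pr p (AllHit (I.filter fun K ↦ f ∈ K)))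
    (hJ : ∀ f ∈ supp I ∩ supp J, r ≤ Pr p (AllHit (J.filter fun K ↦ f ∈ K)))
    (hθ : p * #(supp I ∩ supp J) ≤ r ^ 2 / 2) :
    Pr p (Overlap I J) ≤
      2 * (p * #(supp I ∩ supp J) / r ^ 2) * (Pr p (AllHit I) * Pr p (AllHit J)) := by
  set U := supp I ∩ supp J with hU
  set θ := p * #U / r ^ 2 with hθdef
  have hθ0 : 0 ≤ θ := by positivity
  have hθ1 : θ ≤ 1 / 2 := by rw [hθdef, div_le_iff₀ (by positivity)]; linarith
  have one : ∀ f ∈ U, Pr p (AllHit (I ∪ J) ∩ {W | f ∈ W}) ≤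
      p / r ^ 2 * Pr p (AllHit (I ∪ J)) := by
    intro f hf
    have h := Pr_allHit_mem_le h0 h1 (I ∪ J) f
    have hlow : r ^ 2 ≤ Pr p (AllHit ((I ∪ J).filter fun K ↦ f ∈ K)) := by
      rw [filter_union, allHit_union]
      calc r ^ 2 = r * r := sq r
        _ ≤ _ := mul_le_mul (hI f hf) (hJ f hf) hr.le (Pr_nonneg h0 h1 _)
        _ ≤ _ := Pr_mul_le_inter h0 h1 (isUpperSet_allHit _) (isUpperSet_allHit _)
    have h' := (mul_le_mul_of_nonneg_left hlow (Pr_nonneg h0 h1 _)).trans h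
    rw [div_mul_eq_mul_div, le_div_iff₀ (by positivity)]; linarith
  have hov : Pr p (Overlap I J) ≤ θ * Pr p (AllHit I ∩ AllHit J) := by
    have sub : Overlap I J ⊆ ⋃ f ∈ U, AllHit (I ∪ J) ∩ {W | f ∈ W} := by
      rintro W ⟨hW, f, hf, hfW⟩
      simp only [Set.mem_iUnion]
      exact ⟨f, hf, (allHit_union I J).symm ▸ hW, hfW⟩
    refine ((Pr_mono h0 h1 sub).trans (Pr_biUnion_le h0 h1 _ _)).trans ?_
    refine (sum_le_sum one).trans ?_
    rw [sum_const, nsmul_eq_mul, allHit_union, hθdef]; exact le_of_eq (by ring)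
  set J' : Set (Finset ι) := {W | W \ supp I ∈ AllHit J} with hJ'
  have hsplit : AllHit I ∩ AllHit J ⊆ AllHit I ∩ J' ∪ Overlap I J := by
    rintro W ⟨hWI, hWJ⟩
    by_cases h : W \ supp I ∈ AllHit J
    · exact Or.inl ⟨hWI, h⟩
    · refine Or.inr ⟨⟨hWI, hWJ⟩, ?_⟩
      simp only [AllHit, Set.mem_ofPred_eq, not_forall, not_exists, not_and] at h
      obtain ⟨K, hK, hno⟩ := h
      obtain ⟨f, hf, hfW⟩ := hWJ K hK
      have := hno f hf
      simp [hfW] at this
      exact ⟨f, mem_inter.2 ⟨this, mem_biUnion.2 ⟨K, hK, hf⟩⟩, hfW⟩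
  have hind : Pr p (AllHit I ∩ J') = Pr p (AllHit I) * Pr p J' :=
    Pr_inter_indep (supp I) _ _ (allHit_inter_supp subset_rfl) (fun W ↦ by simp [hJ'])
  have hJ'le : Pr p J' ≤ Pr p (AllHit J) :=
    Pr_mono h0 h1 fun W hW ↦ isUpperSet_allHit J sdiff_subset hW
  have hAB := (Pr_mono h0 h1 hsplit).trans (Pr_union_le h0 h1 _ _)
  rw [hind] at hAB
  have := mul_le_mul_of_nonneg_left hJ'le (Pr_nonneg h0 h1 (AllHit I))
  have hx := Pr_nonneg h0 h1 (Overlap I J)
  nlinarith [hov, hθ0, hθ1, hAB, mul_le_mul_of_nonneg_left (hAB.trans (add_le_add this le_rfl)) hθ0]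

/-- Janson-type bound: the chance that none of the families is completely hit. -/
lemma Pr_none_le (h0 : 0 ≤ p) (h1 : p ≤ 1) {α : Type*} [DecidableEq α] (s : Finset α)
    (fam : α → Finset (Finset ι)) :
    Pr p {W | ∀ i ∈ s, W ∉ AllHit (fam i)} ≤
      Real.exp (-(∑ i ∈ s, Pr p (AllHit (fam i)) -
        ∑ i ∈ s, ∑ j ∈ s.erase i, Pr p (Overlap (fam i) (fam j)))) := by
  induction s using Finset.induction_on with
  | empty => simp [Pr_univ]
  | insert a s ha ih =>
    set P := Pr p (AllHit (fam a)) with hP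
    set D := ∑ j ∈ s, Pr p (Overlap (fam a) (fam j)) with hD
    have hD0 : 0 ≤ D := sum_nonneg fun j _ ↦ Pr_nonneg h0 h1 _
    set N : Set (Finset ι) := {W | ∀ i ∈ s, W ∉ AllHit (fam i)} with hN
    have hset : {W : Finset ι | ∀ i ∈ insert a s, W ∉ AllHit (fam i)} = N \ AllHit (fam a) := by
      ext W; simp [hN, and_comm]
    have hdel : ∑ i ∈ s, ∑ j ∈ s.erase i, Pr p (Overlap (fam i) (fam j)) + D ≤
        ∑ i ∈ insert a s, ∑ j ∈ (insert a s).erase i, Pr p (Overlap (fam i) (fam j)) := by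
      rw [sum_insert ha, erase_insert ha, add_comm]
      refine add_le_add le_rfl (sum_le_sum fun i hi ↦ ?_)
      exact sum_le_sum_of_subset_of_nonneg (erase_subset_erase _ (subset_insert _ _))
        fun j _ _ ↦ Pr_nonneg h0 h1 _
    have step : Pr p (N \ AllHit (fam a)) ≤ Pr p N * Real.exp (-(P - D)) := by
      rcases le_total P D with h | h
      · calc Pr p (N \ AllHit (fam a)) ≤ Pr p N := Pr_mono h0 h1 Set.diff_subset
          _ ≤ _ := le_mul_of_one_le_right (Pr_nonneg h0 h1 _) (Real.one_le_exp (by linarith))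
      set E : Set (Finset ι) := {W | ∀ i ∈ s, W \ supp (fam a) ∉ AllHit (fam i)} with hE
      have hNE : N ⊆ E := fun W hW i hi hWi ↦ hW i hi (isUpperSet_allHit _ sdiff_subset hWi)
      have hElow : IsLowerSet E := fun a' b' hba hW i hi hWi ↦
        hW i hi (isUpperSet_allHit _ (sdiff_subset_sdiff hba subset_rfl) hWi)
      have sub : AllHit (fam a) ∩ E ⊆
          N ∩ AllHit (fam a) ∪ ⋃ j ∈ s, E ∩ Overlap (fam a) (fam j) := by
        rintro W ⟨hWa, hWE⟩
        by_cases hWN : W ∈ N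
        · exact Or.inl ⟨hWN, hWa⟩
        simp only [hN, Set.mem_ofPred_eq, not_forall, not_not] at hWN
        obtain ⟨j, hj, hWj⟩ := hWN
        refine Or.inr (Set.mem_iUnion₂.2 ⟨j, hj, hWE, ⟨hWa, hWj⟩, ?_⟩)
        have hne := hWE j hj
        simp only [AllHit, Set.mem_ofPred_eq, not_forall, not_exists, not_and] at hne
        obtain ⟨K, hK, hno⟩ := hne
        obtain ⟨f, hf, hfW⟩ := hWj K hK
        have := hno f hf
        simp [hfW] at this
        exact ⟨f, mem_inter.2 ⟨this, mem_biUnion.2 ⟨K, hK, hf⟩⟩, hfW⟩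
      have hind : Pr p (AllHit (fam a) ∩ E) = P * Pr p E :=
        Pr_inter_indep (supp (fam a)) _ _ (allHit_inter_supp subset_rfl) (fun W ↦ by simp [hE])
      have hbound : Pr p E * (P - D) ≤ Pr p (N ∩ AllHit (fam a)) := by
        have hu := ((Pr_mono h0 h1 sub).trans (Pr_union_le h0 h1 _ _)).trans
          (add_le_add le_rfl ((Pr_biUnion_le h0 h1 _ _).trans (sum_le_sum fun j _ ↦
            Pr_inter_le_mul h0 h1 hElow (isUpperSet_overlap (fam a) (fam j)))))
        rw [hind, ← mul_sum, ← hD] at hu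
        linarith
      have hd := Pr_inter_add_diff (p := p) N (AllHit (fam a))
      have hmono := mul_le_mul_of_nonneg_right (Pr_mono h0 h1 hNE) (sub_nonneg.2 h)
      calc Pr p (N \ AllHit (fam a)) ≤ Pr p N * (1 - (P - D)) := by linarith
        _ ≤ _ := mul_le_mul_of_nonneg_left
              (by linarith [Real.add_one_le_exp (-(P - D))]) (Pr_nonneg h0 h1 _)
    rw [hset]
    refine step.trans ((mul_le_mul_of_nonneg_right ih (Real.exp_nonneg _)).trans ?_)
    rw [← Real.exp_add, Real.exp_le_exp, sum_insert ha]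
    linarith

/-- A quadratic form with no diagonal is at least as large at a vertex as inside the cube. -/
lemma exists_subset_ge {α : Type*} [DecidableEq α] (s : Finset α) (P : α → ℝ) (Δ : α → α → ℝ) (a : α → ℝ)
    (ha0 : ∀ i ∈ s, 0 ≤ a i) (ha1 : ∀ i ∈ s, a i ≤ 1) :
    ∃ t ⊆ s, ∑ i ∈ s, a i * P i - ∑ i ∈ s, ∑ j ∈ s.erase i, a i * a j * Δ i j ≤
      ∑ i ∈ t, P i - ∑ i ∈ t, ∑ j ∈ t.erase i, Δ i j := by
  induction s using Finset.induction_on generalizing P with
  | empty => exact ⟨∅, subset_rfl, le_rfl⟩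
  | insert x s hx ih =>
    have ha0' : ∀ i ∈ s, 0 ≤ a i := fun i hi ↦ ha0 i (mem_insert_of_mem hi)
    have ha1' : ∀ i ∈ s, a i ≤ 1 := fun i hi ↦ ha1 i (mem_insert_of_mem hi)
    set Q : α → ℝ := fun i ↦ P i - (Δ x i + Δ i x) with hQ
    obtain ⟨t0, ht0, h0⟩ := ih P ha0' ha1'
    obtain ⟨t1, ht1, h1⟩ := ih Q ha0' ha1'
    have expand : ∀ (b : α → ℝ) (u : Finset α), x ∉ u →
        ∑ i ∈ insert x u, b i * P i -
          ∑ i ∈ insert x u, ∑ j ∈ (insert x u).erase i, b i * b j * Δ i j =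
        b x * P x + (∑ i ∈ u, b i * P i - b x * ∑ i ∈ u, b i * (Δ x i + Δ i x) -
          ∑ i ∈ u, ∑ j ∈ u.erase i, b i * b j * Δ i j) := by
      intro b u hu
      have e : ∀ i ∈ u, (insert x u).erase i = insert x (u.erase i) := fun i hi ↦
        erase_insert_of_ne fun h ↦ hu (by rw [h]; exact hi)
      have e' : ∑ i ∈ u, ∑ j ∈ (insert x u).erase i, b i * b j * Δ i j =
          ∑ i ∈ u, (b i * b x * Δ i x + ∑ j ∈ u.erase i, b i * b j * Δ i j) :=
        sum_congr rfl fun i hi ↦ by rw [e i hi, sum_insert (by simp [hu])]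
      rw [sum_insert hu, sum_insert hu, erase_insert hu, e']
      simp only [sum_add_distrib, mul_add, mul_sum]
      have e1 : ∀ i, b x * (b i * Δ x i) = b x * b i * Δ x i := fun i ↦ by ring
      have e2 : ∀ i, b x * (b i * Δ i x) = b i * b x * Δ i x := fun i ↦ by ring
      simp only [e1, e2]; ring
    have hlin := expand a s hx
    have hxt : x ∉ t1 := fun h ↦ hx (ht1 h)
    have h1' := expand (fun _ ↦ 1) t1 hxt
    simp only [one_mul] at h1'
    simp only [hQ, mul_sub, sum_sub_distrib] at h1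
    by_cases hcase : ∑ i ∈ t0, P i - ∑ i ∈ t0, ∑ j ∈ t0.erase i, Δ i j ≤
        ∑ i ∈ insert x t1, P i - ∑ i ∈ insert x t1, ∑ j ∈ (insert x t1).erase i, Δ i j
    · refine ⟨insert x t1, insert_subset_insert _ ht1, ?_⟩
      nlinarith [ha0 x (mem_insert_self _ _), ha1 x (mem_insert_self _ _)]
    · refine ⟨t0, ht0.trans (subset_insert _ _), ?_⟩
      nlinarith [ha0 x (mem_insert_self _ _), ha1 x (mem_insert_self _ _)]

lemma Pr_none_le_weighted (h0 : 0 ≤ p) (h1 : p ≤ 1) {α : Type*} [DecidableEq α] (s : Finset α)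
    (fam : α → Finset (Finset ι)) (a : α → ℝ)
    (ha0 : ∀ i ∈ s, 0 ≤ a i) (ha1 : ∀ i ∈ s, a i ≤ 1) :
    Pr p {W | ∀ i ∈ s, W ∉ AllHit (fam i)} ≤
      Real.exp (-(∑ i ∈ s, a i * Pr p (AllHit (fam i)) -
        ∑ i ∈ s, ∑ j ∈ s.erase i, a i * a j * Pr p (Overlap (fam i) (fam j)))) := by
  obtain ⟨t, hts, ht⟩ := exists_subset_ge s (fun i ↦ Pr p (AllHit (fam i)))
    (fun i j ↦ Pr p (Overlap (fam i) (fam j))) a ha0 ha1
  exact ((Pr_mono h0 h1 (B := {W | ∀ i ∈ t, W ∉ AllHit (fam i)})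
    (fun W (hW : ∀ i ∈ s, W ∉ AllHit (fam i)) i hi ↦ hW i (hts hi))).trans (Pr_none_le h0 h1 t fam)).trans
    (Real.exp_le_exp.2 (neg_le_neg ht))

end Vale.Agent.P230
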