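import Mathlib

/-!
Basic definitions and parameters for the covering density lower bound.
-/

open scoped RealInnerProductSpace Classical

noncomputable section

namespace Vale.Agent.P230

variable {n : ℕ}

/-- Euclidean space of dimension `n`. -/
abbrev Sp (n : ℕ) := EuclideanSpace ℝ (Fin n)

/-- Squared threshold per dimension. -/
def cS : ℝ := 30000
/-- Rate of decay of the hitting intensity with depth. -/
def cA : ℝ := 90000
/-- Exponent gain. -/
def cγ : ℝ := 1 / 900000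
/-- Exponent for joint hitting of a cluster. -/
def cG : ℝ := 3000000
/-- Proportion defining the bound on the covering multiplicity. -/
def cκ : ℝ := cγ / (128 * (cA + 2))

/-- Threshold of the halfspaces. -/
def thr (n : ℕ) : ℝ := Real.sqrt (cS * n)
/-- Mesh. -/
def mesh (n : ℕ) : ℝ := ((n : ℝ) ^ 8)⁻¹
/-- Rounding error. -/
def err (n : ℕ) : ℝ := ((n : ℝ) ^ 7)⁻¹
/-- Margin. -/
def mar (n : ℕ) : ℝ := ((n : ℝ) ^ 2)⁻¹
/-- Bound on the number of relevant translates. -/
def Tmax (n : ℕ) : ℝ := Real.exp n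
/-- Bound on multiplicity. -/
def mult (n : ℕ) : ℝ := cκ * n * Real.log n
/-- Depth separating shallow from deep. -/
def dep0 (n : ℕ) : ℝ := cγ * Real.log n
/-- Maximal depth. -/
def dep1 (n : ℕ) : ℝ := 4 * Real.log n
/-- Bound on the number of deep translates. -/
def deepMult (n : ℕ) : ℝ := mult n * Real.exp (-dep0 n)
/-- Cluster radius. -/
def rad0 (n : ℕ) : ℝ := Real.sqrt (32 * Real.log n) / thr n
/-- Cluster size. -/
def clus (n : ℕ) : ℝ := Real.sqrt n
/-- Threshold above which a facet is not used. -/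
def heavy (n : ℕ) : ℝ := (n : ℝ) ^ (4 / 5 : ℝ)
/-- Separation. -/
def sep (n : ℕ) : ℝ := (n : ℝ) ^ (-(cγ / 8))
/-- Slack exponent. -/
def slack (n : ℕ) : ℝ := (n : ℝ) ^ (1 - cγ / 2)

/-- Rounding to the grid. -/
def rd (y : Sp n) : Sp n := WithLp.toLp 2 fun i ↦ mesh n * ⌊y i / mesh n⌋

/-- The grid. -/
def grid (n : ℕ) : Set (Sp n) := {y | ∀ i, ∃ k : ℤ, y i = mesh n * k}

/-- Number of layers of width `1/n` below which a point lies. -/
def depth (v : Sp n) : ℕ :=
  ((Finset.Icc 1 n).filter fun j : ℕ ↦ ‖v‖ ≤ 1 + 5 * err n - j / n).card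

lemma mesh_pos (hn : 0 < n) : 0 < mesh n := by unfold mesh; positivity

lemma err_pos (hn : 0 < n) : 0 < err n := by unfold err; positivity

lemma mar_pos (hn : 0 < n) : 0 < mar n := by unfold mar; positivity

lemma rd_mem_grid (y : Sp n) : rd y ∈ grid n := fun i ↦ ⟨⌊y i / mesh n⌋, rfl⟩

lemma sub_mem_grid {a b : Sp n} (ha : a ∈ grid n) (hb : b ∈ grid n) : a - b ∈ grid n := by
  intro i
  obtain ⟨k, hk⟩ := ha i
  obtain ⟨l, hl⟩ := hb i
  exact ⟨k - l, by simp [hk, hl, mul_sub]⟩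

lemma norm_sub_rd_le (hn : 0 < n) (y : Sp n) : ‖y - rd y‖ ≤ err n := by
  have hm := mesh_pos hn
  have hN : (1 : ℝ) ≤ n := by exact_mod_cast hn
  have hc : ∀ i, (y i - mesh n * ⌊y i / mesh n⌋) ^ 2 ≤ mesh n ^ 2 := by
    intro i
    have h1 := Int.floor_le (y i / mesh n)
    have h2 := Int.lt_floor_add_one (y i / mesh n)
    rw [le_div_iff₀ hm] at h1
    rw [div_lt_iff₀ hm] at h2
    apply pow_le_pow_left₀ <;> nlinarith
  rw [EuclideanSpace.norm_eq, Real.sqrt_le_iff]
  refine ⟨(err_pos hn).le, ?_⟩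
  calc ∑ i, ‖(y - rd y) i‖ ^ 2 ≤ ∑ _i : Fin n, mesh n ^ 2 := by
        refine Finset.sum_le_sum fun i _ ↦ ?_
        simpa [rd, Real.norm_eq_abs, sq_abs] using hc i
    _ = n * mesh n ^ 2 := by simp
    _ ≤ err n ^ 2 := by
        unfold mesh err
        rw [inv_pow, inv_pow, ← div_eq_mul_inv, div_le_iff₀ (by positivity),
          inv_mul_eq_div, le_div_iff₀ (by positivity)]
        calc (n : ℝ) * ((n : ℝ) ^ 7) ^ 2 = (n : ℝ) ^ 15 := by ring
          _ ≤ (n : ℝ) ^ 16 := pow_le_pow_right₀ hN (by norm_num)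
          _ = _ := by ring

lemma finite_grid_ball (hn : 0 < n) (r : ℝ) : (grid n ∩ {y : Sp n | ‖y‖ ≤ r}).Finite := by
  have hm := mesh_pos hn
  set K : ℤ := ⌈|r| / mesh n⌉
  refine Set.Finite.subset ((Set.Finite.pi fun _ : Fin n ↦ Set.finite_Icc (-K) K).image
    fun k ↦ (WithLp.toLp 2 fun i ↦ mesh n * (k i : ℝ) : Sp n)) ?_
  rintro y ⟨hy, hr⟩
  choose k hk using hy
  refine ⟨k, fun i _ ↦ ?_, by ext i; simp [hk i]⟩
  have h1 : |y i| ≤ |r| := by
    have := PiLp.norm_apply_le y i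
    rw [Real.norm_eq_abs] at this
    exact this.trans (le_trans hr (le_abs_self r))
  rw [hk i, abs_mul, abs_of_pos hm, ← le_div_iff₀' hm] at h1
  have h2 : |(k i : ℝ)| ≤ K := h1.trans (Int.le_ceil _)
  rw [abs_le] at h2
  exact ⟨by exact_mod_cast h2.1, by exact_mod_cast h2.2⟩

/-- The grid points of norm at most `r`. -/
def gridBall (n : ℕ) (r : ℝ) : Finset (Sp n) :=
  if h : 0 < n then (finite_grid_ball h r).toFinset else ∅

lemma mem_gridBall (hn : 0 < n) {r : ℝ} {y : Sp n} :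
    y ∈ gridBall n r ↔ y ∈ grid n ∧ ‖y‖ ≤ r := by
  simp [gridBall, hn]

end Vale.Agent.P230
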