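import Mathlib

/-!
One-dimensional Gaussian tail estimates, laws of linear forms, and empirical approximation.
-/

open MeasureTheory ProbabilityTheory Filter
open scoped RealInnerProductSpace NNReal Topology

noncomputable section

namespace Vale.Agent.P230

/-- Upper tail of the standard normal law. -/
def gTail (a : ℝ) : ℝ := (gaussianReal 0 1).real (Set.Ioi a)

/-- The standard normal density. -/
def gPdf (x : ℝ) : ℝ := gaussianPDFReal 0 1 x

lemma gPdf_eq (x : ℝ) : gPdf x = (Real.sqrt (2 * Real.pi))⁻¹ * Real.exp (-(x ^ 2) / 2) := by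
  simp [gPdf, gaussianPDFReal]

lemma integrable_gPdf : Integrable gPdf := integrable_gaussianPDFReal 0 1

lemma gPdf_nonneg (x : ℝ) : 0 ≤ gPdf x := gaussianPDFReal_nonneg _ _ _

lemma gaussianReal_real_Ioi (μ a : ℝ) :
    (gaussianReal μ 1).real (Set.Ioi a) = ∫ x in Set.Ioi a, gaussianPDFReal μ 1 x := by
  rw [measureReal_def, gaussianReal_apply_eq_integral μ one_ne_zero, ENNReal.toReal_ofReal]
  exact setIntegral_nonneg measurableSet_Ioi fun x _ ↦ gaussianPDFReal_nonneg _ _ _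

lemma gTail_eq (a : ℝ) : gTail a = ∫ x in Set.Ioi a, gPdf x := gaussianReal_real_Ioi 0 a

lemma gTail_add (a d : ℝ) :
    gTail (a + d) = ∫ x in Set.Ioi a, gPdf x * Real.exp (-x * d - d ^ 2 / 2) := by
  have h : (gaussianReal 0 1).map (fun x ↦ x + -d) = gaussianReal (-d) 1 := by
    rw [gaussianReal_map_add_const, zero_add]
  have e : gTail (a + d) = (gaussianReal (-d) 1).real (Set.Ioi a) := by
    rw [← h, gTail, map_measureReal_apply (by fun_prop) measurableSet_Ioi]
    congr 1; ext x; simp [lt_sub_iff_add_lt, ← sub_eq_add_neg]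
  rw [e, gaussianReal_real_Ioi]
  refine setIntegral_congr_fun measurableSet_Ioi fun x _ ↦ ?_
  rw [gPdf_eq]
  simp only [gaussianPDFReal, NNReal.coe_one, mul_one, mul_assoc, ← Real.exp_add]
  congr 2; ring

lemma integrableOn_shift (a d : ℝ) :
    IntegrableOn (fun x ↦ gPdf x * Real.exp (-x * d - d ^ 2 / 2)) (Set.Ioi a) := by
  have h : (fun x ↦ gPdf x * Real.exp (-x * d - d ^ 2 / 2)) = gaussianPDFReal (-d) 1 := by
    funext x
    rw [gPdf_eq]
    simp only [gaussianPDFReal, NNReal.coe_one, mul_one, mul_assoc, ← Real.exp_add]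
    congr 2; ring
  rw [h]; exact (integrable_gaussianPDFReal _ _).integrableOn

lemma gTail_add_le (a : ℝ) {d : ℝ} (hd : 0 ≤ d) :
    gTail (a + d) ≤ Real.exp (-a * d - d ^ 2 / 2) * gTail a := by
  rw [gTail_add, gTail_eq, ← integral_const_mul]
  refine setIntegral_mono_on (integrableOn_shift a d)
    (integrable_gPdf.const_mul _).integrableOn measurableSet_Ioi fun x hx ↦ ?_
  rw [mul_comm]
  refine mul_le_mul_of_nonneg_right (Real.exp_le_exp.2 ?_) (gPdf_nonneg x)
  have : a < x := hx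
  nlinarith

lemma gTail_le_one (a : ℝ) : gTail a ≤ 1 := measureReal_le_one

lemma gTail_nonneg (a : ℝ) : 0 ≤ gTail a := measureReal_nonneg

lemma gTail_anti {a b : ℝ} (h : a ≤ b) : gTail b ≤ gTail a :=
  measureReal_mono (Set.Ioi_subset_Ioi h)

lemma gTail_le_exp {a : ℝ} (ha : 0 ≤ a) : gTail a ≤ Real.exp (-(a ^ 2) / 2) := by
  have h := gTail_add_le 0 ha
  simp only [zero_add, neg_zero, zero_mul, zero_sub] at h
  refine h.trans ?_
  rw [neg_div]
  exact mul_le_of_le_one_right (Real.exp_nonneg _) (gTail_le_one 0)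

lemma gTail_le_ratio {a b : ℝ} (hab : a ≤ b) :
    gTail b ≤ Real.exp (-(b ^ 2 - a ^ 2) / 2) * gTail a := by
  have h := gTail_add_le a (sub_nonneg.2 hab)
  rw [add_sub_cancel] at h
  convert h using 2
  congr 1; ring

lemma half_gTail_le_Ioc {a : ℝ} (ha : 1 ≤ a) :
    gTail a / 2 ≤ ∫ x in Set.Ioc a (a + 1), gPdf x := by
  have h : gTail a = (∫ x in Set.Ioc a (a + 1), gPdf x) + gTail (a + 1) := by
    rw [gTail_eq, gTail_eq, ← setIntegral_union Set.Ioc_disjoint_Ioi_same measurableSet_Ioi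
      integrable_gPdf.integrableOn integrable_gPdf.integrableOn,
      Set.Ioc_union_Ioi_eq_Ioi (by linarith)]
  have h1 := gTail_add_le a zero_le_one
  have h2 : Real.exp (-a * 1 - 1 ^ 2 / 2) ≤ 1 / 2 := by
    refine (Real.exp_le_exp.2 (by linarith : -a * 1 - 1 ^ 2 / 2 ≤ -1)).trans ?_
    rw [Real.exp_neg, one_div]
    exact inv_anti₀ two_pos (by linarith [Real.add_one_le_exp (1 : ℝ)])
  nlinarith [gTail_nonneg a, mul_le_mul_of_nonneg_right h2 (gTail_nonneg a)]

lemma gTail_add_ge {a d : ℝ} (ha : 1 ≤ a) (hd : 0 ≤ d) (hd1 : d ≤ 1) :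
    Real.exp (-(3 / 2)) / 2 * Real.exp (-a * d) * gTail a ≤ gTail (a + d) := by
  rw [gTail_add]
  calc Real.exp (-(3 / 2)) / 2 * Real.exp (-a * d) * gTail a
      = Real.exp (-a * d - 3 / 2) * (gTail a / 2) := by
        rw [show -a * d - 3 / 2 = -a * d + -(3 / 2) by ring, Real.exp_add]; ring
    _ ≤ Real.exp (-a * d - 3 / 2) * ∫ x in Set.Ioc a (a + 1), gPdf x :=
        mul_le_mul_of_nonneg_left (half_gTail_le_Ioc ha) (Real.exp_nonneg _)
    _ = ∫ x in Set.Ioc a (a + 1), gPdf x * Real.exp (-a * d - 3 / 2) := by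
        rw [integral_mul_const]; ring
    _ ≤ ∫ x in Set.Ioc a (a + 1), gPdf x * Real.exp (-x * d - d ^ 2 / 2) := by
        refine setIntegral_mono_on (integrable_gPdf.mul_const _).integrableOn
          ((integrableOn_shift a d).mono_set Set.Ioc_subset_Ioi_self) measurableSet_Ioc
          fun x hx ↦ mul_le_mul_of_nonneg_left (Real.exp_le_exp.2 ?_) (gPdf_nonneg x)
        have := hx.2
        nlinarith [mul_le_mul_of_nonneg_right hd1 hd]
    _ ≤ _ := setIntegral_mono_set (integrableOn_shift a d)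
        (ae_of_all _ fun x ↦ mul_nonneg (gPdf_nonneg x) (Real.exp_nonneg _))
        Set.Ioc_subset_Ioi_self.eventuallyLE

lemma gTail_ge {a : ℝ} (ha : 1 ≤ a) :
    (Real.sqrt (2 * Real.pi))⁻¹ * Real.exp (-(3 / 2)) * (Real.exp (-(a ^ 2) / 2) / a) ≤ gTail a := by
  have ha0 : 0 < a := by linarith
  have hc : ∀ x ∈ Set.Ioc a (a + a⁻¹),
      (Real.sqrt (2 * Real.pi))⁻¹ * Real.exp (-(a + a⁻¹) ^ 2 / 2) ≤ gPdf x := by
    intro x hx
    rw [gPdf_eq]
    refine mul_le_mul_of_nonneg_left (Real.exp_le_exp.2 ?_) (by positivity)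
    have h1 := hx.1
    have h2 := hx.2
    have : x ^ 2 ≤ (a + a⁻¹) ^ 2 := pow_le_pow_left₀ (by linarith) h2 2
    linarith
  have h := setIntegral_ge_of_const_le_real measurableSet_Ioc (by simp) hc
    integrable_gPdf.integrableOn
  rw [gTail_eq]
  refine le_trans ?_ (setIntegral_mono_set integrable_gPdf.integrableOn
    (ae_of_all _ gPdf_nonneg) (s := Set.Ioc a (a + a⁻¹)) Set.Ioc_subset_Ioi_self.eventuallyLE)
  refine le_trans ?_ h
  rw [Real.volume_real_Ioc_of_le (by linarith [inv_pos.2 ha0]), add_sub_cancel_left]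
  have hexp : Real.exp (-(3 / 2)) * Real.exp (-(a ^ 2) / 2) ≤ Real.exp (-(a + a⁻¹) ^ 2 / 2) := by
    rw [← Real.exp_add]
    refine Real.exp_le_exp.2 ?_
    have h1 : a * a⁻¹ = 1 := mul_inv_cancel₀ ha0.ne'
    have h2 : a⁻¹ ≤ 1 := inv_le_one_of_one_le₀ ha
    nlinarith [inv_nonneg.2 ha0.le, pow_le_one₀ (n := 2) (inv_nonneg.2 ha0.le) h2]
  calc _ = (Real.sqrt (2 * Real.pi))⁻¹ *
        (Real.exp (-(3 / 2)) * Real.exp (-(a ^ 2) / 2)) * a⁻¹ := by ring
    _ ≤ _ := mul_le_mul_of_nonneg_right (mul_le_mul_of_nonneg_left hexp (by positivity))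
        (by positivity)

section linear

variable {n : ℕ}

/-- The standard Gaussian law on Euclidean space. -/
abbrev gE (n : ℕ) : Measure (EuclideanSpace ℝ (Fin n)) :=
  stdGaussian (EuclideanSpace ℝ (Fin n))

lemma gE_inner_gt {v : EuclideanSpace ℝ (Fin n)} (hv : v ≠ 0) (a : ℝ) :
    (gE n).real {w | a < ⟪v, w⟫} = gTail (a / ‖v‖) := by
  have hpos : 0 < ‖v‖ := norm_pos_iff.2 hv
  have h1 : (gE n).map (innerSL ℝ v) = gaussianReal 0 (‖v‖ ^ 2).toNNReal := by
    rw [IsGaussian.map_eq_gaussianReal]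
    congr 1
    · exact integral_strongDual_stdGaussian _
    · rw [variance_dual_stdGaussian, innerSL_apply_norm]
  have h2 : (gaussianReal 0 1).map (fun x ↦ ‖v‖ * x) = gaussianReal 0 (‖v‖ ^ 2).toNNReal := by
    rw [gaussianReal_map_const_mul, mul_zero, mul_one]
    congr 1
    ext; simp [Real.coe_toNNReal _ (sq_nonneg ‖v‖)]
  have e : {w : EuclideanSpace ℝ (Fin n) | a < ⟪v, w⟫} = (innerSL ℝ v) ⁻¹' Set.Ioi a := by
    ext w; simp
  rw [e, ← map_measureReal_apply (innerSL ℝ v).measurable measurableSet_Ioi, h1, ← h2,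
    map_measureReal_apply (by fun_prop) measurableSet_Ioi, gTail]
  congr 1; ext x; simp [div_lt_iff₀' hpos]

lemma gE_inner_gt_gt_neg {c d : EuclideanSpace ℝ (Fin n)} (hcd : ⟪c, d⟫ = 0)
    (hc : ‖c‖ = 1) (hd : ‖d‖ = 1) {a y : ℝ} (ha : 0 < a) (hy : 0 ≤ y) :
    (gE n).real {w | a < ⟪c, w⟫ ∧ y < ⟪d, w⟫} ≤ Real.exp (-(a ^ 2 + y ^ 2) / 2) := by
  set u := a • c + y • d with hu
  have hnorm : ‖u‖ ^ 2 = a ^ 2 + y ^ 2 := by
    rw [hu, norm_add_sq_real, inner_smul_left, inner_smul_right, hcd]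
    simp [norm_smul, hc, hd, sq_abs]
  have hne : u ≠ 0 := by
    intro h; rw [h] at hnorm; simp at hnorm; nlinarith
  have hsub : {w : EuclideanSpace ℝ (Fin n) | a < ⟪c, w⟫ ∧ y < ⟪d, w⟫} ⊆
      {w | ‖u‖ ^ 2 < ⟪u, w⟫} := by
    rintro w ⟨h1, h2⟩
    simp only [Set.mem_ofPred_eq, hnorm, hu, inner_add_left, real_inner_smul_left]
    nlinarith [mul_lt_mul_of_pos_left h1 ha, mul_le_mul_of_nonneg_left h2.le hy]
  refine (measureReal_mono hsub).trans ?_
  rw [gE_inner_gt hne, sq, mul_div_assoc, div_self (norm_ne_zero_iff.2 hne), mul_one]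
  refine (gTail_le_exp (norm_nonneg u)).trans_eq ?_
  rw [hnorm]

end linear

/-- A finite family of events can be approximated by empirical frequencies. -/
lemma exists_empirical {E : Type*} [MeasurableSpace E] (μ : Measure E) [IsProbabilityMeasure μ]
    {κ : Type*} [Finite κ] (B : κ → Set E) (hB : ∀ i, MeasurableSet (B i))
    {τ : ℝ} (hτ : 0 < τ) (M₀ : ℕ) :
    ∃ M : ℕ, M₀ ≤ M ∧ 0 < M ∧ ∃ w : Fin M → E,
      ∀ i, |(Nat.card {f : Fin M // w f ∈ B i} : ℝ) / M - μ.real (B i)| ≤ τ := by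
  classical
  set P : Measure (ℕ → E) := Measure.infinitePi fun _ : ℕ ↦ μ with hP
  set X : κ → ℕ → (ℕ → E) → ℝ := fun i j ω ↦ (B i).indicator (fun _ ↦ (1 : ℝ)) (ω j) with hX
  have key : ∀ i, ∀ᵐ ω ∂P, Tendsto (fun m : ℕ ↦ (m : ℝ)⁻¹ • ∑ j ∈ Finset.range m, X i j ω)
      atTop (𝓝 (μ.real (B i))) := by
    intro i
    have hm : Measurable ((B i).indicator (fun _ : E ↦ (1 : ℝ))) :=
      measurable_const.indicator (hB i)
    have hind : iIndepFun (X i) P :=
      iIndepFun_infinitePi (X := fun _ ↦ (B i).indicator fun _ : E ↦ (1 : ℝ)) (fun _ ↦ hm)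
    have hmap : ∀ j : ℕ, P.map (fun ω : ℕ → E ↦ ω j) = μ := fun j ↦
      Measure.infinitePi_map_eval _ j
    have hint : Integrable (X i 0) P := by
      refine Integrable.mono' (integrable_const (1 : ℝ))
        (hm.comp (measurable_pi_apply 0)).aestronglyMeasurable (ae_of_all _ fun ω ↦ ?_)
      simp only [hX]; by_cases h : ω 0 ∈ B i <;> simp [h]
    have hid : ∀ j, IdentDistrib (X i j) (X i 0) P P := fun j ↦
      (IdentDistrib.mk (f := fun ω : ℕ → E ↦ ω j) (g := fun ω : ℕ → E ↦ ω 0)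
        (measurable_pi_apply j).aemeasurable (measurable_pi_apply 0).aemeasurable
        (by rw [hmap, hmap])).comp hm
    have h := strong_law_ae (X i) hint (fun a b hab ↦ hind.indepFun hab) hid
    have e : (∫ ω, X i 0 ω ∂P) = μ.real (B i) := by
      have := integral_map (μ := P) (φ := fun ω : ℕ → E ↦ ω 0)
        (measurable_pi_apply 0).aemeasurable (f := (B i).indicator (fun _ : E ↦ (1 : ℝ)))
        hm.aestronglyMeasurable
      rw [hmap, integral_indicator_const (1 : ℝ) (hB i)] at this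
      simpa [hX] using this.symm
    rwa [e] at h
  obtain ⟨ω, hω⟩ := (ae_all_iff.2 key).exists
  have hev : ∀ᶠ m : ℕ in atTop, ∀ i,
      |(m : ℝ)⁻¹ • ∑ j ∈ Finset.range m, X i j ω - μ.real (B i)| ≤ τ := by
    rw [eventually_all]
    intro i
    filter_upwards [Metric.tendsto_nhds.1 (hω i) τ hτ] with m hm
    exact (Real.dist_eq _ _ ▸ hm).le
  obtain ⟨M, hM, hM0⟩ := (hev.and (eventually_ge_atTop (max M₀ 1))).exists
  refine ⟨M, le_trans (le_max_left _ _) hM0, Nat.lt_of_lt_of_le one_pos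
    (le_trans (le_max_right _ _) hM0), fun f ↦ ω f, fun i ↦ ?_⟩
  have := hM i
  convert this using 3
  rw [smul_eq_mul, div_eq_inv_mul, Finset.sum_range]
  congr 1
  rw [Nat.card_eq_fintype_card, Fintype.card_subtype, Finset.card_filter]
  push_cast
  exact Finset.sum_congr rfl fun f _ ↦ by
    simp only [hX]; by_cases h : ω f ∈ B i <;> simp [h]

end Vale.Agent.P230
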