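import Mathlib
import Vale.Agent.P230.Defs
import Vale.Agent.P230.Gauss

/-!
Existence of a finite list of candidate normals with the required hitting statistics.
-/

open MeasureTheory ProbabilityTheory
open scoped RealInnerProductSpace Classical

noncomputable section

namespace Vale.Agent.P230

variable {n : ℕ}

/-- Tolerance for empirical frequencies, relative to the tail at the threshold. -/
def tol (n : ℕ) : ℝ := Real.exp (-((n : ℝ) ^ (3 / 2 : ℝ)))

/-- Numerical conditions used for the candidates. -/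
structure BigC (n : ℕ) : Prop where
  two : 2 ≤ n
  thr_two : 2 ≤ thr n
  mar_small : mar n ≤ 1 / 4
  err_thr : 5 * err n * thr n ≤ mar n
  thr_mar : 2 * mar n * thr n ≤ 1 / 4
  thr_err : 11 * err n * thr n ^ 2 ≤ 1
  log_one : 1 ≤ Real.log n
  err_log : 5 * err n ≤ Real.log n / n
  log_small : 24 * Real.log n / n ≤ 1
  shift : 2 * mar n + 2 * ((dep1 n + 1) / n) * thr n ≤ 1
  gshift : 1440022 * Real.log n ≤ thr n
  tail_union : (n : ℝ) ^ 3 * Real.exp (-(6 * Real.log n)) ≤
    (Real.sqrt (2 * Real.pi))⁻¹ * Real.exp (-(3 / 2)) / (4 * thr n)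
  tol_err : Real.exp (-((n : ℝ) ^ 2) / 8) + 2 * n * Real.exp (-((n : ℝ) ^ 2) / 2) ≤
    tol n * gTail (thr n)
  tol_lo : tol n ≤ Real.exp (-(cA * (dep1 n + 1)))
  tol_pair : tol n ≤ Real.exp (-(cS * n * 9 / 8))
  tol_group : tol n ≤ Real.exp (-(cG * Real.log n))

/-- Candidate normals with a selection probability. -/
structure Cand (n : ℕ) where
  M : ℕ
  w : Fin M → Sp n
  p : ℝ
  p_pos : 0 < p
  p_le : p ≤ 1 / 2
  w_le : ∀ f, ‖w f‖ ≤ (n : ℝ) ^ 2
  lo : ∀ v : Sp n, v ∈ grid n → ‖v‖ ≤ 1 + 5 * err n → (depth v : ℝ) ≤ dep1 n →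
    Real.exp (-(cA * (depth v + 1))) ≤
      p * (Finset.univ.filter fun f ↦ thr n + mar n < ⟪v, w f⟫).card
  hi : ∀ v : Sp n, v ∈ grid n → ‖v‖ ≤ 1 + 5 * err n →
    p * (Finset.univ.filter fun f ↦ thr n - mar n < ⟪v, w f⟫).card ≤ 16
  pair : ∀ v v' : Sp n, v ∈ grid n → v' ∈ grid n → ‖v‖ ≤ 1 + 5 * err n → ‖v'‖ ≤ 1 + 5 * err n →
    p * (Finset.univ.filter fun f ↦
      thr n + mar n < ⟪v, w f⟫ ∧ thr n + mar n < ⟪v', w f⟫).card ≤
        32 * Real.exp (-(cS * n * ‖v - v'‖ ^ 2 / 8))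
  group : ∀ c : Sp n, ∀ g : Finset (Sp n), ‖c‖ ≤ 1 + 5 * err n → (depth c : ℝ) ≤ dep1 n →
    (∀ v ∈ g, v ∈ grid n ∧ ‖v‖ ≤ 1 + 5 * err n ∧ (depth v : ℝ) ≤ dep1 n ∧ ‖v - c‖ ≤ rad0 n) →
    (g.card : ℝ) ≤ (n : ℝ) ^ 3 →
    Real.exp (-(cG * Real.log n)) ≤
      p * (Finset.univ.filter fun f ↦ ∀ v ∈ g, thr n + mar n < ⟪v, w f⟫).card

lemma norm_gt_of_depth {v : Sp n} (hd : depth v < n) :
    1 + 5 * err n - (depth v + 1 : ℕ) / n < ‖v‖ := by
  by_contra h
  push_neg at h
  have : Finset.Icc 1 (depth v + 1) ⊆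
      (Finset.Icc 1 n).filter fun j : ℕ ↦ ‖v‖ ≤ 1 + 5 * err n - j / n := by
    intro j hj
    simp only [Finset.mem_Icc] at hj
    refine Finset.mem_filter.2 ⟨Finset.mem_Icc.2 ⟨hj.1, by omega⟩, h.trans ?_⟩
    gcongr
    exact_mod_cast hj.2
  have := Finset.card_le_card this
  simp [depth] at this

lemma norm_lower (hB : BigC n) {v : Sp n} (hd : (depth v : ℝ) ≤ dep1 n) :
    1 - (depth v + 1) / n ≤ ‖v‖ ∧ ((depth v : ℝ) + 1) / n ≤ 1 / 4 := by
  have hl := hB.log_one
  have hn : (0 : ℝ) < n := by exact_mod_cast (show 0 < n by linarith [hB.two])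
  have h24 := hB.log_small
  rw [div_le_iff₀ hn] at h24
  have h1 : ((depth v : ℝ) + 1) / n ≤ 1 / 4 := by
    rw [div_le_iff₀ hn]; unfold dep1 at hd; linarith
  refine ⟨?_, h1⟩
  have hlt : depth v < n := by
    rw [div_le_iff₀ hn] at h1
    exact_mod_cast (show (depth v : ℝ) < n by linarith)
  have := norm_gt_of_depth hlt
  push_cast at this
  linarith [err_pos (n := n) (by linarith [hB.two])]

lemma measurableSet_inner_gt (v : Sp n) (a : ℝ) : MeasurableSet {w : Sp n | a < ⟪v, w⟫} :=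
  measurableSet_lt measurable_const (by fun_prop)

lemma gE_hi (hB : BigC n) {v : Sp n} (hv : ‖v‖ ≤ 1 + 5 * err n) :
    (gE n).real {w | thr n - mar n < ⟪v, w⟫} ≤ 15 * gTail (thr n) := by
  have hn : 0 < n := by linarith [hB.two]
  have he := mar_pos hn
  have hη := err_pos hn
  have hT := hB.thr_two
  have hm := hB.mar_small
  rcases eq_or_ne v 0 with rfl | hv0
  · have : {w : Sp n | thr n - mar n < ⟪(0 : Sp n), w⟫} = ∅ := by
      ext w; simp; linarith
    rw [this]; simp; exact gTail_nonneg _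
  rw [gE_inner_gt hv0]
  have hpos : 0 < ‖v‖ := norm_pos_iff.2 hv0
  have h1 : thr n - 2 * mar n ≤ (thr n - mar n) / ‖v‖ := by
    rw [le_div_iff₀ hpos]
    nlinarith [hB.err_thr, mul_le_mul_of_nonneg_left hv (by linarith : (0 : ℝ) ≤ thr n - 2 * mar n)]
  refine (gTail_anti h1).trans ?_
  have h2 := gTail_add_ge (a := thr n - 2 * mar n) (d := 2 * mar n)
    (by linarith) (by linarith) (by linarith)
  rw [sub_add_cancel] at h2
  have h3 : Real.exp (-2) ≤ Real.exp (-(3 / 2)) * Real.exp (-(thr n - 2 * mar n) * (2 * mar n)) := by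
    rw [← Real.exp_add]; apply Real.exp_le_exp.2; nlinarith [hB.thr_mar]
  have h4 : (1 : ℝ) / 7.5 ≤ Real.exp (-2) := by
    rw [Real.exp_neg, one_div]
    refine inv_anti₀ (Real.exp_pos _) ?_
    have := Real.exp_one_lt_d9
    rw [show (2 : ℝ) = ((2 : ℕ) : ℝ) * 1 by norm_num, Real.exp_nat_mul]
    nlinarith [Real.exp_pos 1]
  have h5 := gTail_nonneg (thr n - 2 * mar n)
  nlinarith [mul_le_mul_of_nonneg_right (h4.trans h3) h5, gTail_nonneg (thr n)]

lemma gE_lo (hB : BigC n) {v : Sp n} (hd : (depth v : ℝ) ≤ dep1 n) :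
    Real.exp (-(2 * cS * (depth v + 1) + 3)) * gTail (thr n) ≤
      (gE n).real {w | thr n + mar n < ⟪v, w⟫} := by
  have hn : 0 < n := by linarith [hB.two]
  have hN : (0 : ℝ) < n := by exact_mod_cast hn
  have he := mar_pos hn
  have hT := hB.thr_two
  obtain ⟨hlow, hsm⟩ := norm_lower hB hd
  set x := ((depth v : ℝ) + 1) / n with hx
  have hx0 : 0 ≤ x := by positivity
  have hpos : 0 < ‖v‖ := by linarith
  rw [gE_inner_gt (norm_pos_iff.1 hpos)]
  set Δ := 2 * mar n + 2 * x * thr n with hΔ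
  have h1 : (thr n + mar n) / ‖v‖ ≤ thr n + Δ := by
    rw [div_le_iff₀ hpos]
    have := mul_le_mul_of_nonneg_left hlow (by rw [hΔ]; positivity : (0 : ℝ) ≤ thr n + Δ)
    rw [hΔ] at *
    nlinarith [mul_nonneg hx0 he.le, mul_nonneg hx0 (by linarith : (0 : ℝ) ≤ thr n)]
  refine le_trans ?_ (gTail_anti h1)
  have hΔ1 : Δ ≤ 1 := by
    refine le_trans ?_ hB.shift
    rw [hΔ, hx]; gcongr
  refine le_trans ?_ (gTail_add_ge (by linarith) (by positivity) hΔ1)
  refine mul_le_mul_of_nonneg_right ?_ (gTail_nonneg _)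
  have hsq : x * thr n * thr n = cS * (depth v + 1) := by
    rw [mul_assoc, thr, Real.mul_self_sqrt (by unfold cS; positivity), hx]; field_simp
  have h2 : (1 : ℝ) / 2 ≥ Real.exp (-1) := by
    rw [Real.exp_neg, one_div]; exact inv_anti₀ two_pos (by linarith [Real.add_one_le_exp (1 : ℝ)])
  calc Real.exp (-(2 * cS * (depth v + 1) + 3))
      ≤ Real.exp (-(3 / 2)) * Real.exp (-1) * Real.exp (-thr n * Δ) := by
        rw [← Real.exp_add, ← Real.exp_add]; apply Real.exp_le_exp.2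
        rw [hΔ]; nlinarith [hB.thr_mar, hsq]
    _ ≤ _ := by
        rw [div_eq_mul_inv (Real.exp (-(3 / 2))), ← one_div]; gcongr

lemma gE_pair (hB : BigC n) {v v' : Sp n} (hv : ‖v‖ ≤ 1 + 5 * err n)
    (hv' : ‖v'‖ ≤ 1 + 5 * err n) :
    (gE n).real {w | thr n + mar n < ⟪v, w⟫ ∧ thr n + mar n < ⟪v', w⟫} ≤
      30 * Real.exp (-(cS * n * ‖v - v'‖ ^ 2 / 8)) * gTail (thr n) := by
  have hn : 0 < n := by linarith [hB.two]
  have he := mar_pos hn
  have hη := err_pos hn
  have hT := hB.thr_two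
  have hG := gTail_nonneg (thr n)
  have hss : thr n ^ 2 = cS * n := by rw [thr, Real.sq_sqrt (by unfold cS; positivity)]
  have hpar := parallelogram_law_with_norm ℝ v v'
  have hsq : ‖v‖ ^ 2 ≤ (1 + 5 * err n) ^ 2 := pow_le_pow_left₀ (norm_nonneg _) hv 2
  have hsq' : ‖v'‖ ^ 2 ≤ (1 + 5 * err n) ^ 2 := pow_le_pow_left₀ (norm_nonneg _) hv' 2
  have hη1 : 25 * err n ^ 2 ≤ err n := by
    have : err n * thr n ^ 2 ≤ 1 / 11 := by linarith [hB.thr_err]
    have h90 : 30000 ≤ thr n ^ 2 := by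
      rw [hss]; unfold cS; nlinarith [show (2 : ℝ) ≤ n by exact_mod_cast hB.two]
    nlinarith [mul_le_mul_of_nonneg_left h90 hη.le]
  have hq : ‖v + v'‖ ^ 2 + ‖v - v'‖ ^ 2 ≤ 4 + 44 * err n := by nlinarith
  by_cases h4 : ‖v + v'‖ ≤ 2
  · rcases eq_or_ne (v + v') 0 with h0 | h0
    · have : {w : Sp n | thr n + mar n < ⟪v, w⟫ ∧ thr n + mar n < ⟪v', w⟫} = ∅ := by
        ext w; simp only [Set.mem_ofPred_eq, Set.mem_empty_iff_false, iff_false, not_and]
        intro h1 h2
        have : ⟪v + v', w⟫ = 0 := by rw [h0, inner_zero_left]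
        rw [inner_add_left] at this; linarith
      rw [this]; simp; positivity
    have hsub : {w : Sp n | thr n + mar n < ⟪v, w⟫ ∧ thr n + mar n < ⟪v', w⟫} ⊆
        {w | 2 * thr n < ⟪v + v', w⟫} := by
      rintro w ⟨h1, h2⟩
      simp only [Set.mem_ofPred_eq, inner_add_left]; linarith
    refine (measureReal_mono hsub).trans ?_
    rw [gE_inner_gt h0]
    have hp : 0 < ‖v + v'‖ := norm_pos_iff.2 h0
    have hb : thr n ≤ 2 * thr n / ‖v + v'‖ := by rw [le_div_iff₀ hp]; nlinarith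
    refine (gTail_le_ratio hb).trans (mul_le_mul_of_nonneg_right ?_ hG)
    calc Real.exp (-((2 * thr n / ‖v + v'‖) ^ 2 - thr n ^ 2) / 2)
        ≤ Real.exp (-(cS * n * ‖v - v'‖ ^ 2 / 8) + 1) := by
          apply Real.exp_le_exp.2
          have h1 : (4 - ‖v + v'‖ ^ 2) / 4 ≤ 4 / ‖v + v'‖ ^ 2 - 1 := by
            rw [le_sub_iff_add_le, le_div_iff₀ (by positivity)]
            nlinarith [sq_nonneg (‖v + v'‖ ^ 2 - 4)]
          have h2 : (‖v - v'‖ ^ 2 - 44 * err n) / 4 ≤ 4 / ‖v + v'‖ ^ 2 - 1 := by linarith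
          have h3 := mul_le_mul_of_nonneg_left h2 (sq_nonneg (thr n))
          rw [div_pow, ← hss]
          have h5 : (2 * thr n) ^ 2 / ‖v + v'‖ ^ 2 = thr n ^ 2 * (4 / ‖v + v'‖ ^ 2) := by ring
          rw [h5]
          nlinarith [hB.thr_err]
      _ ≤ _ := by
          rw [Real.exp_add, mul_comm]
          exact mul_le_mul_of_nonneg_right (by linarith [Real.exp_one_lt_d9]) (Real.exp_nonneg _)
  · push_neg at h4
    have h4' : (4 : ℝ) < ‖v + v'‖ ^ 2 := by nlinarith
    have hr : ‖v - v'‖ ^ 2 ≤ 44 * err n := by linarith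
    have hsub : {w : Sp n | thr n + mar n < ⟪v, w⟫ ∧ thr n + mar n < ⟪v', w⟫} ⊆
        {w | thr n - mar n < ⟪v, w⟫} := by
      rintro w ⟨h1, _⟩; simp only [Set.mem_ofPred_eq]; linarith
    refine (measureReal_mono hsub).trans ((gE_hi hB hv).trans ?_)
    refine mul_le_mul_of_nonneg_right ?_ hG
    have : cS * n * ‖v - v'‖ ^ 2 / 8 ≤ 1 / 2 := by
      rw [← hss]; nlinarith [mul_le_mul_of_nonneg_left hr (sq_nonneg (thr n)), hB.thr_err]
    nlinarith [Real.add_one_le_exp (-(cS * n * ‖v - v'‖ ^ 2 / 8))]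

lemma norm_orth_part_le {u v : Sp n} (hu : ‖u‖ = 1) (r : ℝ) :
    ‖v - ⟪u, v⟫ • u‖ ≤ ‖v - r • u‖ := by
  refine le_of_pow_le_pow_left₀ two_ne_zero (norm_nonneg _) ?_
  rw [norm_sub_sq_real, norm_sub_sq_real, inner_smul_right, inner_smul_right, norm_smul, norm_smul,
    hu, real_inner_comm v u, mul_one, mul_one, Real.norm_eq_abs, Real.norm_eq_abs, sq_abs, sq_abs]
  nlinarith [sq_nonneg (⟪v, u⟫ - r)]

/-- Failing one halfspace while being deep in another one is unlikely. -/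
lemma gE_fail {u v : Sp n} (hu : ‖u‖ = 1) {a y r s' : ℝ} (ha : 0 < a) (hy : 0 ≤ y)
    (hr : ‖v - ⟪u, v⟫ • u‖ ≤ r) (hpos : 0 < ⟪u, v⟫) (hk : s' + r * y ≤ ⟪u, v⟫ * a) :
    (gE n).real {w | a < ⟪u, w⟫ ∧ ⟪v, w⟫ ≤ s'} ≤ Real.exp (-(a ^ 2 + y ^ 2) / 2) := by
  set d := v - ⟪u, v⟫ • u with hd
  have hr0 : 0 ≤ r := (norm_nonneg _).trans hr
  have hsplit : ∀ w, ⟪v, w⟫ = ⟪u, v⟫ * ⟪u, w⟫ + ⟪d, w⟫ := fun w ↦ by
    rw [hd, inner_sub_left, real_inner_smul_left]; ring
  rcases eq_or_ne d 0 with hd0 | hd0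
  · have : {w : Sp n | a < ⟪u, w⟫ ∧ ⟪v, w⟫ ≤ s'} = ∅ := by
      ext w; simp only [Set.mem_ofPred_eq, Set.mem_empty_iff_false, iff_false, not_and]
      intro h1 h2
      rw [hsplit, hd0, inner_zero_left, add_zero] at h2
      nlinarith [mul_lt_mul_of_pos_left h1 hpos, mul_nonneg hr0 hy]
    rw [this]; simp; positivity
  have hdp : 0 < ‖d‖ := norm_pos_iff.2 hd0
  have horth : ⟪u, d⟫ = 0 := by
    rw [hd, inner_sub_right, inner_smul_right, real_inner_self_eq_norm_sq, hu]; ring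
  refine (measureReal_mono (s₂ := {w | a < ⟪u, w⟫ ∧ y < ⟪(-‖d‖⁻¹) • d, w⟫}) ?_).trans
    (gE_inner_gt_gt_neg ?_ hu ?_ ha hy)
  · rintro w ⟨h1, h2⟩
    refine ⟨h1, ?_⟩
    rw [real_inner_smul_left, neg_mul, lt_neg, inv_mul_lt_iff₀ hdp]
    rw [hsplit] at h2
    nlinarith [mul_lt_mul_of_pos_left h1 hpos, mul_le_mul_of_nonneg_right hr hy]
  · rw [inner_smul_right, horth, mul_zero]
  · rw [norm_smul, norm_neg, norm_inv, norm_norm, inv_mul_cancel₀ hdp.ne']

lemma proj_lower {z V C r2 : ℝ} (hz : 0 ≤ z) (hz1 : z ≤ 1 / 24) (hV : 1 - 5 * z ≤ V)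
    (hC : 1 - 5 * z ≤ C) (hC1 : C ≤ 1 + z) (hr : r2 ≤ z) :
    2 * C * (1 - 12 * z) ≤ V ^ 2 + C ^ 2 - r2 := by
  have e1 : (1 - 5 * z) ^ 2 ≤ V ^ 2 := pow_le_pow_left₀ (by linarith) hV 2
  have e2 : (1 - 5 * z) ^ 2 ≤ C ^ 2 := pow_le_pow_left₀ (by linarith) hC 2
  have e3 := mul_le_mul_of_nonneg_right hC1 (by linarith : 0 ≤ 1 - 12 * z)
  nlinarith

lemma proj_lower' (hB : BigC n) {c v : Sp n} (hc : ‖c‖ ≤ 1 + 5 * err n)
    (hdc : (depth c : ℝ) ≤ dep1 n) (hdv : (depth v : ℝ) ≤ dep1 n) (hvc : ‖v - c‖ ≤ rad0 n) :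
    1 - 12 * Real.log n / n ≤ ⟪‖c‖⁻¹ • c, v⟫ := by
  have hN : (0 : ℝ) < n := by exact_mod_cast (show 0 < n by linarith [hB.two])
  have hl := hB.log_one
  have hlow : ∀ u : Sp n, (depth u : ℝ) ≤ dep1 n → 1 - 5 * (Real.log n / n) ≤ ‖u‖ := by
    intro u hu
    refine le_trans ?_ (norm_lower hB hu).1
    unfold dep1 at hu
    rw [← mul_div_assoc]
    gcongr
    linarith
  have hz1 : Real.log n / n ≤ 1 / 24 := by
    have := hB.log_small
    rw [mul_div_assoc] at this; linarith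
  have hcp : 0 < ‖c‖ := by linarith [hlow c hdc]
  have hr : ‖v - c‖ ^ 2 ≤ Real.log n / n := by
    refine (pow_le_pow_left₀ (norm_nonneg _) hvc 2).trans ?_
    rw [rad0, div_pow, thr, Real.sq_sqrt (by positivity), Real.sq_sqrt (by unfold cS; positivity)]
    unfold cS
    rw [div_le_div_iff₀ (by positivity) hN]
    nlinarith
  have h := proj_lower (by positivity) hz1 (hlow v hdv) (hlow c hdc)
    (hc.trans (by linarith [hB.err_log])) hr
  rw [real_inner_smul_left, inv_mul_eq_div, le_div_iff₀ hcp]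
  rw [norm_sub_sq_real, real_inner_comm c v] at h
  rw [mul_div_assoc]
  linarith

/-- The common threshold used for a cluster. -/
def cthr (n : ℕ) : ℝ :=
  (thr n + 2 * mar n + rad0 n * Real.sqrt (12 * Real.log n)) * (1 + 24 * Real.log n / n)

lemma cthr_bounds (hB : BigC n) :
    thr n ≤ cthr n ∧ cthr n ≤ thr n + 1 ∧ thr n * (cthr n - thr n) ≤ 1440021 * Real.log n + 1 := by
  have hN : (0 : ℝ) < n := by exact_mod_cast (show 0 < n by linarith [hB.two])
  have he := mar_pos (n := n) (by linarith [hB.two])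
  have hl := hB.log_one
  have hT := hB.thr_two
  have hg := hB.gshift
  have hX := hB.log_small
  have hm := hB.mar_small
  have htm := hB.thr_mar
  set ℓ := Real.log n with hℓ
  set s := thr n with hs
  have hs0 : 0 < s := by linarith
  set t := rad0 n * Real.sqrt (12 * ℓ) with ht
  have ht0 : 0 ≤ t := by rw [ht]; unfold rad0; positivity
  have hst : s * t ≤ 20 * ℓ := by
    rw [ht, rad0, ← hs, ← mul_assoc, mul_div_cancel₀ _ hs0.ne', ← hℓ,
      ← Real.sqrt_mul (by positivity), Real.sqrt_le_iff]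
    exact ⟨by positivity, by nlinarith⟩
  have hts : t ≤ 1 := by nlinarith
  have hsX : 24 * ℓ / n * (s * s) = 720000 * ℓ := by
    rw [hs, thr, Real.mul_self_sqrt (by unfold cS; positivity), cS]; field_simp; norm_num
  have hmul : s * (cthr n - s) ≤ 1440021 * ℓ + 1 := by
    have e : s * (cthr n - s) =
        (2 * (s * mar n) + s * t) * (1 + 24 * ℓ / n) + 24 * ℓ / n * (s * s) := by
      unfold cthr; rw [← hℓ, ← hs, ← ht]; ring
    rw [e, hsX]
    have h1 : 2 * (s * mar n) + s * t ≤ 1 / 4 + 20 * ℓ := by linarith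
    have h2 := mul_le_mul h1 (by linarith : 1 + 24 * ℓ / n ≤ 2) (by positivity) (by positivity)
    linarith
  have hge : s ≤ cthr n := by
    unfold cthr; rw [← hℓ, ← hs, ← ht]
    exact le_trans (by linarith) (le_mul_of_one_le_right (by linarith)
      (le_add_of_nonneg_right (by positivity)))
  refine ⟨hge, ?_, hmul⟩
  nlinarith

lemma gE_group (hB : BigC n) {c : Sp n} {g : Finset (Sp n)} (hc : ‖c‖ ≤ 1 + 5 * err n)
    (hdc : (depth c : ℝ) ≤ dep1 n)
    (hg : ∀ v ∈ g, v ∈ grid n ∧ ‖v‖ ≤ 1 + 5 * err n ∧ (depth v : ℝ) ≤ dep1 n ∧ ‖v - c‖ ≤ rad0 n)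
    (hcard : (g.card : ℝ) ≤ (n : ℝ) ^ 3) :
    Real.exp (-(1440022 * Real.log n + 4)) * gTail (thr n) ≤
      (gE n).real {w | ∀ v ∈ g, thr n + mar n < ⟪v, w⟫} := by
  have hn : 0 < n := by linarith [hB.two]
  have hN : (0 : ℝ) < n := by exact_mod_cast hn
  have he := mar_pos hn
  have hT := hB.thr_two
  have hl := hB.log_one
  obtain ⟨hsa, has, hmul⟩ := cthr_bounds hB
  set a := cthr n with hadef
  set y := Real.sqrt (12 * Real.log n) with hy
  have hy2 : y ^ 2 = 12 * Real.log n := Real.sq_sqrt (by positivity)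
  have hrp : 0 < rad0 n := by unfold rad0; positivity
  have ha1 : 1 ≤ a := by linarith
  set u := ‖c‖⁻¹ • c with hu
  have hcp : 0 < ‖c‖ := by
    have := norm_lower hB hdc; linarith [this.1, this.2]
  have hun : ‖u‖ = 1 := by
    rw [hu, norm_smul, norm_inv, norm_norm, inv_mul_cancel₀ hcp.ne']
  set B : Sp n → Set (Sp n) := fun v ↦ {w | a < ⟪u, w⟫ ∧ ⟪v, w⟫ ≤ thr n + mar n} with hBdef
  have hfail : ∀ v ∈ g, (gE n).real (B v) ≤
      Real.exp (-(a ^ 2) / 2) * Real.exp (-(6 * Real.log n)) := by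
    intro v hv
    obtain ⟨-, hv1, hv2, hv3⟩ := hg v hv
    have hp := proj_lower' hB hc hdc hv2 hv3
    rw [← hu] at hp
    have hX := hB.log_small
    have hX2 : 12 * Real.log n / n ≤ 1 / 2 := by
      rw [mul_div_assoc] at hX ⊢; linarith
    have hd : ‖v - ⟪u, v⟫ • u‖ ≤ rad0 n := by
      refine le_trans (norm_orth_part_le hun ‖c‖) ?_
      rw [hu, smul_smul, mul_inv_cancel₀ hcp.ne', one_smul]
      exact hv3
    refine (gE_fail (y := y) hun (by linarith) (Real.sqrt_nonneg _) hd (by linarith) ?_).trans_eq ?_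
    · have hz : 0 ≤ Real.log n / n := by positivity
      have hone : 1 ≤ (1 - 12 * Real.log n / n) * (1 + 24 * Real.log n / n) := by
        rw [mul_div_assoc] at hX2 ⊢; rw [mul_div_assoc]; nlinarith
      calc thr n + mar n + rad0 n * y ≤ (thr n + 2 * mar n + rad0 n * y) *
            ((1 - 12 * Real.log n / n) * (1 + 24 * Real.log n / n)) :=
            le_trans (by linarith) (le_mul_of_one_le_right (by positivity) hone)
        _ = (1 - 12 * Real.log n / n) * a := by rw [hadef, cthr, ← hy]; ring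
        _ ≤ _ := mul_le_mul_of_nonneg_right hp (by linarith)
    · rw [hy2, ← Real.exp_add]; congr 1; ring
  have hhalf : ∑ v ∈ g, (gE n).real (B v) ≤ gTail a / 2 := by
    refine (Finset.sum_le_sum hfail).trans ?_
    rw [Finset.sum_const, nsmul_eq_mul]
    have h1 := gTail_ge ha1
    have h3 := hB.tail_union
    generalize Real.exp (-(6 * Real.log n)) = e6 at h3 ⊢
    generalize hE : Real.exp (-(a ^ 2) / 2) = E at h1 ⊢
    have hE0 : 0 ≤ E := hE ▸ Real.exp_nonneg _
    generalize hK : (Real.sqrt (2 * Real.pi))⁻¹ * Real.exp (-(3 / 2)) = K at h1 h3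
    have hK0 : 0 ≤ K := hK ▸ by positivity
    have he6 : (g.card : ℝ) * (E * e6) ≤ E * (K / (4 * thr n)) := by
      rcases le_or_gt 0 e6 with h | h
      · calc (g.card : ℝ) * (E * e6) = E * (g.card * e6) := by ring
          _ ≤ E * ((n : ℝ) ^ 3 * e6) := by gcongr
          _ ≤ _ := mul_le_mul_of_nonneg_left h3 hE0
      · have : (g.card : ℝ) * (E * e6) ≤ 0 :=
          mul_nonpos_of_nonneg_of_nonpos (Nat.cast_nonneg _) (mul_nonpos_of_nonneg_of_nonpos hE0 h.le)
        exact this.trans (by positivity)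
    refine he6.trans ?_
    have : K / (4 * thr n) ≤ K / (2 * a) := by
      apply div_le_div_of_nonneg_left hK0 (by positivity); linarith
    refine (mul_le_mul_of_nonneg_left this hE0).trans ?_
    rw [show E * (K / (2 * a)) = K * (E / a) / 2 by field_simp]
    linarith
  have hmain : gTail a / 2 ≤ (gE n).real {w | ∀ v ∈ g, thr n + mar n < ⟪v, w⟫} := by
    have hsub : {w : Sp n | a < ⟪u, w⟫} ⊆
        {w | ∀ v ∈ g, thr n + mar n < ⟪v, w⟫} ∪ ⋃ v ∈ g, B v := by
      intro w hw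
      by_cases h : ∀ v ∈ g, thr n + mar n < ⟪v, w⟫
      · exact Or.inl h
      · push_neg at h
        obtain ⟨v, hv, hle⟩ := h
        exact Or.inr (Set.mem_iUnion₂.2 ⟨v, hv, hw, hle⟩)
    have h1 := (measureReal_mono hsub (measure_ne_top (gE n) _)).trans
      ((measureReal_union_le _ _).trans (add_le_add le_rfl (measureReal_biUnion_finset_le g B)))
    rw [gE_inner_gt (fun h ↦ by simp [h] at hun), hun, div_one] at h1
    linarith
  refine le_trans ?_ hmain
  have hge := gTail_add_ge (a := thr n) (d := a - thr n) (by linarith) (by linarith) (by linarith)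
  rw [add_sub_cancel] at hge
  have h2 : Real.exp (-1) ≤ (1 : ℝ) / 2 := by
    rw [Real.exp_neg, one_div]; exact inv_anti₀ two_pos (by linarith [Real.add_one_le_exp (1 : ℝ)])
  have : Real.exp (-(1440022 * Real.log n + 4)) ≤
      Real.exp (-(3 / 2)) / 2 * Real.exp (-thr n * (a - thr n)) * (1 / 2) := by
    calc Real.exp (-(1440022 * Real.log n + 4))
        ≤ Real.exp (-(3 / 2)) * Real.exp (-1) * Real.exp (-thr n * (a - thr n)) * Real.exp (-1) := by
          rw [← Real.exp_add, ← Real.exp_add, ← Real.exp_add]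
          apply Real.exp_le_exp.2; linarith
      _ ≤ _ := by rw [div_eq_mul_inv (Real.exp (-(3 / 2))), ← one_div]; gcongr
  have := mul_le_mul_of_nonneg_right this (gTail_nonneg (thr n))
  linarith

lemma gE_big (n : ℕ) :
    (gE n).real {w : Sp n | ∀ i, |w i| ≤ n}ᶜ ≤ 2 * n * Real.exp (-((n : ℝ) ^ 2) / 2) := by
  set U : Fin n → Set (Sp n) := fun i ↦
    {w | (n : ℝ) < ⟪EuclideanSpace.single i (1 : ℝ), w⟫} ∪
      {w | (n : ℝ) < ⟪EuclideanSpace.single i (-1 : ℝ), w⟫} with hU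
  have hsub : {w : Sp n | ∀ i, |w i| ≤ n}ᶜ ⊆ ⋃ i ∈ Finset.univ, U i := by
    intro w hw
    simp only [Set.mem_compl_iff, Set.mem_ofPred_eq, not_forall, not_le] at hw
    obtain ⟨i, hi⟩ := hw
    refine Set.mem_iUnion₂.2 ⟨i, Finset.mem_univ i, ?_⟩
    rcases lt_abs.1 hi with h | h <;> [left; right] <;>
      simp [EuclideanSpace.inner_single_left] <;> linarith
  refine (measureReal_mono hsub (measure_ne_top _ _)).trans
    ((measureReal_biUnion_finset_le _ _).trans ?_)
  refine (Finset.sum_le_sum (g := fun _ ↦ 2 * Real.exp (-((n : ℝ) ^ 2) / 2)) fun i _ ↦ ?_).trans ?_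
  · refine (measureReal_union_le _ _).trans ?_
    have h : ∀ c : ℝ, |c| = 1 →
        (gE n).real {w | (n : ℝ) < ⟪EuclideanSpace.single i c, w⟫} ≤
          Real.exp (-((n : ℝ) ^ 2) / 2) := by
      intro c hc
      have hn1 : ‖EuclideanSpace.single i c‖ = 1 := by simp [hc]
      rw [gE_inner_gt (fun h ↦ by simp [h] at hn1), hn1, div_one]
      exact gTail_le_exp (Nat.cast_nonneg n)
    linarith [h 1 (by simp), h (-1) (by simp)]
  · simp; linarith

theorem exists_cand (hB : BigC n) : Nonempty (Cand n) := by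
  have hn : 0 < n := by linarith [hB.two]
  have hG : 0 < gTail (thr n) := by
    refine lt_of_lt_of_le ?_ (gTail_ge (by linarith [hB.thr_two]))
    have : 0 < thr n := by linarith [hB.thr_two]
    positivity
  set Small : Set (Sp n) := {w | ∀ i, |w i| ≤ n} with hSmall
  have hSm : MeasurableSet Small := by
    have e : Small = ⋂ i, {w : Sp n | |w i| ≤ n} := by ext; simp [hSmall]
    rw [e]
    exact MeasurableSet.iInter fun i ↦ measurableSet_le (by fun_prop) measurable_const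
  set G := gridBall n 2 with hGdef
  let κ := (↥G × Bool) ⊕ ((↥G × ↥G) ⊕ ↥G.powerset)
  let B : κ → Set (Sp n) := Sum.elim
    (fun x ↦ Small ∩
      {w | (if x.2 then thr n + mar n else thr n - mar n) < ⟪(x.1 : Sp n), w⟫})
    (Sum.elim
      (fun x ↦ Small ∩ ({w | thr n + mar n < ⟪(x.1 : Sp n), w⟫} ∩
        {w | thr n + mar n < ⟪(x.2 : Sp n), w⟫}))
      (fun g ↦ Small ∩ ⋂ v ∈ (g : Finset (Sp n)), {w | thr n + mar n < ⟪v, w⟫}))
  have hBm : ∀ i, MeasurableSet (B i) := by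
    rintro (x | x | g)
    · exact hSm.inter (measurableSet_inner_gt _ _)
    · exact hSm.inter ((measurableSet_inner_gt _ _).inter (measurableSet_inner_gt _ _))
    · exact hSm.inter (Finset.measurableSet_biInter _ fun v _ ↦ measurableSet_inner_gt _ _)
  obtain ⟨M, hM, hMpos, w, hw⟩ := exists_empirical (gE n) B hBm
    (τ := Real.exp (-((n : ℝ) ^ 2) / 8)) (Real.exp_pos _) (⌈2 / gTail (thr n)⌉₊)
  have hMR : (0 : ℝ) < M := by exact_mod_cast hMpos
  set p := ((M : ℝ) * gTail (thr n))⁻¹ with hp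
  set w' : Fin M → Sp n := fun f ↦ if w f ∈ Small then w f else 0 with hw'
  have conv : ∀ (P : Sp n → Prop) [DecidablePred fun f ↦ P (w' f)],
      ¬ P 0 → ∀ i, B i = Small ∩ {x | P x} →
      |p * ((Finset.univ.filter fun f ↦ P (w' f)).card : ℝ) -
        (gE n).real {x | P x} / gTail (thr n)| ≤ tol n := by
    intro P _ hP0 i hi
    have h := hw i
    have hcard : Nat.card {f : Fin M // w f ∈ B i} =
        (Finset.univ.filter fun f ↦ P (w' f)).card := by
      rw [Nat.card_eq_fintype_card, Fintype.card_subtype]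
      congr 1; ext f
      simp only [Finset.mem_filter, Finset.mem_univ, true_and, hi, Set.mem_inter_iff,
        Set.mem_ofPred_eq, hw']
      by_cases hs : w f ∈ Small <;> simp [hs, hP0]
    rw [hcard] at h
    have h1 : (gE n).real (B i) ≤ (gE n).real {x | P x} := by
      rw [hi]; exact measureReal_mono Set.inter_subset_right
    have h2 : (gE n).real {x | P x} ≤ (gE n).real (B i) + (gE n).real Smallᶜ := by
      refine (measureReal_mono ?_).trans (measureReal_union_le _ _)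
      intro x hx
      by_cases hs : x ∈ Small
      · exact Or.inl (hi ▸ ⟨hs, hx⟩)
      · exact Or.inr hs
    have hbig : (gE n).real Smallᶜ ≤ 2 * n * Real.exp (-((n : ℝ) ^ 2) / 2) := gE_big n
    set m := ((Finset.univ.filter fun f ↦ P (w' f)).card : ℝ) with hm
    have e : p * m - (gE n).real {x | P x} / gTail (thr n) =
        (m / M - (gE n).real {x | P x}) / gTail (thr n) := by rw [hp]; field_simp
    rw [e, abs_div, abs_of_pos hG, div_le_iff₀ hG]
    refine le_trans ?_ hB.tol_err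
    rw [abs_le] at h ⊢
    constructor <;> linarith [h.1, h.2]
  have hthr := hB.thr_two
  have hmar := hB.mar_small
  have hmp := mar_pos hn
  have inG : ∀ v : Sp n, v ∈ grid n → ‖v‖ ≤ 1 + 5 * err n → v ∈ G := fun v h1 h2 ↦ by
    rw [hGdef, mem_gridBall hn]
    refine ⟨h1, h2.trans ?_⟩
    have := hB.thr_err
    nlinarith [err_pos hn]
  refine ⟨⟨M, w', p, by positivity, ?_, ?_, ?_, ?_, ?_, ?_⟩⟩
  · rw [hp, inv_le_comm₀ (by positivity) (by norm_num), one_div, inv_inv]
    have : 2 / gTail (thr n) ≤ M := (Nat.le_ceil _).trans (by exact_mod_cast hM)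
    rwa [div_le_iff₀ hG] at this
  · intro f
    simp only [hw']
    by_cases hs : w f ∈ Small
    · rw [if_pos hs, EuclideanSpace.norm_eq, Real.sqrt_le_iff]
      refine ⟨by positivity, (Finset.sum_le_sum (g := fun _ ↦ (n : ℝ) ^ 2) fun i _ ↦ ?_).trans ?_⟩
      · rw [Real.norm_eq_abs]; exact pow_le_pow_left₀ (abs_nonneg _) (hs i) 2
      · have hN : (1 : ℝ) ≤ n := by exact_mod_cast hn
        simp only [Finset.sum_const, Finset.card_univ, Fintype.card_fin, nsmul_eq_mul]
        nlinarith [pow_le_pow_right₀ hN (show 3 ≤ 4 by norm_num)]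
    · rw [if_neg hs, norm_zero]; positivity
  · intro v hv1 hv2 hv3
    have h := conv (fun x ↦ thr n + mar n < ⟪v, x⟫) (by simp; linarith)
      (Sum.inl (⟨v, inG v hv1 hv2⟩, true)) (by simp [B])
    rw [abs_le] at h
    have h1 := gE_lo hB hv3
    rw [← le_div_iff₀ hG] at h1
    have h2 : Real.exp (-(cA * (depth v + 1))) + tol n ≤
        Real.exp (-(2 * cS * (depth v + 1) + 3)) := by
      have h3 : tol n ≤ Real.exp (-(cA * (depth v + 1))) :=
        hB.tol_lo.trans (Real.exp_le_exp.2 (by unfold cA; linarith))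
      have h4 : 2 * Real.exp (-(cA * (depth v + 1))) ≤
          Real.exp 1 * Real.exp (-(cA * (depth v + 1))) := by
        gcongr; linarith [Real.add_one_le_exp (1 : ℝ)]
      have h5 : Real.exp 1 * Real.exp (-(cA * (depth v + 1))) ≤
          Real.exp (-(2 * cS * (depth v + 1) + 3)) := by
        rw [← Real.exp_add]
        exact Real.exp_le_exp.2 (by unfold cA cS; linarith [Nat.cast_nonneg (α := ℝ) (depth v)])
      linarith
    linarith [h.1]
  · intro v hv1 hv2
    have h := conv (fun x ↦ thr n - mar n < ⟪v, x⟫) (by simp; linarith)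
      (Sum.inl (⟨v, inG v hv1 hv2⟩, false)) (by simp [B])
    rw [abs_le] at h
    have h1 := gE_hi hB hv2
    rw [← div_le_iff₀ hG] at h1
    have : tol n ≤ 1 := Real.exp_le_one_iff.2 (by
      have : (0 : ℝ) ≤ (n : ℝ) ^ (3 / 2 : ℝ) := by positivity
      linarith)
    linarith [h.2]
  · intro v v' hv hv' hvn hvn'
    have h := conv (fun x ↦ thr n + mar n < ⟪v, x⟫ ∧ thr n + mar n < ⟪v', x⟫)
      (fun h0 ↦ by have := h0.1; simp at this; linarith)
      (Sum.inr (Sum.inl (⟨v, inG v hv hvn⟩, ⟨v', inG v' hv' hvn'⟩))) (by simp [B]; rfl)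
    rw [abs_le] at h
    have h1 := gE_pair hB hvn hvn'
    rw [← div_le_iff₀ hG] at h1
    have h2 : tol n ≤ 2 * Real.exp (-(cS * n * ‖v - v'‖ ^ 2 / 8)) := by
      refine hB.tol_pair.trans ?_
      refine le_trans (Real.exp_le_exp.2 ?_) (le_mul_of_one_le_left (Real.exp_nonneg _) one_le_two)
      have hr : ‖v - v'‖ ≤ 3 := by
        refine (norm_sub_le _ _).trans ?_
        have := hB.thr_err
        nlinarith [err_pos hn]
      have := mul_le_mul_of_nonneg_left (pow_le_pow_left₀ (norm_nonneg _) hr 2)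
        (by unfold cS; positivity : (0 : ℝ) ≤ cS * n)
      linarith
    linarith [h.2]
  · intro c g hc hdc hg hcard
    have hgG : g ∈ G.powerset := Finset.mem_powerset.2 fun v hv ↦ inG v (hg v hv).1 (hg v hv).2.1
    rcases g.eq_empty_or_nonempty with rfl | ⟨v0, hv0⟩
    · have : (Finset.univ.filter fun f : Fin M ↦ ∀ v ∈ (∅ : Finset (Sp n)),
          thr n + mar n < ⟪v, w' f⟫) = Finset.univ := by simp
      rw [this, Finset.card_univ, Fintype.card_fin]
      have : p * M = 1 / gTail (thr n) := by rw [hp]; field_simp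
      rw [this]
      refine le_trans (Real.exp_le_one_iff.2 ?_) ((one_le_div hG).2 (gTail_le_one _))
      have := hB.log_one; unfold cG; linarith
    have h := conv (fun x ↦ ∀ v ∈ g, thr n + mar n < ⟪v, x⟫)
      (fun hall ↦ by have := hall v0 hv0; simp at this; linarith)
      (Sum.inr (Sum.inr ⟨g, hgG⟩)) (by ext x; simp [B])
    rw [abs_le] at h
    have h1 := gE_group hB hc hdc hg hcard
    rw [← le_div_iff₀ hG] at h1
    have h2 : Real.exp (-(cG * Real.log n)) + tol n ≤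
        Real.exp (-(1440022 * Real.log n + 4)) := by
      have h3 := hB.tol_group
      have h4 : 2 * Real.exp (-(cG * Real.log n)) ≤ Real.exp 1 * Real.exp (-(cG * Real.log n)) := by
        gcongr; linarith [Real.add_one_le_exp (1 : ℝ)]
      have h5 : Real.exp 1 * Real.exp (-(cG * Real.log n)) ≤
          Real.exp (-(1440022 * Real.log n + 4)) := by
        rw [← Real.exp_add]
        exact Real.exp_le_exp.2 (by unfold cG; linarith [hB.log_one])
      linarith
    linarith [h.1]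

end Vale.Agent.P230
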