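import Mathlib
import Vale.Agent.P230.Defs
import Vale.Agent.P230.Bernoulli
import Vale.Agent.P230.Cands

/-!
For one configuration of relevant translates, the probability that no test point is uncovered.
-/

open MeasureTheory Finset
open scoped RealInnerProductSpace Classical

noncomputable section

namespace Vale.Agent.P230

variable {n : ℕ}

/-- Numerical conditions used for one configuration. -/
structure BigF (n : ℕ) : Prop where
  two : 2 ≤ n
  mult_le : mult n ≤ (n : ℝ) ^ 3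
  mult_pos : 0 ≤ mult n
  dep0_nonneg : 0 ≤ dep0 n
  dep01 : dep0 n ≤ dep1 n
  rad_kappa : mult n * (32 * Real.exp (-(cS * n * rad0 n ^ 2 / 8))) ≤ clus n
  removed : 17 * clus n ≤ heavy n * (Real.exp (-(cA * (dep0 n + 1))) / 2)
  group_cost : cG * Real.log n + 1 ≤ Real.sqrt n
  slack_cost : mult n / clus n * (cG * Real.log n + 1) + heavy n * ((cA + 2) * (dep0 n + 1)) +
    deepMult n * ((cA + 2) * (dep1 n + 1)) ≤ slack n
  sep_small : mult n ^ 2 * (32 * Real.exp (-(cS * n * sep n ^ 2 / 8))) * Real.exp (2 * slack n) ≤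
    1 / 2
  main_far : Real.exp (3 / 2 * n) *
    (2 * Real.exp (2 * slack n) * (64 * mult n * Tmax n * Real.exp (-(33 / 10 * n)))) ≤ 1 / 8
  main_near : Real.exp (3 / 2 * n) *
    (Real.exp (8 * (cA + 2) * mult n) * (Tmax n ^ 2 * (2 * sep n) ^ n)) ≤ 1 / 8
  main_big : Tmax n * (n : ℝ) ^ 3 ≤ Real.exp (3 / 2 * n) / 4
  weight_one : Real.exp (3 / 2 * n) * Real.exp (4 * (cA + 2) * mult n) * err n ^ n ≤ 1
  err_sep : err n ≤ sep n
  err_one : err n ≤ 1 / 1000

/-- Indices of candidates whose halfspace robustly excludes the point. -/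
def kill (Ω : Cand n) (v : Sp n) : Finset (Fin Ω.M) :=
  univ.filter fun f ↦ thr n + mar n < ⟪v, Ω.w f⟫

/-- Indices of candidates excluding all points of a cluster. -/
def killAll (Ω : Cand n) (g : Finset (Sp n)) : Finset (Fin Ω.M) :=
  univ.filter fun f ↦ ∀ v ∈ g, thr n + mar n < ⟪v, Ω.w f⟫

/-- The translates relevant to a test point. -/
def rel (C : Finset (Sp n)) (q : Sp n) : Finset (Sp n) :=
  C.filter fun c ↦ ‖q - c‖ ≤ 1 + 3 * err n

/-- The positions of a test point inside the relevant translates. -/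
def offs (C : Finset (Sp n)) (q : Sp n) : Finset (Sp n) := (rel C q).image fun c ↦ q - c

/-- Test points with few relevant translates and no deep ones. -/
def good (C : Finset (Sp n)) : Finset (Sp n) :=
  (gridBall n (1 + 2 * err n)).filter fun q ↦ ((offs C q).card : ℝ) ≤ mult n ∧
    (((offs C q).filter fun v ↦ dep0 n < depth v).card : ℝ) ≤ deepMult n ∧
    (∑ v ∈ offs C q, (depth v : ℝ)) ≤ 2 * mult n ∧
    ∀ v ∈ offs C q, (depth v : ℝ) ≤ dep1 n

/-- Normalised volume of a rounding cell inside the unit ball. -/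
def wgt (q : Sp n) : ℝ :=
  volume.real ({y : Sp n | rd y = q} ∩ Metric.closedBall 0 1) /
    volume.real (Metric.closedBall (0 : Sp n) 1)

/-- Selections under which every good test point is covered. -/
def covered (Ω : Cand n) (C : Finset (Sp n)) : Set (Finset (Fin Ω.M)) :=
  {W | ∀ q ∈ good C, ∃ v ∈ offs C q, ∀ f ∈ W, f ∉ kill Ω v}

lemma wgt_nonneg (q : Sp n) : 0 ≤ wgt q := div_nonneg measureReal_nonneg measureReal_nonneg

lemma measurable_rd : Measurable (rd : Sp n → Sp n) := by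
  unfold rd
  fun_prop

lemma measurableSet_cell (q : Sp n) :
    MeasurableSet ({y : Sp n | rd y = q} ∩ Metric.closedBall 0 1) :=
  (measurable_rd (measurableSet_singleton q)).inter measurableSet_closedBall

lemma sum_wgt (hn : 0 < n) (s : Finset (Sp n)) :
    ∑ q ∈ s, wgt q = volume.real ({y : Sp n | rd y ∈ s} ∩ Metric.closedBall 0 1) /
      volume.real (Metric.closedBall (0 : Sp n) 1) := by
  simp only [wgt, ← Finset.sum_div]
  congr 1
  rw [← measureReal_biUnion_finset ?_ (fun q _ ↦ measurableSet_cell q)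
    (fun q _ ↦ measure_ne_top_of_subset Set.inter_subset_right measure_closedBall_lt_top.ne)]
  · congr 1; ext y; simp
  · intro a _ b _ hab
    refine Set.disjoint_left.2 ?_
    rintro y ⟨h1, -⟩ ⟨h2, -⟩
    exact hab (h1.symm.trans h2)

lemma sum_wgt_le_one (hn : 0 < n) (s : Finset (Sp n)) : ∑ q ∈ s, wgt q ≤ 1 := by
  rw [sum_wgt hn]
  exact div_le_one_of_le₀
    (measureReal_mono Set.inter_subset_right measure_closedBall_lt_top.ne) measureReal_nonneg

lemma sum_wgt_ball (hn : 0 < n) (s : Finset (Sp n)) (b : Sp n) {r : ℝ} (hr : 0 ≤ r) :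
    ∑ q ∈ s.filter (fun q ↦ ‖q - b‖ ≤ r), wgt q ≤ (r + err n) ^ n := by
  have hη := err_pos hn
  have hpos : 0 < volume.real (Metric.closedBall (0 : Sp n) 1) := ENNReal.toReal_pos
    (Metric.measure_closedBall_pos _ _ one_pos).ne' measure_closedBall_lt_top.ne
  rw [sum_wgt hn, div_le_iff₀ hpos]
  calc _ ≤ volume.real (Metric.closedBall b (r + err n)) := by
        refine measureReal_mono ?_ measure_closedBall_lt_top.ne
        rintro y ⟨hy, -⟩
        simp only [Set.mem_ofPred_eq, mem_filter] at hy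
        rw [Metric.mem_closedBall, dist_eq_norm]
        calc ‖y - b‖ ≤ ‖y - rd y‖ + ‖rd y - b‖ := norm_sub_le_norm_sub_add_norm_sub _ _ _
          _ ≤ _ := by linarith [norm_sub_rd_le hn y, hy.2]
    _ = _ := by
        haveI : Nonempty (Fin n) := ⟨⟨0, hn⟩⟩
        rw [Measure.addHaar_real_closedBall volume b (by positivity),
          finrank_euclideanSpace_fin, Measure.addHaar_real_closedBall volume 0 zero_le_one, one_pow,
          one_mul]

lemma sum_wgt_ite_ball (hn : 0 < n) (s : Finset (Sp n)) (b : Sp n) {r : ℝ} (hr : 0 ≤ r) :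
    (∑ q ∈ s, if ‖q - b‖ ≤ r then wgt q else 0) ≤ (r + err n) ^ n := by
  rw [← sum_filter]; exact sum_wgt_ball hn s b hr

lemma kappa_le (Ω : Cand n) {v v' : Sp n} (hv : v ∈ grid n) (hv' : v' ∈ grid n)
    (h : ‖v‖ ≤ 1 + 5 * err n) (h' : ‖v'‖ ≤ 1 + 5 * err n) :
    Ω.p * #(kill Ω v ∩ kill Ω v') ≤ 32 * Real.exp (-(cS * n * ‖v - v'‖ ^ 2 / 8)) := by
  have e : kill Ω v ∩ kill Ω v' = univ.filter fun f ↦
      thr n + mar n < ⟪v, Ω.w f⟫ ∧ thr n + mar n < ⟪v', Ω.w f⟫ := by
    ext f; simp [kill]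
  rw [e]; exact Ω.pair v v' hv hv' h h'

lemma kill_le (hn : 0 < n) (Ω : Cand n) {v : Sp n} (hv : v ∈ grid n) (h : ‖v‖ ≤ 1 + 5 * err n) :
    Ω.p * #(kill Ω v) ≤ 16 := by
  refine le_trans (mul_le_mul_of_nonneg_left ?_ Ω.p_pos.le) (Ω.hi v hv h)
  exact_mod_cast card_le_card fun f hf ↦ by
    simp only [kill, mem_filter, mem_univ, true_and] at hf ⊢
    linarith [mar_pos hn]

lemma offs_spec {C : Finset (Sp n)} (hC : ∀ c ∈ C, c ∈ grid n) {q v : Sp n} (hq : q ∈ grid n)
    (hv : v ∈ offs C q) : v ∈ grid n ∧ ‖v‖ ≤ 1 + 3 * err n := by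
  simp only [offs, rel, mem_image, mem_filter] at hv
  obtain ⟨c, ⟨hc, hn'⟩, rfl⟩ := hv
  exact ⟨sub_mem_grid hq (hC c hc), hn'⟩

lemma exp_neg_le_one_sub_exp {a x : ℝ} (ha : 0 ≤ a) (hx : Real.exp (-a) ≤ x) :
    Real.exp (-(a + 1)) ≤ 1 - Real.exp (-x) := by
  set e := Real.exp (-a) with he
  have he1 : e ≤ 1 := Real.exp_le_one_iff.2 (by linarith)
  have he0 : 0 < e := Real.exp_pos _
  have h1 : Real.exp (-x) ≤ Real.exp (-e) := Real.exp_le_exp.2 (by linarith)
  have h2 : Real.exp (-e) ≤ (1 + e)⁻¹ := by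
    rw [Real.exp_neg]; exact inv_anti₀ (by linarith) (by linarith [Real.add_one_le_exp e])
  have h3 : Real.exp (-(a + 1)) ≤ e / 2 := by
    rw [neg_add, Real.exp_add, div_eq_mul_inv]
    refine mul_le_mul_of_nonneg_left ?_ he0.le
    rw [Real.exp_neg]; exact inv_anti₀ two_pos (by linarith [Real.add_one_le_exp (1 : ℝ)])
  have h4 : e / 2 ≤ 1 - (1 + e)⁻¹ := by
    rw [show 1 - (1 + e)⁻¹ = e / (1 + e) by field_simp; ring]
    exact div_le_div_of_nonneg_left he0.le (by linarith) (by linarith)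
  linarith

lemma Pr_hit_lower (Ω : Cand n) {K : Finset (Fin Ω.M)} {a : ℝ} (ha : 0 ≤ a)
    (h : Real.exp (-a) ≤ Ω.p * #K) :
    Real.exp (-(a + 1)) ≤ Pr Ω.p (AllHit {K}) :=
  (exp_neg_le_one_sub_exp ha h).trans (Pr_hit_ge (by linarith [Ω.p_le]) K)

lemma prod_image_le {ι α : Type*} [Fintype ι] [DecidableEq ι] {p : ℝ} (h0 : 0 ≤ p) (h1 : p ≤ 1)
    (s : Finset α) (F : α → Finset ι) (cost : α → ℝ)
    (h : ∀ x ∈ s, Real.exp (-cost x) ≤ Pr p (AllHit {F x})) :
    Real.exp (-∑ x ∈ s, cost x) ≤ Pr p (AllHit (s.image F)) := by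
  induction s using Finset.induction_on with
  | empty => simp [AllHit, Pr_univ]
  | insert a s ha ih =>
    rw [sum_insert ha, image_insert, insert_eq, allHit_union, neg_add, Real.exp_add]
    refine le_trans ?_ (Pr_mul_le_inter h0 h1 (isUpperSet_allHit _) (isUpperSet_allHit _))
    exact mul_le_mul (h a (mem_insert_self _ _)) (ih fun x hx ↦ h x (mem_insert_of_mem hx))
      (Real.exp_nonneg _) (Pr_nonneg h0 h1 _)

lemma union3_le {ι : Type*} [Fintype ι] [DecidableEq ι] {p : ℝ} (h0 : 0 ≤ p) (h1 : p ≤ 1)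
    {I J K : Finset (Finset ι)} {a b c t : ℝ} (hI : Real.exp (-a) ≤ Pr p (AllHit I))
    (hJ : Real.exp (-b) ≤ Pr p (AllHit J)) (hK : Real.exp (-c) ≤ Pr p (AllHit K))
    (ht : a + b + c ≤ t) : Real.exp (-t) ≤ Pr p (AllHit (I ∪ J ∪ K)) := by
  rw [allHit_union, allHit_union]
  refine le_trans ?_ (Pr_mul_le_inter h0 h1
    ((isUpperSet_allHit I).inter (isUpperSet_allHit J)) (isUpperSet_allHit K))
  calc Real.exp (-t) ≤ Real.exp (-a) * Real.exp (-b) * Real.exp (-c) := by
        rw [← Real.exp_add, ← Real.exp_add]; exact Real.exp_le_exp.2 (by linarith)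
    _ ≤ _ := mul_le_mul (le_trans (mul_le_mul hI hJ (Real.exp_nonneg _) (Pr_nonneg h0 h1 _))
        (Pr_mul_le_inter h0 h1 (isUpperSet_allHit _) (isUpperSet_allHit _))) hK
        (Real.exp_nonneg _) (Pr_nonneg h0 h1 _)

/-- Greedy extraction of clusters. -/
lemma exists_clusters (r m : ℝ) (hm : 0 ≤ m) (hr : 0 ≤ r) (V : Finset (Sp n)) :
    ∃ G : Finset (Finset (Sp n)), ∃ S ⊆ V,
      (∀ g ∈ G, g ⊆ V ∧ ∃ c ∈ g, ∀ v ∈ g, ‖v - c‖ ≤ r) ∧
      (∀ v ∈ V, v ∈ S ∨ ∃ g ∈ G, v ∈ g) ∧ (#G : ℝ) * m ≤ #V ∧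
      ∀ v ∈ S, (#(S.filter fun u ↦ ‖u - v‖ ≤ r) : ℝ) ≤ m := by
  induction V using Finset.strongInduction with
  | H V ih =>
    by_cases h : ∃ v ∈ V, m < (#(V.filter fun u ↦ ‖u - v‖ ≤ r) : ℝ)
    · obtain ⟨c, hc, hcm⟩ := h
      set g := V.filter fun u ↦ ‖u - c‖ ≤ r with hg
      have hcg : c ∈ g := by simp [hg, hc, hr]
      obtain ⟨G, S, hS, h1, h2, h3, h4⟩ := ih (V \ g)
        (sdiff_ssubset (filter_subset _ _) ⟨c, hcg⟩)
      refine ⟨insert g G, S, hS.trans sdiff_subset, ?_, ?_, ?_, h4⟩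
      · intro x hx
        rcases mem_insert.1 hx with rfl | hx
        · exact ⟨filter_subset _ _, c, hcg, fun v hv ↦ (mem_filter.1 hv).2⟩
        · exact ⟨(h1 x hx).1.trans sdiff_subset, (h1 x hx).2⟩
      · intro v hv
        by_cases hvg : v ∈ g
        · exact Or.inr ⟨g, mem_insert_self _ _, hvg⟩
        · rcases h2 v (mem_sdiff.2 ⟨hv, hvg⟩) with h | ⟨x, hx, hvx⟩
          · exact Or.inl h
          · exact Or.inr ⟨x, mem_insert_of_mem hx, hvx⟩
      · have e : (#(V \ g) : ℝ) + #g = #V := by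
          exact_mod_cast card_sdiff_add_card_eq_card (filter_subset _ V)
        have e2 : (#(insert g G) : ℝ) ≤ #G + 1 := by exact_mod_cast card_insert_le g G
        nlinarith [mul_le_mul_of_nonneg_right e2 hm]
    · push_neg at h
      exact ⟨∅, V, subset_rfl, by simp, fun v hv ↦ Or.inl hv, by simp, h⟩

lemma card_heavy_le {ι α : Type*} [DecidableEq ι] (K : Finset ι) (S : Finset α) (F : α → Finset ι) (m : ℝ) :
    m * #(K.filter fun f ↦ ¬ ((#(S.filter fun u ↦ f ∈ F u) : ℝ) ≤ m)) ≤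
      ∑ u ∈ S, (#(K ∩ F u) : ℝ) := by
  calc _ ≤ ∑ f ∈ K.filter fun f ↦ ¬ ((#(S.filter fun u ↦ f ∈ F u) : ℝ) ≤ m),
        (#(S.filter fun u ↦ f ∈ F u) : ℝ) := by
        rw [mul_comm, ← nsmul_eq_mul, ← sum_const]
        exact sum_le_sum fun f hf ↦ (not_le.1 (mem_filter.1 hf).2).le
    _ ≤ ∑ f ∈ K, (#(S.filter fun u ↦ f ∈ F u) : ℝ) :=
        sum_le_sum_of_subset_of_nonneg (filter_subset _ _) fun _ _ _ ↦ Nat.cast_nonneg _
    _ = _ := by
        push_cast [card_filter]
        rw [sum_comm]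
        refine sum_congr rfl fun u _ ↦ ?_
        rw [sum_boole, filter_mem_eq_inter]

lemma sum_kappa_le (hB : BigF n) (Ω : Cand n) {V S : Finset (Sp n)} (hS : S ⊆ V)
    (hV : ∀ v ∈ V, v ∈ grid n ∧ ‖v‖ ≤ 1 + 3 * err n) (hk : (#V : ℝ) ≤ mult n) {v : Sp n}
    (hv : v ∈ V) (hnear : (#(S.filter fun u ↦ ‖u - v‖ ≤ rad0 n) : ℝ) ≤ clus n) :
    ∑ u ∈ S, Ω.p * #(kill Ω v ∩ kill Ω u) ≤ 17 * clus n := by
  have hη := err_pos (n := n) (by linarith [hB.two])
  have hn1 : ∀ u ∈ V, ‖u‖ ≤ 1 + 5 * err n := fun u hu ↦ by linarith [(hV u hu).2]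
  have hS0 : (0 : ℝ) ≤ cS * n := by unfold cS; positivity
  rw [← sum_filter_add_sum_filter_not S (fun u ↦ ‖u - v‖ ≤ rad0 n)]
  have h1 : ∑ u ∈ S.filter (fun u ↦ ‖u - v‖ ≤ rad0 n), Ω.p * #(kill Ω v ∩ kill Ω u) ≤
      16 * clus n := by
    refine (sum_le_sum (g := fun _ ↦ (16 : ℝ)) fun u _ ↦ le_trans ?_
      (kill_le (by linarith [hB.two]) Ω (hV v hv).1 (hn1 v hv))).trans ?_
    · refine mul_le_mul_of_nonneg_left ?_ Ω.p_pos.le
      exact_mod_cast card_le_card inter_subset_left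
    · rw [sum_const, nsmul_eq_mul, mul_comm]
      exact mul_le_mul_of_nonneg_left hnear (by norm_num)
  have h2 : ∑ u ∈ S.filter (fun u ↦ ¬ ‖u - v‖ ≤ rad0 n), Ω.p * #(kill Ω v ∩ kill Ω u) ≤
      clus n := by
    refine le_trans ?_ hB.rad_kappa
    refine (sum_le_sum (g := fun _ ↦ 32 * Real.exp (-(cS * n * rad0 n ^ 2 / 8)))
      fun u hu ↦ ?_).trans ?_
    · have hu' := mem_filter.1 hu
      refine (kappa_le Ω (hV v hv).1 (hV u (hS hu'.1)).1 (hn1 v hv) (hn1 u (hS hu'.1))).trans ?_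
      refine mul_le_mul_of_nonneg_left (Real.exp_le_exp.2 (neg_le_neg ?_)) (by norm_num)
      have hr : 0 ≤ rad0 n := by unfold rad0 thr; positivity
      have := mul_le_mul_of_nonneg_left
        (pow_le_pow_left₀ hr ((not_le.1 hu'.2).le.trans (norm_sub_rev u v).le) 2) hS0
      linarith
    · rw [sum_const, nsmul_eq_mul]
      refine mul_le_mul_of_nonneg_right (le_trans ?_ hk) (by positivity)
      exact_mod_cast card_le_card ((filter_subset _ _).trans hS)
  linarith

/-- The kills counted for an isolated shallow point. -/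
def light (Ω : Cand n) (S : Finset (Sp n)) (v : Sp n) : Finset (Fin Ω.M) :=
  (kill Ω v).filter fun f ↦ (#(S.filter fun u ↦ f ∈ kill Ω u) : ℝ) ≤ heavy n

lemma light_lower (hB : BigF n) (Ω : Cand n) {V S : Finset (Sp n)} (hS : S ⊆ V)
    (hV : ∀ v ∈ V, v ∈ grid n ∧ ‖v‖ ≤ 1 + 3 * err n) (hk : (#V : ℝ) ≤ mult n) {v : Sp n}
    (hv : v ∈ V) (hd : (depth v : ℝ) ≤ dep0 n)
    (hnear : (#(S.filter fun u ↦ ‖u - v‖ ≤ rad0 n) : ℝ) ≤ clus n) :
    Real.exp (-((cA + 2) * (depth v + 1))) ≤ Pr Ω.p (AllHit {light Ω S v}) := by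
  have hη := err_pos (n := n) (by linarith [hB.two])
  have hA : (0 : ℝ) ≤ cA := by unfold cA; norm_num
  have hH : 0 < heavy n := by
    unfold heavy; have : (0 : ℝ) < n := by exact_mod_cast (show 0 < n by linarith [hB.two])
    positivity
  have hlo := Ω.lo v (hV v hv).1 (by linarith [(hV v hv).2]) (hd.trans hB.dep01)
  change Real.exp (-(cA * (depth v + 1))) ≤ Ω.p * #(kill Ω v) at hlo
  set bad := (kill Ω v).filter fun f ↦ ¬ ((#(S.filter fun u ↦ f ∈ kill Ω u) : ℝ) ≤ heavy n)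
  have hcard : (#(light Ω S v) : ℝ) + #(bad) = #(kill Ω v) := by
    exact_mod_cast card_filter_add_card_filter_not _
  have hbad : Ω.p * #(bad) ≤ Real.exp (-(cA * (depth v + 1))) / 2 := by
    have h1 := mul_le_mul_of_nonneg_left (card_heavy_le (kill Ω v) S (kill Ω) (heavy n)) Ω.p_pos.le
    rw [mul_sum] at h1
    have h2 := h1.trans (sum_kappa_le hB Ω hS hV hk hv hnear)
    have h3 : Real.exp (-(cA * (dep0 n + 1))) ≤ Real.exp (-(cA * (depth v + 1))) :=
      Real.exp_le_exp.2 (neg_le_neg (mul_le_mul_of_nonneg_left (by linarith) hA))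
    have h4 := h2.trans (hB.removed.trans
      (mul_le_mul_of_nonneg_left (by linarith : Real.exp (-(cA * (dep0 n + 1))) / 2 ≤
        Real.exp (-(cA * (depth v + 1))) / 2) hH.le))
    rw [← mul_assoc, mul_comm Ω.p, mul_assoc] at h4
    exact le_of_mul_le_mul_left h4 hH
  have h5 : Real.exp (-(cA * (depth v + 1) + 1)) ≤ Ω.p * #(light Ω S v) := by
    have h6 : Real.exp (-(cA * (depth v + 1) + 1)) ≤ Real.exp (-(cA * (depth v + 1))) / 2 := by
      rw [neg_add, Real.exp_add, div_eq_mul_inv]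
      refine mul_le_mul_of_nonneg_left ?_ (Real.exp_nonneg _)
      rw [Real.exp_neg]; exact inv_anti₀ two_pos (by linarith [Real.add_one_le_exp (1 : ℝ)])
    have : Ω.p * #(kill Ω v) = Ω.p * #(light Ω S v) + Ω.p * #(bad) := by rw [← mul_add, hcard]
    linarith
  refine le_trans (Real.exp_le_exp.2 ?_) (Pr_hit_lower Ω (by positivity) h5)
  linarith [Nat.cast_nonneg (α := ℝ) (depth v)]

lemma deep_lower (hB : BigF n) (Ω : Cand n) {v : Sp n} (hv : v ∈ grid n)
    (hn1 : ‖v‖ ≤ 1 + 3 * err n) (hd : (depth v : ℝ) ≤ dep1 n) :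
    Real.exp (-((cA + 2) * (depth v + 1))) ≤ Pr Ω.p (AllHit {kill Ω v}) := by
  have hη := err_pos (n := n) (by linarith [hB.two])
  have hA : (0 : ℝ) ≤ cA := by unfold cA; norm_num
  refine le_trans (Real.exp_le_exp.2 ?_)
    (Pr_hit_lower Ω (a := cA * (depth v + 1)) (by positivity) (Ω.lo v hv (by linarith) hd))
  linarith [Nat.cast_nonneg (α := ℝ) (depth v)]

/-- The hitting families attached to a good test point. -/
theorem exists_family (hB : BigF n) (Ω : Cand n) {C : Finset (Sp n)} (hC : ∀ c ∈ C, c ∈ grid n)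
    {q : Sp n} (hq : q ∈ good C) :
    ∃ I : Finset (Finset (Fin Ω.M)),
      (∀ W, W ∈ AllHit I → ∀ v ∈ offs C q, ∃ f ∈ W, f ∈ kill Ω v) ∧
      supp I ⊆ (offs C q).biUnion (kill Ω) ∧
      Real.exp (-(4 * (cA + 2) * mult n)) ≤ Pr Ω.p (AllHit I) ∧
      ∀ f, Real.exp (-slack n) ≤ Pr Ω.p (AllHit (I.filter fun K ↦ f ∈ K)) := by
  have hn : 0 < n := by linarith [hB.two]
  have hη := err_pos hn
  simp only [good, mem_filter, mem_gridBall hn] at hq
  obtain ⟨⟨hqg, -⟩, hk, hdeep, hsum, hd1⟩ := hq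
  set V := offs C q with hVdef
  have hV : ∀ v ∈ V, v ∈ grid n ∧ ‖v‖ ≤ 1 + 3 * err n := fun v hv ↦ offs_spec hC hqg hv
  set V0 := V.filter fun v ↦ (depth v : ℝ) ≤ dep0 n with hV0
  set V1 := V.filter fun v ↦ dep0 n < (depth v : ℝ) with hV1
  have hA : (0 : ℝ) ≤ cA + 2 := by unfold cA; norm_num
  have hcl : 0 < clus n := Real.sqrt_pos.2 (by exact_mod_cast hn)
  obtain ⟨G, S, hSV0, hG, hcov, hGcard, hS⟩ := exists_clusters (rad0 n) (clus n) hcl.le
    (by unfold rad0 thr; positivity) V0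
  have hSV : S ⊆ V := hSV0.trans (filter_subset _ _)
  have hp0 := Ω.p_pos.le
  have hp1 : Ω.p ≤ 1 := by linarith [Ω.p_le]
  have hgroup : ∀ g ∈ G,
      Real.exp (-(cG * Real.log n + 1)) ≤ Pr Ω.p (AllHit {killAll Ω g}) := by
    intro g hg
    obtain ⟨hgV, c, hcg, hc⟩ := hG g hg
    have hgV' : g ⊆ V := hgV.trans (filter_subset _ _)
    refine Pr_hit_lower Ω (mul_nonneg (by unfold cG; norm_num) (Real.log_natCast_nonneg n))
      (Ω.group c g (by linarith [(hV c (hgV' hcg)).2]) (hd1 c (hgV' hcg))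
        (fun v hv ↦ ⟨(hV v (hgV' hv)).1, by linarith [(hV v (hgV' hv)).2], hd1 v (hgV' hv),
          hc v hv⟩) ?_)
    exact le_trans (by exact_mod_cast card_le_card hgV') (hk.trans hB.mult_le)
  have hlight : ∀ v ∈ S,
      Real.exp (-((cA + 2) * (depth v + 1))) ≤ Pr Ω.p (AllHit {light Ω S v}) := fun v hv ↦
    light_lower hB Ω hSV hV hk (hSV hv) (mem_filter.1 (hSV0 hv)).2 (hS v hv)
  have hdl : ∀ v ∈ V1,
      Real.exp (-((cA + 2) * (depth v + 1))) ≤ Pr Ω.p (AllHit {kill Ω v}) := fun v hv ↦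
    deep_lower hB Ω (hV v (mem_filter.1 hv).1).1 (hV v (mem_filter.1 hv).1).2
      (hd1 v (mem_filter.1 hv).1)
  have hGn : (#G : ℝ) ≤ mult n / clus n := by
    rw [le_div_iff₀ hcl]
    refine hGcard.trans (le_trans ?_ hk)
    exact_mod_cast card_le_card (filter_subset _ _)
  have hg0 : 0 ≤ cG * Real.log n + 1 := by
    have := Real.log_natCast_nonneg n; unfold cG; positivity
  refine ⟨G.image (killAll Ω) ∪ S.image (light Ω S) ∪ V1.image (kill Ω), ?_, ?_, ?_, ?_⟩
  · intro W hW v hv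
    have hit : ∀ K ∈ G.image (killAll Ω) ∪ S.image (light Ω S) ∪ V1.image (kill Ω),
        ∃ f ∈ K, f ∈ W := hW
    by_cases hdv : (depth v : ℝ) ≤ dep0 n
    · rcases hcov v (mem_filter.2 ⟨hv, hdv⟩) with h | ⟨g, hg, hvg⟩
      · obtain ⟨f, hf, hfW⟩ := hit (light Ω S v)
          (mem_union_left _ (mem_union_right _ (mem_image_of_mem _ h)))
        exact ⟨f, hfW, (mem_filter.1 hf).1⟩
      · obtain ⟨f, hf, hfW⟩ := hit (killAll Ω g)
          (mem_union_left _ (mem_union_left _ (mem_image_of_mem _ hg)))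
        simp only [killAll, mem_filter, mem_univ, true_and] at hf
        exact ⟨f, hfW, by simp [kill, hf v hvg]⟩
    · obtain ⟨f, hf, hfW⟩ := hit (kill Ω v)
        (mem_union_right _ (mem_image_of_mem _ (mem_filter.2 ⟨hv, not_le.1 hdv⟩)))
      exact ⟨f, hfW, hf⟩
  · intro f hf
    simp only [supp, mem_biUnion, mem_union, mem_image, id] at hf
    obtain ⟨K, hK, hfK⟩ := hf
    rcases hK with (⟨g, hg, rfl⟩ | ⟨v, hv, rfl⟩) | ⟨v, hv, rfl⟩
    · obtain ⟨hgV, c, hcg, -⟩ := hG g hg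
      simp only [killAll, mem_filter, mem_univ, true_and] at hfK
      exact mem_biUnion.2 ⟨c, (mem_filter.1 (hgV hcg)).1, by simp [kill, hfK c hcg]⟩
    · exact mem_biUnion.2 ⟨v, hSV hv, (mem_filter.1 hfK).1⟩
    · exact mem_biUnion.2 ⟨v, (mem_filter.1 hv).1, hfK⟩
  · refine union3_le hp0 hp1 (prod_image_le hp0 hp1 G _ _ hgroup)
      (prod_image_le hp0 hp1 S _ _ hlight) (prod_image_le hp0 hp1 V1 _ _ hdl) ?_
    have hdisj : Disjoint S V1 := disjoint_left.2 fun v h1 h2 ↦
      absurd (mem_filter.1 (hSV0 h1)).2 (not_le.2 (mem_filter.1 h2).2)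
    have h1 : ∑ v ∈ S ∪ V1, (cA + 2) * ((depth v : ℝ) + 1) ≤ 3 * ((cA + 2) * mult n) := by
      refine (sum_le_sum_of_subset_of_nonneg (union_subset hSV (filter_subset _ _))
        fun v _ _ ↦ by positivity).trans ?_
      rw [← mul_sum, sum_add_distrib]
      simp only [sum_const, nsmul_eq_mul, mul_one]
      nlinarith [mul_le_mul_of_nonneg_left hk hA, mul_le_mul_of_nonneg_left hsum hA]
    rw [sum_union hdisj] at h1
    have h2 : (∑ _g ∈ G, (cG * Real.log n + 1)) ≤ (cA + 2) * mult n := by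
      rw [sum_const, nsmul_eq_mul]
      calc (#G : ℝ) * (cG * Real.log n + 1) ≤ mult n / clus n * clus n :=
            mul_le_mul hGn hB.group_cost hg0 (div_nonneg hB.mult_pos hcl.le)
        _ = 1 * mult n := by rw [div_mul_cancel₀ _ hcl.ne', one_mul]
        _ ≤ _ := mul_le_mul_of_nonneg_right (by unfold cA; norm_num) hB.mult_pos
    linarith
  · intro f
    rw [filter_union, filter_union, filter_image, filter_image, filter_image]
    refine union3_le hp0 hp1
      (prod_image_le hp0 hp1 _ _ _ fun g hg ↦ hgroup g (mem_filter.1 hg).1)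
      (prod_image_le hp0 hp1 _ _ _ fun v hv ↦ hlight v (mem_filter.1 hv).1)
      (prod_image_le hp0 hp1 _ _ _ fun v hv ↦ hdl v (mem_filter.1 hv).1) ?_
    refine le_trans (add_le_add (add_le_add ?_ ?_) ?_) hB.slack_cost
    · rw [sum_const, nsmul_eq_mul]
      exact mul_le_mul_of_nonneg_right (le_trans (by exact_mod_cast card_filter_le _ _) hGn) hg0
    · refine (sum_le_card_nsmul _ _ ((cA + 2) * (dep0 n + 1)) fun v hv ↦ ?_).trans ?_
      · exact mul_le_mul_of_nonneg_left
          (by linarith [(mem_filter.1 (hSV0 (mem_filter.1 hv).1)).2]) hA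
      · rw [nsmul_eq_mul]
        refine mul_le_mul_of_nonneg_right ?_ (mul_nonneg hA (by linarith [hB.dep0_nonneg]))
        rcases (S.filter fun v ↦ f ∈ light Ω S v).eq_empty_or_nonempty with he | ⟨v, hv⟩
        · rw [he]; simp only [card_empty, Nat.cast_zero]; unfold heavy; positivity
        · refine le_trans ?_ (mem_filter.1 (mem_filter.1 hv).2).2
          exact_mod_cast card_le_card fun u hu ↦ mem_filter.2
            ⟨(mem_filter.1 hu).1, (mem_filter.1 (mem_filter.1 hu).2).1⟩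
    · refine (sum_le_card_nsmul _ _ ((cA + 2) * (dep1 n + 1)) fun v hv ↦ ?_).trans ?_
      · exact mul_le_mul_of_nonneg_left
          (by linarith [hd1 v (mem_filter.1 (mem_filter.1 hv).1).1]) hA
      · rw [nsmul_eq_mul]
        refine mul_le_mul_of_nonneg_right (le_trans ?_ hdeep)
          (mul_nonneg hA (by linarith [hB.dep0_nonneg, hB.dep01]))
        exact_mod_cast card_filter_le _ _

/-- Shared kills of two test points, separated pairs only. -/
def farTerm (C : Finset (Sp n)) (q q' : Sp n) : ℝ :=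
  ∑ c ∈ rel C q, ∑ c' ∈ rel C q',
    if sep n ≤ ‖(q - c) - (q' - c')‖ then
      32 * Real.exp (-(cS * n * ‖(q - c) - (q' - c')‖ ^ 2 / 8)) else 0

/-- Number of nearly coincident offsets of two test points. -/
def nearTerm (C : Finset (Sp n)) (q q' : Sp n) : ℝ :=
  ∑ c ∈ C, ∑ c' ∈ C, if ‖q' - (q - c + c')‖ ≤ sep n then 1 else 0

lemma farTerm_nonneg (C : Finset (Sp n)) (q q' : Sp n) : 0 ≤ farTerm C q q' :=
  sum_nonneg fun c _ ↦ sum_nonneg fun c' _ ↦ by split <;> positivity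

lemma nearTerm_nonneg (C : Finset (Sp n)) (q q' : Sp n) : 0 ≤ nearTerm C q q' :=
  sum_nonneg fun c _ ↦ sum_nonneg fun c' _ ↦ by split <;> positivity

lemma card_offs (C : Finset (Sp n)) (q : Sp n) : #(offs C q) = #(rel C q) :=
  card_image_of_injective _ sub_right_injective

lemma pair_bound (hB : BigF n) (Ω : Cand n) {C : Finset (Sp n)} (hC : ∀ c ∈ C, c ∈ grid n)
    {q q' : Sp n} (hq : q ∈ good C) (hq' : q' ∈ good C) {I J : Finset (Finset (Fin Ω.M))}
    (hI : supp I ⊆ (offs C q).biUnion (kill Ω)) (hJ : supp J ⊆ (offs C q').biUnion (kill Ω))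
    (hIP : Real.exp (-(4 * (cA + 2) * mult n)) ≤ Pr Ω.p (AllHit I))
    (hJP : Real.exp (-(4 * (cA + 2) * mult n)) ≤ Pr Ω.p (AllHit J))
    (hIf : ∀ f, Real.exp (-slack n) ≤ Pr Ω.p (AllHit (I.filter fun K ↦ f ∈ K)))
    (hJf : ∀ f, Real.exp (-slack n) ≤ Pr Ω.p (AllHit (J.filter fun K ↦ f ∈ K))) :
    Pr Ω.p (Overlap I J) ≤ Pr Ω.p (AllHit I) * Pr Ω.p (AllHit J) *
      (2 * Real.exp (2 * slack n) * farTerm C q q' +
        Real.exp (8 * (cA + 2) * mult n) * nearTerm C q q') := by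
  have hn : 0 < n := by linarith [hB.two]
  have hp0 := Ω.p_pos.le
  have hp1 : Ω.p ≤ 1 := by linarith [Ω.p_le]
  have hPP : 0 ≤ Pr Ω.p (AllHit I) * Pr Ω.p (AllHit J) :=
    mul_nonneg (Pr_nonneg hp0 hp1 _) (Pr_nonneg hp0 hp1 _)
  have hFar := farTerm_nonneg C q q'
  have hNear := nearTerm_nonneg C q q'
  by_cases hnear : ∃ c ∈ C, ∃ c' ∈ C, ‖q' - (q - c + c')‖ ≤ sep n
  · obtain ⟨c, hc, c', hc', hle⟩ := hnear
    have h1 : 1 ≤ nearTerm C q q' := by
      refine le_trans ?_ (single_le_sum (fun x _ ↦ sum_nonneg fun y _ ↦ by split <;> norm_num) hc)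
      refine le_trans ?_ (single_le_sum (fun y _ ↦ by split <;> norm_num) hc')
      simp [hle]
    have h2 : (1 : ℝ) ≤ Pr Ω.p (AllHit I) * Pr Ω.p (AllHit J) *
        Real.exp (8 * (cA + 2) * mult n) := by
      have := mul_le_mul hIP hJP (Real.exp_nonneg _) (Pr_nonneg hp0 hp1 _)
      refine le_trans ?_ (mul_le_mul_of_nonneg_right this (Real.exp_nonneg _))
      rw [← Real.exp_add, ← Real.exp_add]
      exact Real.one_le_exp (by linarith)
    refine (Pr_le_one hp0 hp1 _).trans (h2.trans (mul_le_mul_of_nonneg_left ?_ hPP))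
    refine le_trans (le_mul_of_one_le_right (Real.exp_nonneg _) h1) ?_
    exact le_add_of_nonneg_left (by positivity)
  · push_neg at hnear
    have hqg := ((mem_gridBall hn).1 (mem_filter.1 hq).1).1
    have hqg' := ((mem_gridBall hn).1 (mem_filter.1 hq').1).1
    have hη := err_pos hn
    have hsep : ∀ c ∈ rel C q, ∀ c' ∈ rel C q', sep n ≤ ‖(q - c) - (q' - c')‖ := by
      intro c hc c' hc'
      refine (hnear c (mem_filter.1 hc).1 c' (mem_filter.1 hc').1).le.trans_eq ?_
      rw [norm_sub_rev]; congr 1; module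
    have hcard : Ω.p * #(supp I ∩ supp J) ≤ farTerm C q q' := by
      have hsub : supp I ∩ supp J ⊆
          (rel C q).biUnion fun c ↦ (rel C q').biUnion fun c' ↦
            kill Ω (q - c) ∩ kill Ω (q' - c') := by
        intro f hf
        obtain ⟨hfI, hfJ⟩ := mem_inter.1 hf
        obtain ⟨v, hv, hfv⟩ := mem_biUnion.1 (hI hfI)
        obtain ⟨v', hv', hfv'⟩ := mem_biUnion.1 (hJ hfJ)
        obtain ⟨c, hc, rfl⟩ := mem_image.1 hv
        obtain ⟨c', hc', rfl⟩ := mem_image.1 hv'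
        exact mem_biUnion.2 ⟨c, hc, mem_biUnion.2 ⟨c', hc', mem_inter.2 ⟨hfv, hfv'⟩⟩⟩
      have h1 : (#(supp I ∩ supp J) : ℝ) ≤ ∑ c ∈ rel C q, ∑ c' ∈ rel C q',
          (#(kill Ω (q - c) ∩ kill Ω (q' - c')) : ℝ) := by
        exact_mod_cast (card_le_card hsub).trans
          (card_biUnion_le.trans (sum_le_sum fun c _ ↦ card_biUnion_le))
      refine (mul_le_mul_of_nonneg_left h1 hp0).trans ?_
      rw [mul_sum]
      refine sum_le_sum fun c hc ↦ ?_
      rw [mul_sum]
      refine sum_le_sum fun c' hc' ↦ ?_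
      rw [if_pos (hsep c hc c' hc')]
      have hvc := offs_spec hC hqg (mem_image_of_mem (fun c ↦ q - c) hc)
      have hvc' := offs_spec hC hqg' (mem_image_of_mem (fun c ↦ q' - c) hc')
      exact kappa_le Ω hvc.1 hvc'.1 (by linarith [hvc.2]) (by linarith [hvc'.2])
    have hfar : farTerm C q q' ≤ mult n ^ 2 * (32 * Real.exp (-(cS * n * sep n ^ 2 / 8))) := by
      have hq1 : (#(rel C q) : ℝ) ≤ mult n := card_offs C q ▸ (mem_filter.1 hq).2.1
      have hq2 : (#(rel C q') : ℝ) ≤ mult n := card_offs C q' ▸ (mem_filter.1 hq').2.1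
      refine (sum_le_card_nsmul _ _ (#(rel C q') • (32 * Real.exp (-(cS * n * sep n ^ 2 / 8))))
        fun c hc ↦ sum_le_card_nsmul _ _ _ fun c' hc' ↦ ?_).trans ?_
      · rw [if_pos (hsep c hc c' hc')]
        refine mul_le_mul_of_nonneg_left (Real.exp_le_exp.2 (neg_le_neg ?_)) (by norm_num)
        have h0 : 0 ≤ sep n := by unfold sep; positivity
        have := mul_le_mul_of_nonneg_left (pow_le_pow_left₀ h0 (hsep c hc c' hc') 2)
          (by unfold cS; positivity : (0 : ℝ) ≤ cS * n)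
        linarith
      · rw [nsmul_eq_mul, nsmul_eq_mul, ← mul_assoc, pow_two (mult n)]
        exact mul_le_mul_of_nonneg_right
          (mul_le_mul hq1 hq2 (Nat.cast_nonneg _) hB.mult_pos) (by positivity)
    have hr2 : Real.exp (-slack n) ^ 2 = (Real.exp (2 * slack n))⁻¹ := by
      rw [← Real.exp_nat_mul, ← Real.exp_neg]; congr 1; ring
    have hθ : Ω.p * #(supp I ∩ supp J) ≤ Real.exp (-slack n) ^ 2 / 2 := by
      refine (hcard.trans hfar).trans ?_
      rw [hr2, inv_eq_one_div, div_div, le_div_iff₀ (by positivity)]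
      linarith [hB.sep_small]
    refine (Pr_overlap_le hp0 hp1 I J (Real.exp_pos _) (fun f _ ↦ hIf f) (fun f _ ↦ hJf f)
      hθ).trans ?_
    rw [hr2, div_inv_eq_mul, mul_comm (2 * _)]
    refine mul_le_mul_of_nonneg_left ?_ hPP
    refine le_trans ?_ (le_add_of_nonneg_right (by positivity))
    nlinarith [mul_le_mul_of_nonneg_right hcard (Real.exp_nonneg (2 * slack n))]

lemma sum_far_le (hB : BigF n) {C : Finset (Sp n)} (hT : (#C : ℝ) ≤ Tmax n) :
    ∑ q ∈ good C, ∑ q' ∈ good C, wgt q * wgt q' * farTerm C q q' ≤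
      64 * mult n * Tmax n * Real.exp (-(33 / 10 * n)) := by
  have hn : 0 < n := by linarith [hB.two]
  have hη := err_pos hn
  set e := Real.exp (-(33 / 10 * n)) with he
  have key : ∀ c' ∈ C, ∀ v : Sp n,
      ∑ q' ∈ good C, wgt q' * (32 * Real.exp (-(cS * n * ‖v - (q' - c')‖ ^ 2 / 8))) ≤ 64 * e := by
    intro c' _ v
    have hb : ∀ q' : Sp n, wgt q' * (32 * Real.exp (-(cS * n * ‖v - (q' - c')‖ ^ 2 / 8))) ≤
        32 * e * wgt q' + 32 * (if ‖q' - (v + c')‖ ≤ 1 / 30 then wgt q' else 0) := by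
      intro q'
      have hw := wgt_nonneg q'
      have hnorm : ‖v - (q' - c')‖ = ‖q' - (v + c')‖ := by rw [norm_sub_rev]; congr 1; module
      rw [hnorm]
      by_cases h : ‖q' - (v + c')‖ ≤ 1 / 30
      · rw [if_pos h]
        have h0 : (0 : ℝ) ≤ cS * n * ‖q' - (v + c')‖ ^ 2 / 8 := by unfold cS; positivity
        nlinarith [mul_le_mul_of_nonneg_left (Real.exp_le_one_iff.2 (neg_nonpos.2 h0)) hw,
          mul_nonneg (Real.exp_nonneg (-(33 / 10 * (n : ℝ)))) hw]
      · rw [if_neg h, mul_zero, add_zero, mul_comm (wgt q')]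
        refine mul_le_mul_of_nonneg_right
          (mul_le_mul_of_nonneg_left (Real.exp_le_exp.2 (neg_le_neg ?_)) (by norm_num)) hw
        have := mul_le_mul_of_nonneg_left
          (pow_le_pow_left₀ (by norm_num) (not_le.1 h).le 2)
          (by unfold cS; positivity : (0 : ℝ) ≤ cS * n)
        have hcs : cS * (n : ℝ) * (1 / 30 : ℝ) ^ 2 / 8 = 25 / 6 * n := by unfold cS; ring
        linarith [Nat.cast_nonneg (α := ℝ) n]
    refine (sum_le_sum fun q' _ ↦ hb q').trans ?_
    rw [sum_add_distrib, ← mul_sum, ← mul_sum]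
    have h1 := mul_le_mul_of_nonneg_left (sum_wgt_le_one hn (good C))
      (by positivity : (0 : ℝ) ≤ 32 * e)
    have h2 : (∑ q' ∈ good C, if ‖q' - (v + c')‖ ≤ 1 / 30 then wgt q' else 0) ≤ e := by
      refine (sum_wgt_ite_ball hn _ _ (by norm_num)).trans ?_
      calc (1 / 30 + err n) ^ n ≤ (Real.exp (-(33 / 10))) ^ n := by
            refine pow_le_pow_left₀ (by positivity) ?_ n
            have h29 : Real.exp (33 / 10) ≤ 29 := by
              have h03 : Real.exp (3 / 10) ≤ 10 / 7 :=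
                (Real.exp_bound_div_one_sub_of_interval (by norm_num) (by norm_num)).trans_eq
                  (by norm_num)
              rw [show (33 / 10 : ℝ) = ((3 : ℕ) : ℝ) * 1 + 3 / 10 by norm_num, Real.exp_add,
                Real.exp_nat_mul]
              have h3 := pow_le_pow_left₀ (Real.exp_pos 1).le Real.exp_one_lt_d9.le 3
              calc Real.exp 1 ^ 3 * Real.exp (3 / 10) ≤ 2.7182818286 ^ 3 * (10 / 7) := by gcongr
                _ ≤ 29 := by norm_num
            have : (1 : ℝ) / 29 ≤ Real.exp (-(33 / 10)) := by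
              rw [Real.exp_neg, one_div]; exact inv_anti₀ (Real.exp_pos _) h29
            linarith [hB.err_one]
        _ = e := by rw [← Real.exp_nat_mul, he]; congr 1; ring
    linarith
  calc ∑ q ∈ good C, ∑ q' ∈ good C, wgt q * wgt q' * farTerm C q q'
      ≤ ∑ q ∈ good C, wgt q * ∑ c ∈ rel C q, ∑ c' ∈ C, ∑ q' ∈ good C,
          wgt q' * (32 * Real.exp (-(cS * n * ‖(q - c) - (q' - c')‖ ^ 2 / 8))) := by
        refine sum_le_sum fun q _ ↦ ?_
        simp_rw [mul_assoc (wgt q), ← mul_sum]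
        refine mul_le_mul_of_nonneg_left ?_ (wgt_nonneg q)
        unfold farTerm
        simp_rw [mul_sum]
        rw [sum_comm]
        refine sum_le_sum fun c _ ↦ ?_
        rw [sum_comm (s := C)]
        refine sum_le_sum fun q' _ ↦ ?_
        have hw := wgt_nonneg q'
        refine (sum_le_sum fun c' _ ↦ ?_).trans
          (sum_le_sum_of_subset_of_nonneg (filter_subset _ _) fun c' _ _ ↦ by positivity)
        split <;> [exact le_rfl; exact (mul_zero (wgt q')).le.trans (by positivity)]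
    _ ≤ ∑ q ∈ good C, wgt q * (mult n * (Tmax n * (64 * e))) := by
        refine sum_le_sum fun q hq ↦ mul_le_mul_of_nonneg_left ?_ (wgt_nonneg q)
        refine (sum_le_card_nsmul _ _ (Tmax n * (64 * e)) fun c _ ↦ ?_).trans ?_
        · refine (sum_le_card_nsmul _ _ (64 * e) fun c' hc' ↦ key c' hc' _).trans ?_
          rw [nsmul_eq_mul]; exact mul_le_mul_of_nonneg_right hT (by positivity)
        · rw [nsmul_eq_mul]
          exact mul_le_mul_of_nonneg_right (card_offs C q ▸ (mem_filter.1 hq).2.1)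
            (by unfold Tmax; positivity)
    _ ≤ 1 * (mult n * (Tmax n * (64 * e))) := by
        rw [← sum_mul]
        exact mul_le_mul_of_nonneg_right (sum_wgt_le_one hn _)
          (mul_nonneg hB.mult_pos (by unfold Tmax; positivity))
    _ = _ := by ring

lemma sum_near_le (hB : BigF n) {C : Finset (Sp n)} (hT : (#C : ℝ) ≤ Tmax n) :
    ∑ q ∈ good C, ∑ q' ∈ good C, wgt q * wgt q' * nearTerm C q q' ≤
      Tmax n ^ 2 * (2 * sep n) ^ n := by
  have hn : 0 < n := by linarith [hB.two]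
  have hs : 0 ≤ sep n := by unfold sep; positivity
  have hb : ∀ q : Sp n, ∀ c c' : Sp n,
      ∑ q' ∈ good C, wgt q' * (if ‖q' - (q - c + c')‖ ≤ sep n then 1 else 0) ≤
        (2 * sep n) ^ n := by
    intro q c c'
    simp only [mul_ite, mul_one, mul_zero]
    refine (sum_wgt_ite_ball hn _ _ hs).trans ?_
    exact pow_le_pow_left₀ (by linarith [err_pos hn]) (by linarith [hB.err_sep]) n
  calc ∑ q ∈ good C, ∑ q' ∈ good C, wgt q * wgt q' * nearTerm C q q'
      = ∑ q ∈ good C, wgt q * ∑ c ∈ C, ∑ c' ∈ C, ∑ q' ∈ good C,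
          wgt q' * (if ‖q' - (q - c + c')‖ ≤ sep n then 1 else 0) := by
        refine sum_congr rfl fun q _ ↦ ?_
        simp_rw [mul_assoc (wgt q), ← mul_sum]
        congr 1
        unfold nearTerm
        simp_rw [mul_sum]
        rw [sum_comm]
        exact sum_congr rfl fun c _ ↦ sum_comm
    _ ≤ ∑ q ∈ good C, wgt q * (Tmax n * (Tmax n * (2 * sep n) ^ n)) := by
        refine sum_le_sum fun q _ ↦ mul_le_mul_of_nonneg_left ?_ (wgt_nonneg q)
        refine (sum_le_card_nsmul _ _ (Tmax n * (2 * sep n) ^ n) fun c _ ↦ ?_).trans ?_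
        · refine (sum_le_card_nsmul _ _ _ fun c' _ ↦ hb q c c').trans ?_
          rw [nsmul_eq_mul]; exact mul_le_mul_of_nonneg_right hT (by positivity)
        · rw [nsmul_eq_mul]
          exact mul_le_mul_of_nonneg_right hT (by unfold Tmax; positivity)
    _ ≤ 1 * (Tmax n * (Tmax n * (2 * sep n) ^ n)) := by
        rw [← sum_mul]
        exact mul_le_mul_of_nonneg_right (sum_wgt_le_one hn _) (by unfold Tmax; positivity)
    _ = _ := by ring

/-- For a fixed configuration, full coverage of the test points is extremely unlikely. -/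
theorem Pr_covered_le (hB : BigF n) (Ω : Cand n) {C : Finset (Sp n)}
    (hC : ∀ c ∈ C, c ∈ grid n) (hT : (#C : ℝ) ≤ Tmax n)
    (hmass : 1 / 2 ≤ ∑ q ∈ good C, wgt q) :
    Pr Ω.p (covered Ω C) ≤ Real.exp (-(Tmax n * (n : ℝ) ^ 3)) := by
  have hn : 0 < n := by linarith [hB.two]
  have hp0 := Ω.p_pos.le
  have hp1 : Ω.p ≤ 1 := by linarith [Ω.p_le]
  choose! fam hcov hsupp hP hPf using fun q (hq : q ∈ good C) ↦ exists_family hB Ω hC hq
  set m := Real.exp (3 / 2 * (n : ℝ)) with hm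
  set P : Sp n → ℝ := fun q ↦ Pr Ω.p (AllHit (fam q)) with hPdef
  have hPpos : ∀ q ∈ good C, 0 < P q := fun q hq ↦ (Real.exp_pos _).trans_le (hP q hq)
  set a : Sp n → ℝ := fun q ↦ m * wgt q / P q with hadef
  have ha0 : ∀ q ∈ good C, 0 ≤ a q := fun q hq ↦
    div_nonneg (mul_nonneg (Real.exp_nonneg _) (wgt_nonneg q)) (hPpos q hq).le
  have ha1 : ∀ q ∈ good C, a q ≤ 1 := by
    intro q hq
    rw [hadef, div_le_one (hPpos q hq)]
    have hw : wgt q ≤ err n ^ n := by
      have h := sum_wgt_ball hn {q} q le_rfl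
      rw [filter_singleton, if_pos (by simp), sum_singleton, zero_add] at h
      exact h
    have h2 : m * wgt q * Real.exp (4 * (cA + 2) * mult n) ≤ 1 := by
      refine le_trans ?_ hB.weight_one
      rw [mul_right_comm]
      exact mul_le_mul_of_nonneg_left hw (by positivity)
    refine le_trans ?_ (hP q hq)
    rw [Real.exp_neg, ← one_div, le_div_iff₀ (Real.exp_pos _)]
    exact h2
  refine (Pr_mono hp0 hp1 (B := {W | ∀ q ∈ good C, W ∉ AllHit (fam q)}) ?_).trans
    ((Pr_none_le_weighted hp0 hp1 (good C) fam a ha0 ha1).trans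
      (Real.exp_le_exp.2 (neg_le_neg ?_)))
  · intro W hW q hq hq2
    obtain ⟨v, hv, hno⟩ := hW q hq
    obtain ⟨f, hfW, hfk⟩ := hcov q hq W hq2 v hv
    exact hno f hfW hfk
  have haP : ∀ q ∈ good C, a q * P q = m * wgt q := fun q hq ↦ by
    rw [hadef]; exact div_mul_cancel₀ _ (hPpos q hq).ne'
  have hμ : m / 2 ≤ ∑ q ∈ good C, a q * Pr Ω.p (AllHit (fam q)) := by
    rw [sum_congr rfl haP, ← mul_sum, div_eq_mul_inv]
    exact mul_le_mul_of_nonneg_left (by linarith) (Real.exp_nonneg _)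
  have hD : ∑ q ∈ good C, ∑ q' ∈ (good C).erase q,
      a q * a q' * Pr Ω.p (Overlap (fam q) (fam q')) ≤
      m * (m * (2 * Real.exp (2 * slack n) * (64 * mult n * Tmax n * Real.exp (-(33 / 10 * n))) +
        Real.exp (8 * (cA + 2) * mult n) * (Tmax n ^ 2 * (2 * sep n) ^ n))) := by
    calc _ ≤ ∑ q ∈ good C, ∑ q' ∈ (good C).erase q, m * m * (wgt q * wgt q' *
          (2 * Real.exp (2 * slack n) * farTerm C q q' +
            Real.exp (8 * (cA + 2) * mult n) * nearTerm C q q')) := by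
          refine sum_le_sum fun q hq ↦ sum_le_sum fun q' hq' ↦ ?_
          have hq'' := mem_of_mem_erase hq'
          refine (mul_le_mul_of_nonneg_left (pair_bound hB Ω hC hq hq'' (hsupp q hq)
            (hsupp q' hq'') (hP q hq) (hP q' hq'') (hPf q hq) (hPf q' hq''))
              (mul_nonneg (ha0 q hq) (ha0 q' hq''))).trans_eq ?_
          have e1 := haP q hq
          have e2 := haP q' hq''
          calc _ = (a q * P q) * (a q' * P q') *
                (2 * Real.exp (2 * slack n) * farTerm C q q' +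
                  Real.exp (8 * (cA + 2) * mult n) * nearTerm C q q') := by rw [hPdef]; ring
            _ = _ := by rw [e1, e2]; ring
      _ ≤ ∑ q ∈ good C, ∑ q' ∈ good C, m * m * (wgt q * wgt q' *
          (2 * Real.exp (2 * slack n) * farTerm C q q' +
            Real.exp (8 * (cA + 2) * mult n) * nearTerm C q q')) := by
          refine sum_le_sum fun q _ ↦ sum_le_sum_of_subset_of_nonneg (erase_subset _ _)
            fun q' _ _ ↦ ?_
          have := wgt_nonneg q; have := wgt_nonneg q'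
          have := farTerm_nonneg C q q'; have := nearTerm_nonneg C q q'
          positivity
      _ = m * (m * (2 * Real.exp (2 * slack n) *
            (∑ q ∈ good C, ∑ q' ∈ good C, wgt q * wgt q' * farTerm C q q') +
          Real.exp (8 * (cA + 2) * mult n) *
            ∑ q ∈ good C, ∑ q' ∈ good C, wgt q * wgt q' * nearTerm C q q')) := by
          simp only [mul_sum, mul_add, ← sum_add_distrib]
          exact sum_congr rfl fun q _ ↦ sum_congr rfl fun q' _ ↦ by ring
      _ ≤ _ := by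
          gcongr
          · exact sum_far_le hB hT
          · exact sum_near_le hB hT
  rw [mul_add] at hD
  have h1 := mul_le_mul_of_nonneg_left hB.main_far (Real.exp_nonneg (3 / 2 * (n : ℝ)))
  have h2 := mul_le_mul_of_nonneg_left hB.main_near (Real.exp_nonneg (3 / 2 * (n : ℝ)))
  rw [← hm] at h1 h2
  rw [mul_add] at hD
  have h3 := hB.main_big
  linarith [hm]

end Vale.Agent.P230
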