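import Mathlib

/-!
Translative covering density of a set in Euclidean space.
-/

open MeasureTheory Filter
open scoped Pointwise ENNReal

noncomputable section

namespace Vale.Agent.P230

/-- A compact convex set with nonempty interior. -/
def IsConvexBody {n : ℕ} (K : Set (EuclideanSpace ℝ (Fin n))) : Prop :=
  Convex ℝ K ∧ IsCompact K ∧ (interior K).Nonempty

/-- The cube `[-R,R]^n`. -/
def cube (n : ℕ) (R : ℝ) : Set (EuclideanSpace ℝ (Fin n)) := {x | ∀ i, |x i| ≤ R}

/-- Every bounded set contains finitely many points of `X`. -/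
def IsLocallyFinite {n : ℕ} (X : Set (EuclideanSpace ℝ (Fin n))) : Prop :=
  ∀ B : Set (EuclideanSpace ℝ (Fin n)), Bornology.IsBounded B → (X ∩ B).Finite

/-- The translative covering density. -/
def thetaT {n : ℕ} (K : Set (EuclideanSpace ℝ (Fin n))) : ℝ≥0∞ :=
  ⨅ (X : Set (EuclideanSpace ℝ (Fin n))) (_ : IsLocallyFinite X) (_ : K + X = Set.univ),
    volume K * limsup (fun R : ℝ ↦ ((X ∩ cube n R).encard : ℝ≥0∞) /
      ENNReal.ofReal ((2 * R) ^ n)) atTop

end Vale.Agent.P230
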