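import Mathlib
import Vale.Agent.P230.Defs
import Vale.Agent.P230.Statement
import Vale.Agent.P230.Bernoulli
import Vale.Agent.P230.Cands
import Vale.Agent.P230.Config

/-!
From configurations to global coverings.
-/

open MeasureTheory Filter Finset
open scoped RealInnerProductSpace Classical Pointwise ENNReal

noncomputable section

namespace Vale.Agent.P230

variable {n : ℕ}

/-- Lower bound for the volume of the body relative to the ball. -/
def cV : ℝ := Real.exp (-32) / 2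

/-- The constant in the final density bound. -/
def cD : ℝ := cV * cκ / 4000

/-- Numerical conditions used in the reduction. -/
structure BigR (n : ℕ) : Prop where
  two : 2 ≤ n
  ball2 : mult n / 2000 * (2 + 6 * err n) ^ n ≤ Tmax n / 16
  err_exp : Real.exp (7 * err n * n) ≤ 2
  deep : 2 * (mult n / 2000) * Real.exp (-dep1 n) ≤ 1 / 16
  dep0_le : dep0 n + 1 ≤ n
  dep1_le : dep1 n + 1 ≤ n
  dep0_nonneg : 0 ≤ dep0 n
  mult_pos : 0 < mult n
  grid_card : (2 * ((⌈3 / mesh n⌉₊ : ℕ) : ℝ) + 1) ^ n + 1 ≤ Real.exp ((n : ℝ) ^ 2)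
  union_small : Real.exp (Tmax n * (1 + (n : ℝ) ^ 2) - Tmax n * (n : ℝ) ^ 3) < cV
  mar_err : (n : ℝ) ^ 2 * (2 * err n) ≤ mar n
  err_small : err n ≤ 1 / 100

/-- The body attached to a selection. -/
def body (Ω : Cand n) (W : Finset (Fin Ω.M)) : Set (Sp n) :=
  Metric.closedBall 0 1 ∩ {y | ∀ f ∈ W, ⟪Ω.w f, y⟫ ≤ thr n}

lemma inner_close (hB : BigR n) (Ω : Cand n) (f : Fin Ω.M) {u v : Sp n}
    (h : ‖u - v‖ ≤ 2 * err n) : ⟪u, Ω.w f⟫ ≤ ⟪v, Ω.w f⟫ + mar n := by
  have h1 := (abs_real_inner_le_norm (u - v) (Ω.w f)).trans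
    (mul_le_mul h (Ω.w_le f) (norm_nonneg _) (by linarith [norm_nonneg (u - v)]))
  have h2 := (le_abs_self _).trans h1
  rw [inner_sub_left] at h2
  linarith [hB.mar_err]

lemma isClosed_halfspaces (Ω : Cand n) (W : Finset (Fin Ω.M)) :
    IsClosed {y : Sp n | ∀ f ∈ W, ⟪Ω.w f, y⟫ ≤ thr n} := by
  have e : {y : Sp n | ∀ f ∈ W, ⟪Ω.w f, y⟫ ≤ thr n} =
      ⋂ f ∈ W, {y : Sp n | ⟪Ω.w f, y⟫ ≤ thr n} := by ext; simp
  rw [e]
  exact isClosed_biInter fun f _ ↦ isClosed_le (by fun_prop) continuous_const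

lemma isConvexBody_body (hB : BigR n) (Ω : Cand n) (W : Finset (Fin Ω.M)) :
    IsConvexBody (body Ω W) := by
  have hN : (0 : ℝ) < n := by exact_mod_cast (show 0 < n by linarith [hB.two])
  have hs : 0 < thr n := by unfold thr cS; positivity
  refine ⟨?_, (isCompact_closedBall _ _).inter_right (isClosed_halfspaces Ω W), ?_⟩
  · have e : {y : Sp n | ∀ f ∈ W, ⟪Ω.w f, y⟫ ≤ thr n} =
        ⋂ f ∈ W, {y : Sp n | (innerSL ℝ (Ω.w f) : Sp n → ℝ) y ≤ thr n} := by ext; simp
    unfold body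
    rw [e]
    exact (convex_closedBall _ _).inter (convex_iInter₂ fun f _ ↦
      convex_halfSpace_le (innerSL ℝ (Ω.w f)).toLinearMap.isLinear _)
  · set r := min 1 (thr n / (n : ℝ) ^ 2)
    have hr : 0 < r := by positivity
    refine ⟨0, mem_interior.2 ⟨Metric.ball 0 r, ?_, Metric.isOpen_ball, Metric.mem_ball_self hr⟩⟩
    intro y hy
    rw [mem_ball_zero_iff] at hy
    refine ⟨mem_closedBall_zero_iff.2 (hy.le.trans (min_le_left _ _)), fun f _ ↦ ?_⟩
    refine (real_inner_le_norm _ _).trans ?_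
    calc ‖Ω.w f‖ * ‖y‖ ≤ (n : ℝ) ^ 2 * (thr n / (n : ℝ) ^ 2) :=
          mul_le_mul (Ω.w_le f) (hy.le.trans (min_le_right _ _)) (norm_nonneg _) (by positivity)
      _ = _ := by field_simp

lemma rd_mem_gridBall (hn : 0 < n) {y : Sp n} (hy : ‖y‖ ≤ 1) {r : ℝ} (hr : 1 + err n ≤ r) :
    rd y ∈ gridBall n r := by
  refine (mem_gridBall hn).2 ⟨rd_mem_grid y, le_trans ?_ hr⟩
  calc ‖rd y‖ ≤ ‖y‖ + ‖rd y - y‖ := norm_le_norm_add_norm_sub' _ _
    _ ≤ _ := by rw [norm_sub_rev]; linarith [norm_sub_rd_le hn y]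

lemma sum_wgt_univ (hn : 0 < n) {r : ℝ} (hr : 1 + err n ≤ r) :
    ∑ q ∈ gridBall n r, wgt q = 1 := by
  rw [sum_wgt hn]
  have : ({y : Sp n | rd y ∈ gridBall n r} ∩ Metric.closedBall 0 1) = Metric.closedBall 0 1 :=
    Set.inter_eq_right.2 fun y hy ↦ rd_mem_gridBall hn (mem_closedBall_zero_iff.1 hy) hr
  rw [this, div_self]
  exact (ENNReal.toReal_pos (Metric.measure_closedBall_pos _ _ one_pos).ne'
    measure_closedBall_lt_top.ne).ne'

lemma exp_le_one_sub {p : ℝ} (h0 : 0 ≤ p) (h1 : p ≤ 1 / 2) : Real.exp (-(2 * p)) ≤ 1 - p := by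
  have hpos : (0 : ℝ) < 1 - p := by linarith
  rw [Real.exp_neg, inv_le_iff_one_le_mul₀ (Real.exp_pos _)]
  nlinarith [Real.add_one_le_exp (2 * p)]

lemma expected_volume (hB : BigR n) (Ω : Cand n) :
    Real.exp (-32) * volume.real (Metric.closedBall (0 : Sp n) 1) ≤
      ∑ W, bw Ω.p W * volume.real (body Ω W) := by
  have hn : 0 < n := by linarith [hB.two]
  have hη := err_pos hn
  have hp0 := Ω.p_pos.le
  have hp1 : Ω.p ≤ 1 := by linarith [Ω.p_le]
  set V := volume.real (Metric.closedBall (0 : Sp n) 1) with hV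
  have hV0 : 0 < V := ENNReal.toReal_pos (Metric.measure_closedBall_pos _ _ one_pos).ne'
    measure_closedBall_lt_top.ne
  set G := gridBall n (1 + err n) with hG
  set Km : Sp n → Finset (Fin Ω.M) := fun q ↦ univ.filter fun f ↦ thr n - mar n < ⟪q, Ω.w f⟫
  have key : ∀ W : Finset (Fin Ω.M),
      V * ∑ q ∈ G, (if Disjoint (Km q) W then wgt q else 0) ≤ volume.real (body Ω W) := by
    intro W
    rw [← sum_filter, sum_wgt hn, mul_div_assoc', ← hV, mul_div_cancel_left₀ _ hV0.ne']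
    refine measureReal_mono ?_
      (measure_ne_top_of_subset Set.inter_subset_left measure_closedBall_lt_top.ne)
    rintro y ⟨hy, hy1⟩
    refine ⟨hy1, fun f hf ↦ ?_⟩
    simp only [Set.mem_ofPred_eq, mem_filter] at hy
    by_contra h
    refine disjoint_left.1 hy.2 (mem_filter.2 ⟨mem_univ f, ?_⟩) hf
    have := inner_close hB Ω f (u := y) (v := rd y) ((norm_sub_rd_le hn y).trans (by linarith))
    rw [real_inner_comm] at h
    linarith [not_le.1 h]
  have hPr : ∀ q ∈ G, Real.exp (-32) ≤ Pr Ω.p {W | Disjoint (Km q) W} := by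
    intro q hq
    rw [mem_gridBall hn] at hq
    have h16 := Ω.hi q hq.1 (by linarith [hq.2])
    rw [Pr_avoid]
    calc Real.exp (-32) ≤ Real.exp (-(2 * Ω.p)) ^ #(Km q) := by
          rw [← Real.exp_nat_mul]; exact Real.exp_le_exp.2 (by linarith)
      _ ≤ _ := pow_le_pow_left₀ (Real.exp_nonneg _) (exp_le_one_sub hp0 Ω.p_le) _
  calc Real.exp (-32) * V = V * ∑ q ∈ G, wgt q * Real.exp (-32) := by
        rw [← sum_mul, sum_wgt_univ hn le_rfl]; ring
    _ ≤ V * ∑ q ∈ G, wgt q * Pr Ω.p {W | Disjoint (Km q) W} :=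
        mul_le_mul_of_nonneg_left
          (sum_le_sum fun q hq ↦ mul_le_mul_of_nonneg_left (hPr q hq) (wgt_nonneg q)) hV0.le
    _ = ∑ W, bw Ω.p W * (V * ∑ q ∈ G, if Disjoint (Km q) W then wgt q else 0) := by
        simp only [Pr, mul_sum]
        rw [sum_comm]
        refine sum_congr rfl fun W _ ↦ sum_congr rfl fun q _ ↦ ?_
        by_cases h : Disjoint (Km q) W <;> simp [h]; ring
    _ ≤ _ := sum_le_sum fun W _ ↦ mul_le_mul_of_nonneg_left (key W) (bw_nonneg hp0 hp1 W)

/-- The admissible configurations. -/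
def configs (n : ℕ) : Finset (Finset (Sp n)) :=
  (gridBall n 3).powerset.filter fun C ↦ (#C : ℝ) ≤ Tmax n ∧ 1 / 2 ≤ ∑ q ∈ good C, wgt q

lemma card_gridBall_le (hn : 0 < n) :
    #(gridBall n 3) ≤ (2 * ⌈3 / mesh n⌉₊ + 1) ^ n := by
  have hm := mesh_pos hn
  set K : ℕ := ⌈3 / mesh n⌉₊
  refine (card_le_card (t := (Fintype.piFinset fun _ : Fin n ↦ Finset.Icc (-(K : ℤ)) K).image
    fun k ↦ (WithLp.toLp 2 fun i ↦ mesh n * (k i : ℝ) : Sp n)) fun y hy ↦ ?_).trans
    (card_image_le.trans ?_)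
  · obtain ⟨hy, hr⟩ := (mem_gridBall hn).1 hy
    choose k hk using hy
    refine mem_image.2 ⟨k, Fintype.mem_piFinset.2 fun i ↦ ?_, by ext i; simp [hk i]⟩
    have h1 : |y i| ≤ 3 := by
      have := PiLp.norm_apply_le y i
      rw [Real.norm_eq_abs] at this
      exact this.trans hr
    rw [hk i, abs_mul, abs_of_pos hm, ← le_div_iff₀' hm] at h1
    have h2 := h1.trans (Nat.le_ceil _)
    rw [abs_le] at h2
    exact Finset.mem_Icc.2 ⟨by exact_mod_cast h2.1, by exact_mod_cast h2.2⟩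
  · rw [Fintype.card_piFinset]
    simp
    refine le_of_eq ?_
    congr 1
    omega

lemma card_configs_le (hB : BigR n) :
    (#(configs n) : ℝ) ≤ Real.exp (Tmax n * (1 + (n : ℝ) ^ 2)) := by
  have hn : 0 < n := by linarith [hB.two]
  have hT : 0 ≤ Tmax n := (Real.exp_pos _).le
  set t := ⌊Tmax n⌋₊
  set G := gridBall n 3
  have hsub : configs n ⊆ (Finset.range (t + 1)).biUnion fun j ↦ G.powersetCard j := by
    intro C hC
    simp only [configs, mem_filter, mem_powerset] at hC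
    exact mem_biUnion.2 ⟨#C, Finset.mem_range.2 (Nat.lt_succ_of_le (Nat.le_floor hC.2.1)),
      mem_powersetCard.2 ⟨hC.1, rfl⟩⟩
  have h1 : #(configs n) ≤ (t + 1) * (#G + 1) ^ t := by
    refine ((card_le_card hsub).trans card_biUnion_le).trans ?_
    refine (sum_le_card_nsmul _ _ ((#G + 1) ^ t) fun j hj ↦ ?_).trans (by simp)
    rw [card_powersetCard]
    exact (Nat.choose_le_pow _ _).trans ((Nat.pow_le_pow_left (Nat.le_succ _) j).trans
      (Nat.pow_le_pow_right (Nat.succ_pos _) (Nat.lt_succ_iff.1 (Finset.mem_range.1 hj))))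
  have h2 : ((#G : ℝ) + 1) ≤ Real.exp ((n : ℝ) ^ 2) := by
    refine le_trans (add_le_add ?_ le_rfl) hB.grid_card
    exact_mod_cast card_gridBall_le hn
  have ht : (t : ℝ) ≤ Tmax n := Nat.floor_le hT
  calc (#(configs n) : ℝ) ≤ ((t + 1) * (#G + 1) ^ t : ℕ) := by exact_mod_cast h1
    _ ≤ Real.exp (Tmax n) * Real.exp (Tmax n * (n : ℝ) ^ 2) := by
        push_cast
        refine mul_le_mul ?_ ?_ (by positivity) (Real.exp_nonneg _)
        · linarith [Real.add_one_le_exp (Tmax n)]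
        · refine (pow_le_pow_left₀ (by positivity) h2 t).trans ?_
          rw [← Real.exp_nat_mul]
          exact Real.exp_le_exp.2 (mul_le_mul_of_nonneg_right ht (sq_nonneg _))
    _ = _ := by rw [← Real.exp_add]; congr 1; ring

lemma exists_selection (hF : BigF n) (hB : BigR n) (Ω : Cand n) :
    ∃ W : Finset (Fin Ω.M),
      cV * volume.real (Metric.closedBall (0 : Sp n) 1) ≤ volume.real (body Ω W) ∧
      ∀ C ∈ configs n, W ∉ covered Ω C := by
  have hn : 0 < n := by linarith [hB.two]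
  have hp0 := Ω.p_pos.le
  have hp1 : Ω.p ≤ 1 := by linarith [Ω.p_le]
  set V := volume.real (Metric.closedBall (0 : Sp n) 1) with hV
  have hV0 : 0 < V := ENNReal.toReal_pos (Metric.measure_closedBall_pos _ _ one_pos).ne'
    measure_closedBall_lt_top.ne
  set A : Set (Finset (Fin Ω.M)) := {W | cV * V ≤ volume.real (body Ω W)} with hA
  have hPA : cV ≤ Pr Ω.p A := by
    have h1 := expected_volume hB Ω
    have h2 : ∑ W, bw Ω.p W * volume.real (body Ω W) ≤
        cV * V + V * Pr Ω.p A := by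
      calc ∑ W, bw Ω.p W * volume.real (body Ω W)
          ≤ ∑ W, (cV * V * bw Ω.p W + V * if W ∈ A then bw Ω.p W else 0) := by
            refine sum_le_sum fun W _ ↦ ?_
            have hb := bw_nonneg hp0 hp1 W
            have hle : volume.real (body Ω W) ≤ V :=
              measureReal_mono Set.inter_subset_left measure_closedBall_lt_top.ne
            have hc : (0 : ℝ) ≤ cV * V := mul_nonneg (by unfold cV; positivity) hV0.le
            by_cases h : W ∈ A
            · rw [if_pos h]; nlinarith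
            · rw [if_neg h]
              have : volume.real (body Ω W) ≤ cV * V := le_of_lt (not_le.1 h)
              nlinarith
        _ = _ := by rw [sum_add_distrib, ← mul_sum, ← mul_sum, sum_bw, mul_one]; rfl
    have h3 : Real.exp (-32) = 2 * cV := by unfold cV; ring
    rw [h3, ← hV] at h1
    nlinarith
  have hbad : Pr Ω.p (⋃ C ∈ configs n, covered Ω C) < cV := by
    refine lt_of_le_of_lt ?_ hB.union_small
    refine (Pr_biUnion_le hp0 hp1 _ _).trans ?_
    refine (sum_le_card_nsmul _ _ (Real.exp (-(Tmax n * (n : ℝ) ^ 3))) fun C hC ↦ ?_).trans ?_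
    · simp only [configs, mem_filter, mem_powerset] at hC
      exact Pr_covered_le hF Ω (fun c hc ↦ ((mem_gridBall hn).1 (hC.1 hc)).1) hC.2.1 hC.2.2
    · rw [nsmul_eq_mul, sub_eq_add_neg, Real.exp_add]
      exact mul_le_mul_of_nonneg_right (card_configs_le hB) (Real.exp_nonneg _)
  by_contra h
  push_neg at h
  have : A ⊆ ⋃ C ∈ configs n, covered Ω C := fun W hW ↦ by
    obtain ⟨C, hC, hW'⟩ := h W hW
    exact Set.mem_iUnion₂.2 ⟨C, hC, hW'⟩
  linarith [Pr_mono hp0 hp1 this]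

/-- The ball indicator. -/
def bInd (r : ℝ) (b u : Sp n) : ℝ := (Metric.closedBall b r).indicator (fun _ ↦ 1) u

lemma bInd_nonneg (r : ℝ) (b u : Sp n) : 0 ≤ bInd r b u :=
  Set.indicator_nonneg (fun _ _ ↦ zero_le_one) _

lemma integral_bInd (hn : 0 < n) {r : ℝ} (hr : 0 ≤ r) (b : Sp n) :
    ∫ u, bInd r b u = r ^ n * volume.real (Metric.closedBall (0 : Sp n) 1) := by
  haveI : Nonempty (Fin n) := ⟨⟨0, hn⟩⟩
  unfold bInd
  rw [integral_indicator_const (1 : ℝ) measurableSet_closedBall, smul_eq_mul, mul_one,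
    Measure.addHaar_real_closedBall volume b hr, finrank_euclideanSpace_fin]
  rw [Measure.addHaar_real_closedBall volume 0 zero_le_one, one_pow, one_mul]

lemma integrable_bInd (r : ℝ) (b : Sp n) : Integrable (bInd r b) :=
  (integrable_indicator_iff measurableSet_closedBall).2
    (integrableOn_const measure_closedBall_lt_top.ne)

/-- The number of offsets within radius `1+7η-j/n`, as a function of a translate. -/
def layer (q : Sp n) (j : ℕ) (u : Sp n) : ℝ := bInd (1 + 7 * err n - j / n) q u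

/-- Badness charged to a translate at relative position `u`. -/
def charge (u : Sp n) : ℝ :=
  bInd (2 + 6 * err n) 0 u / Tmax n +
    ∑ q ∈ gridBall n (1 + 2 * err n), wgt q *
      (layer q 0 u / mult n + (∑ j ∈ Finset.Icc 1 n, layer q j u) / (2 * mult n) +
        layer q (⌊dep0 n⌋₊ + 1) u / deepMult n + layer q (⌊dep1 n⌋₊ + 1) u)

lemma layer_radius_pow (hB : BigR n) {j : ℕ} (hj : j ≤ n) :
    0 ≤ 1 + 7 * err n - j / n ∧ (1 + 7 * err n - j / n) ^ n ≤ 2 * Real.exp (-(j : ℝ)) := by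
  have hn : 0 < n := by linarith [hB.two]
  have hN : (0 : ℝ) < n := by exact_mod_cast hn
  have hη := err_pos hn
  have h1 : (j : ℝ) / n ≤ 1 := (div_le_one hN).2 (by exact_mod_cast hj)
  refine ⟨by linarith, ?_⟩
  calc (1 + 7 * err n - j / n) ^ n ≤ Real.exp (7 * err n - j / n) ^ n :=
        pow_le_pow_left₀ (by linarith) (by linarith [Real.add_one_le_exp (7 * err n - j / n)]) n
    _ = Real.exp (7 * err n * n) * Real.exp (-(j : ℝ)) := by
        rw [← Real.exp_nat_mul, ← Real.exp_add]; congr 1; field_simp; ring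
    _ ≤ _ := mul_le_mul_of_nonneg_right hB.err_exp (Real.exp_nonneg _)

lemma sum_exp_neg_le (m : ℕ) : ∑ j ∈ Finset.Icc 1 m, Real.exp (-(j : ℝ)) ≤ 1 := by
  have h : ∀ k : ℕ, ∑ j ∈ Finset.Icc 1 k, Real.exp (-(j : ℝ)) ≤ 1 - Real.exp (-(k : ℝ)) := by
    intro k
    induction k with
    | zero => simp
    | succ k ih =>
      rw [Finset.sum_Icc_succ_top (by omega)]
      have e : Real.exp (-(k : ℝ)) = Real.exp 1 * Real.exp (-((k + 1 : ℕ) : ℝ)) := by
        rw [← Real.exp_add]; congr 1; push_cast; ring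
      have h2 : (2 : ℝ) ≤ Real.exp 1 := by linarith [Real.add_one_le_exp (1 : ℝ)]
      nlinarith [Real.exp_nonneg (-((k + 1 : ℕ) : ℝ))]
  linarith [h m, Real.exp_nonneg (-(m : ℝ))]

lemma integrable_charge : Integrable (charge : Sp n → ℝ) := by
  unfold charge layer
  refine ((integrable_bInd _ _).div_const _).add (integrable_finsetSum _ fun q _ ↦
    (((((integrable_bInd _ _).div_const _).add
      ((integrable_finsetSum _ fun j _ ↦ integrable_bInd _ _).div_const _)).add
        ((integrable_bInd _ _).div_const _)).add (integrable_bInd _ _)).const_mul _)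

lemma charge_nonneg (hB : BigR n) (u : Sp n) : 0 ≤ charge u := by
  have := hB.mult_pos
  unfold charge layer deepMult
  refine add_nonneg (div_nonneg (bInd_nonneg _ _ _) (Real.exp_pos _).le)
    (sum_nonneg fun q _ ↦ mul_nonneg (wgt_nonneg q) ?_)
  exact add_nonneg (add_nonneg (add_nonneg (div_nonneg (bInd_nonneg _ _ _) this.le)
    (div_nonneg (sum_nonneg fun j _ ↦ bInd_nonneg _ _ _) (mul_nonneg two_pos.le this.le)))
      (div_nonneg (bInd_nonneg _ _ _) (mul_nonneg this.le (Real.exp_nonneg _))))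
        (bInd_nonneg _ _ _)

lemma integral_charge_le (hB : BigR n) :
    mult n / 2000 * ∫ u : Sp n, charge u ≤
      1 / 4 * volume.real (Metric.closedBall (0 : Sp n) 1) := by
  have hn : 0 < n := by linarith [hB.two]
  have hη := err_pos hn
  have hk := hB.mult_pos
  set V := volume.real (Metric.closedBall (0 : Sp n) 1) with hV
  have hV0 : 0 ≤ V := measureReal_nonneg
  set D := mult n / 2000 with hD
  have hD0 : 0 ≤ D := by positivity
  set j0 := ⌊dep0 n⌋₊ + 1 with hj0
  set j1 := ⌊dep1 n⌋₊ + 1 with hj1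
  have hd1 : 0 ≤ dep1 n := by
    have := Real.log_natCast_nonneg n; unfold dep1; positivity
  have hj0n : j0 ≤ n := by
    have h1 := Nat.floor_le hB.dep0_nonneg
    have : ((j0 : ℕ) : ℝ) ≤ n := by rw [hj0]; push_cast; linarith [hB.dep0_le]
    exact_mod_cast this
  have hj1n : j1 ≤ n := by
    have h1 := Nat.floor_le hd1
    have : ((j1 : ℕ) : ℝ) ≤ n := by rw [hj1]; push_cast; linarith [hB.dep1_le]
    exact_mod_cast this
  have hlay : ∀ q : Sp n, ∀ j ≤ n, ∫ u, layer q j u ≤ 2 * Real.exp (-(j : ℝ)) * V := by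
    intro q j hj
    obtain ⟨hr, hp⟩ := layer_radius_pow hB hj
    unfold layer
    rw [integral_bInd hn hr, ← hV]
    exact mul_le_mul_of_nonneg_right hp hV0
  have hint : ∀ q j, Integrable (fun u : Sp n ↦ layer q j u) := fun q j ↦ integrable_bInd _ _
  have hq : ∀ q : Sp n, D * (∫ u, (layer q 0 u / mult n +
      (∑ j ∈ Finset.Icc 1 n, layer q j u) / (2 * mult n) +
      layer q j0 u / deepMult n + layer q j1 u)) ≤ 1 / 8 * V := by
    intro q
    have hs := integrable_finsetSum (Finset.Icc 1 n) fun j _ ↦ hint q j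
    rw [integral_add ((((hint q 0).div_const _).fun_add (hs.div_const _)).fun_add
        ((hint q j0).div_const _)) (hint q j1),
      integral_add (((hint q 0).div_const _).fun_add (hs.div_const _)) ((hint q j0).div_const _),
      integral_add ((hint q 0).div_const _) (hs.div_const _), integral_div, integral_div,
      integral_div, integral_finsetSum _ fun j _ ↦ hint q j]
    have t0 : D * ((∫ u, layer q 0 u) / mult n) ≤ V / 1000 := by
      have := hlay q 0 (Nat.zero_le _)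
      rw [Nat.cast_zero, neg_zero, Real.exp_zero, mul_one] at this
      rw [hD, div_mul_div_comm, div_le_iff₀ (by positivity)]
      nlinarith [mul_le_mul_of_nonneg_left this hk.le]
    have ts : D * ((∑ j ∈ Finset.Icc 1 n, ∫ u, layer q j u) / (2 * mult n)) ≤ V / 1000 := by
      have h1 : ∑ j ∈ Finset.Icc 1 n, ∫ u, layer q j u ≤ 2 * V := by
        calc _ ≤ ∑ j ∈ Finset.Icc 1 n, 2 * V * Real.exp (-(j : ℝ)) :=
              sum_le_sum fun j hj ↦ (hlay q j (Finset.mem_Icc.1 hj).2).trans_eq (by ring)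
          _ ≤ _ := by rw [← mul_sum]; exact mul_le_of_le_one_right (by positivity) (sum_exp_neg_le n)
      rw [hD, div_mul_div_comm, div_le_iff₀ (by positivity)]
      nlinarith [mul_le_mul_of_nonneg_left h1 hk.le]
    have td : D * ((∫ u, layer q j0 u) / deepMult n) ≤ V / 1000 := by
      have h1 : ∫ u, layer q j0 u ≤ 2 * Real.exp (-dep0 n) * V := by
        refine (hlay q j0 hj0n).trans ?_
        gcongr
        rw [hj0]; push_cast; exact (Nat.lt_floor_add_one _).le
      rw [hD, deepMult, div_mul_div_comm, div_le_iff₀ (by positivity)]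
      nlinarith [mul_le_mul_of_nonneg_left h1 hk.le]
    have t1 : D * ∫ u, layer q j1 u ≤ V / 16 := by
      have h1 : ∫ u, layer q j1 u ≤ 2 * Real.exp (-dep1 n) * V := by
        refine (hlay q j1 hj1n).trans ?_
        gcongr
        rw [hj1]; push_cast; exact (Nat.lt_floor_add_one _).le
      nlinarith [mul_le_mul_of_nonneg_left h1 hD0, mul_le_mul_of_nonneg_right hB.deep hV0]
    rw [mul_add, mul_add, mul_add]
    linarith
  have hq' : ∀ q : Sp n, Integrable fun u ↦ wgt q * (layer q 0 u / mult n +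
      (∑ j ∈ Finset.Icc 1 n, layer q j u) / (2 * mult n) +
      layer q j0 u / deepMult n + layer q j1 u) := fun q ↦
    (((((hint q 0).div_const _).add
      ((integrable_finsetSum _ fun j _ ↦ hint q j).div_const _)).add
        ((hint q j0).div_const _)).add (hint q j1)).const_mul _
  unfold charge
  rw [integral_add ((integrable_bInd _ _).div_const _) (integrable_finsetSum _ fun q _ ↦ hq' q),
    integral_div, integral_finsetSum _ fun q _ ↦ hq' q, integral_bInd hn (by positivity), ← hV,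
    mul_add, mul_sum]
  have tT : D * ((2 + 6 * err n) ^ n * V / Tmax n) ≤ V / 16 := by
    have hT : 0 < Tmax n := Real.exp_pos _
    rw [hD, mul_div_assoc', div_le_iff₀ hT]
    have := mul_le_mul_of_nonneg_right hB.ball2 hV0
    linarith
  have hsum : ∑ q ∈ gridBall n (1 + 2 * err n),
      D * ∫ u, wgt q * (layer q 0 u / mult n + (∑ j ∈ Finset.Icc 1 n, layer q j u) / (2 * mult n) +
      layer q j0 u / deepMult n + layer q j1 u) ≤ 1 / 8 * V := by
    calc _ ≤ ∑ q ∈ gridBall n (1 + 2 * err n), wgt q * (1 / 8 * V) := by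
          refine sum_le_sum fun q _ ↦ ?_
          rw [integral_const_mul, mul_left_comm]
          exact mul_le_mul_of_nonneg_left (hq q) (wgt_nonneg q)
      _ = _ := by rw [← sum_mul, sum_wgt_univ hn (by linarith), one_mul]
  linarith

lemma exists_centre {F : Finset (Sp n)} {φ : Sp n → ℝ} (hφ : Integrable φ) (h0 : ∀ u, 0 ≤ φ u)
    {S : Set (Sp n)} (hS0 : volume S ≠ 0) (hS1 : volume S ≠ ∞) {b : ℝ}
    (hb : (#F : ℝ) * ∫ u, φ u ≤ b * volume.real S) :
    ∃ z ∈ S, ∑ x ∈ F, φ (x - z) ≤ b := by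
  have hint : ∀ x : Sp n, Integrable fun z ↦ φ (x - z) := fun x ↦ hφ.comp_sub_left x
  have hint' : IntegrableOn (fun z ↦ ∑ x ∈ F, φ (x - z)) S :=
    (integrable_finsetSum _ fun x _ ↦ hint x).integrableOn
  obtain ⟨z, hz, hle⟩ := exists_le_setAverage hS0 hS1 hint'
  refine ⟨z, hz, hle.trans ?_⟩
  have hpos : 0 < volume.real S := ENNReal.toReal_pos hS0 hS1
  rw [setAverage_eq, smul_eq_mul, inv_mul_le_iff₀ hpos,
    integral_finsetSum _ fun x _ ↦ (hint x).integrableOn, mul_comm (volume.real S)]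
  refine le_trans ((sum_le_card_nsmul _ _ (∫ u, φ u) fun x _ ↦ ?_).trans_eq (nsmul_eq_mul _ _)) hb
  exact (setIntegral_le_integral (hint x) (ae_of_all _ fun z ↦ h0 _)).trans_eq
    (integral_sub_left_eq_self φ volume x)

lemma volume_cube {R : ℝ} (hR : 0 ≤ R) : volume (cube n R) = ENNReal.ofReal ((2 * R) ^ n) := by
  have e : cube n R = (WithLp.ofLp : Sp n → Fin n → ℝ) ⁻¹'
      Set.Icc (fun _ ↦ -R) (fun _ ↦ R) := by
    ext x; simp [cube, abs_le, Pi.le_def, forall_and]
  rw [e, (PiLp.volume_preserving_ofLp (Fin n)).measure_preimage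
    measurableSet_Icc.nullMeasurableSet, Real.volume_Icc_pi]
  simp only [sub_neg_eq_add, ← two_mul, Finset.prod_const, Finset.card_univ, Fintype.card_fin]
  rw [ENNReal.ofReal_pow (by positivity)]

lemma isBounded_cube (R : ℝ) : Bornology.IsBounded (cube n R) := by
  refine (Metric.isBounded_iff_subset_closedBall 0).2 ⟨Real.sqrt n * |R|, fun x hx ↦ ?_⟩
  rw [mem_closedBall_zero_iff, EuclideanSpace.norm_eq, Real.sqrt_le_iff]
  refine ⟨by positivity, ?_⟩
  refine (Finset.sum_le_sum (g := fun _ ↦ |R| ^ 2) fun i _ ↦ ?_).trans ?_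
  · rw [Real.norm_eq_abs]; exact pow_le_pow_left₀ (abs_nonneg _) ((hx i).trans (le_abs_self R)) 2
  · simp [mul_pow]

lemma norm_le_of_le_depth {v : Sp n} {j : ℕ} (hj : 1 ≤ j) (h : j ≤ depth v) :
    ‖v‖ ≤ 1 + 5 * err n - j / n ∧ j ≤ n := by
  have hdn : depth v ≤ n := by
    refine (card_filter_le _ _).trans_eq ?_
    simp
  refine ⟨?_, h.trans hdn⟩
  by_contra hc
  have : ((Finset.Icc 1 n).filter fun i : ℕ ↦ ‖v‖ ≤ 1 + 5 * err n - i / n) ⊆
      Finset.Icc 1 (j - 1) := by
    intro i hi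
    simp only [Finset.mem_filter, Finset.mem_Icc] at hi
    refine Finset.mem_Icc.2 ⟨hi.1.1, ?_⟩
    by_contra h2
    refine hc (hi.2.trans ?_)
    gcongr
    exact_mod_cast (show j ≤ i by omega)
  have h2 := card_le_card this
  rw [Nat.card_Icc] at h2
  unfold depth at h
  omega

lemma offs_count (hn : 0 < n) (F : Finset (Sp n)) (z0 q : Sp n) (P : Sp n → Prop) {r : ℝ}
    (hP : ∀ v, P v → ‖v‖ ≤ 1 + 5 * err n → ‖v‖ + err n ≤ r) :
    (#((offs ((F.filter fun x ↦ ‖x - z0‖ ≤ 2 + 6 * err n).image fun x ↦ rd (x - z0)) q).filter P)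
      : ℝ) ≤ ∑ x ∈ F, bInd r q (x - z0) := by
  set C := (F.filter fun x ↦ ‖x - z0‖ ≤ 2 + 6 * err n).image fun x ↦ rd (x - z0)
  have hη := err_pos hn
  have hsub : (offs C q).filter P ⊆
      (F.filter fun x ↦ ‖(x - z0) - q‖ ≤ r).image fun x ↦ q - rd (x - z0) := by
    intro v hv
    obtain ⟨hv, hPv⟩ := mem_filter.1 hv
    obtain ⟨c, hc, rfl⟩ := mem_image.1 hv
    obtain ⟨hcC, hcn⟩ := mem_filter.1 hc
    obtain ⟨x, hx, rfl⟩ := mem_image.1 hcC
    refine mem_image.2 ⟨x, mem_filter.2 ⟨(mem_filter.1 hx).1, ?_⟩, rfl⟩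
    have h1 := hP _ hPv (by linarith)
    have h2 : ‖(x - z0) - q‖ ≤ ‖q - rd (x - z0)‖ + ‖(x - z0) - rd (x - z0)‖ := by
      rw [norm_sub_rev q]
      calc _ ≤ ‖x - z0 - rd (x - z0)‖ + ‖rd (x - z0) - q‖ := norm_sub_le_norm_sub_add_norm_sub _ _ _
        _ = _ := add_comm _ _
    linarith [norm_sub_rd_le hn (x - z0)]
  refine le_trans (Nat.cast_le.2 ((card_le_card hsub).trans card_image_le)) (le_of_eq ?_)
  rw [card_filter]
  push_cast
  refine sum_congr rfl fun x _ ↦ ?_
  simp only [bInd, Set.indicator_apply, mem_closedBall_iff_norm]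

/-- Badness of a test point relative to the translates `F`. -/
def badness (F : Finset (Sp n)) (z0 q : Sp n) : ℝ :=
  (∑ x ∈ F, layer q 0 (x - z0)) / mult n +
    (∑ j ∈ Finset.Icc 1 n, ∑ x ∈ F, layer q j (x - z0)) / (2 * mult n) +
    (∑ x ∈ F, layer q (⌊dep0 n⌋₊ + 1) (x - z0)) / deepMult n +
    ∑ x ∈ F, layer q (⌊dep1 n⌋₊ + 1) (x - z0)

lemma layer_margin (j : ℕ) {v : Sp n} (hη : 0 ≤ err n) (h : ‖v‖ ≤ 1 + 5 * err n - j / n) :
    ‖v‖ + err n ≤ 1 + 7 * err n - j / n := by linarith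

lemma depth_count (hn : 0 < n) (F : Finset (Sp n)) (z0 q : Sp n) {d : ℝ} (hd : 0 ≤ d) :
    (#((offs ((F.filter fun x ↦ ‖x - z0‖ ≤ 2 + 6 * err n).image fun x ↦ rd (x - z0)) q).filter
      fun v ↦ d < depth v) : ℝ) ≤ ∑ x ∈ F, layer q (⌊d⌋₊ + 1) (x - z0) :=
  offs_count hn F z0 q _ (r := 1 + 7 * err n - ((⌊d⌋₊ + 1 : ℕ) : ℝ) / n) fun _ hv _ ↦
    layer_margin _ (err_pos hn).le
      (norm_le_of_le_depth (Nat.succ_le_succ (Nat.zero_le _)) ((Nat.floor_lt hd).2 hv)).1

lemma one_le_of_not_good (hB : BigR n) (F : Finset (Sp n)) (z0 : Sp n) {q : Sp n}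
    (hqG : q ∈ gridBall n (1 + 2 * err n))
    (hqbad : q ∉ good ((F.filter fun x ↦ ‖x - z0‖ ≤ 2 + 6 * err n).image fun x ↦ rd (x - z0))) :
    1 ≤ badness F z0 q := by
  have hn : 0 < n := by linarith [hB.two]
  have hη := err_pos hn
  have hk := hB.mult_pos
  have hd1 : 0 ≤ dep1 n := by
    have := Real.log_natCast_nonneg n; unfold dep1; positivity
  have hdm : 0 < deepMult n := mul_pos hk (Real.exp_pos _)
  have hL : ∀ j, 0 ≤ ∑ x ∈ F, layer q j (x - z0) := fun j ↦
    sum_nonneg fun _ _ ↦ bInd_nonneg _ _ _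
  have hcs : 0 ≤ ∑ j ∈ Finset.Icc 1 n, ∑ x ∈ F, layer q j (x - z0) := sum_nonneg fun j _ ↦ hL j
  by_contra hlt
  unfold badness at hlt
  have p0 := div_nonneg (hL 0) hk.le
  have ps := div_nonneg hcs (mul_nonneg two_pos.le hk.le)
  have pd := div_nonneg (hL (⌊dep0 n⌋₊ + 1)) hdm.le
  have p1 := hL (⌊dep1 n⌋₊ + 1)
  set C := (F.filter fun x ↦ ‖x - z0‖ ≤ 2 + 6 * err n).image fun x ↦ rd (x - z0)
  refine hqbad (mem_filter.2 ⟨hqG, ?_, ?_, ?_, ?_⟩)
  · have h1 := offs_count hn F z0 q (fun _ ↦ True) (r := 1 + 7 * err n - ((0 : ℕ) : ℝ) / n)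
      (fun v _ hv ↦ layer_margin 0 hη.le (by simpa using hv))
    rw [filter_true] at h1
    exact h1.trans ((div_le_one hk).1 (by linarith : (∑ x ∈ F, layer q 0 (x - z0)) / mult n ≤ 1))
  · exact (depth_count hn F z0 q hB.dep0_nonneg).trans ((div_le_one hdm).1 (by linarith :
      (∑ x ∈ F, layer q (⌊dep0 n⌋₊ + 1) (x - z0)) / deepMult n ≤ 1))
  · have h1 : (∑ v ∈ offs C q, (depth v : ℝ)) ≤
        ∑ j ∈ Finset.Icc 1 n, ∑ x ∈ F, layer q j (x - z0) := by
      have e : (∑ v ∈ offs C q, (depth v : ℝ)) = ∑ j ∈ Finset.Icc 1 n,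
          (#((offs C q).filter fun v ↦ ‖v‖ ≤ 1 + 5 * err n - j / n) : ℝ) := by
        unfold depth
        push_cast [card_filter]
        rw [sum_comm]
      rw [e]
      exact sum_le_sum fun j _ ↦ offs_count hn F z0 q _
        (r := 1 + 7 * err n - (j : ℝ) / n) (fun v hv _ ↦ layer_margin j hη.le hv)
    exact h1.trans ((div_le_one (mul_pos two_pos hk)).1 (by linarith :
      (∑ j ∈ Finset.Icc 1 n, ∑ x ∈ F, layer q j (x - z0)) / (2 * mult n) ≤ 1))
  · intro v hv
    by_contra hd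
    have h2 : (1 : ℝ) ≤ #((offs C q).filter fun v ↦ dep1 n < depth v) := by
      exact_mod_cast (card_pos.2 ⟨v, (mem_filter (p := fun v : Sp n ↦ dep1 n < (depth v : ℝ))).2
        ⟨hv, not_le.1 hd⟩⟩ : 0 < _)
    have h3 := depth_count hn F z0 q hd1
    linarith [h2.trans h3]

lemma good_mass (hB : BigR n) (F : Finset (Sp n)) (z0 : Sp n)
    (h : ∑ x ∈ F, charge (x - z0) ≤ 1 / 4) :
    (F.filter fun x ↦ ‖x - z0‖ ≤ 2 + 6 * err n).image (fun x ↦ rd (x - z0)) ∈ configs n := by
  have hn : 0 < n := by linarith [hB.two]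
  have hη := err_pos hn
  have hk := hB.mult_pos
  have hT : 0 < Tmax n := Real.exp_pos _
  set C := (F.filter fun x ↦ ‖x - z0‖ ≤ 2 + 6 * err n).image (fun x ↦ rd (x - z0)) with hC
  set G := gridBall n (1 + 2 * err n) with hG
  set H : Sp n → ℝ := badness F z0 with hH
  have hsplit : ∑ x ∈ F, charge (x - z0) =
      (∑ x ∈ F, bInd (2 + 6 * err n) 0 (x - z0)) / Tmax n + ∑ q ∈ G, wgt q * H q := by
    unfold charge
    rw [sum_add_distrib, sum_comm, ← sum_div]
    congr 1
    refine sum_congr rfl fun q _ ↦ ?_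
    rw [← mul_sum, hH, badness]
    simp only [sum_add_distrib, ← sum_div]
    rw [sum_comm (s := F)]
  have hT1 : 0 ≤ (∑ x ∈ F, bInd (2 + 6 * err n) 0 (x - z0)) / Tmax n :=
    div_nonneg (sum_nonneg fun _ _ ↦ bInd_nonneg _ _ _) hT.le
  have hL : ∀ q j, 0 ≤ ∑ x ∈ F, layer q j (x - z0) := fun q j ↦
    sum_nonneg fun _ _ ↦ bInd_nonneg _ _ _
  have hH0 : ∀ q, 0 ≤ H q := fun q ↦ by
    rw [hH, badness]
    exact add_nonneg (add_nonneg (add_nonneg (div_nonneg (hL q 0) hk.le)
      (div_nonneg (sum_nonneg fun j _ ↦ hL q j) (mul_nonneg two_pos.le hk.le)))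
        (div_nonneg (hL q _) (mul_nonneg hk.le (Real.exp_nonneg _)))) (hL q _)
  have hG0 : 0 ≤ ∑ q ∈ G, wgt q * H q := sum_nonneg fun q _ ↦ mul_nonneg (wgt_nonneg q) (hH0 q)
  rw [hsplit] at h
  simp only [configs, mem_filter, mem_powerset]
  refine ⟨?_, ?_, ?_⟩
  · intro c hc
    obtain ⟨x, hx, rfl⟩ := mem_image.1 hc
    refine (mem_gridBall hn).2 ⟨rd_mem_grid _, ?_⟩
    calc ‖rd (x - z0)‖ ≤ ‖x - z0‖ + ‖rd (x - z0) - (x - z0)‖ := norm_le_norm_add_norm_sub' _ _
      _ ≤ _ := by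
          rw [norm_sub_rev (rd (x - z0))]
          linarith [(mem_filter.1 hx).2, norm_sub_rd_le hn (x - z0), hB.err_small]
  · have h1 : (#C : ℝ) ≤ ∑ x ∈ F, bInd (2 + 6 * err n) 0 (x - z0) := by
      refine le_trans (Nat.cast_le.2 card_image_le) (le_of_eq ?_)
      rw [card_filter]
      push_cast
      refine sum_congr rfl fun x _ ↦ ?_
      simp only [bInd, Set.indicator_apply, mem_closedBall_iff_norm, sub_zero]
    have h2 : (∑ x ∈ F, bInd (2 + 6 * err n) 0 (x - z0)) / Tmax n ≤ 1 := by linarith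
    rw [div_le_one hT] at h2
    linarith
  · have hbad : ∀ q ∈ G.filter (fun q ↦ q ∉ good C), 1 ≤ H q := fun q hq ↦
      one_le_of_not_good hB F z0 (mem_filter.1 hq).1 (mem_filter.1 hq).2
    have h1 : ∑ q ∈ G.filter (fun q ↦ q ∉ good C), wgt q ≤ 1 / 4 := by
      calc _ ≤ ∑ q ∈ G.filter (fun q ↦ q ∉ good C), wgt q * H q :=
            sum_le_sum fun q hq ↦ le_mul_of_one_le_right (wgt_nonneg q) (hbad q hq)
        _ ≤ ∑ q ∈ G, wgt q * H q := sum_le_sum_of_subset_of_nonneg (filter_subset _ _)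
            fun q _ _ ↦ mul_nonneg (wgt_nonneg q) (hH0 q)
        _ ≤ _ := by linarith
    have h2 := sum_filter_add_sum_filter_not G (fun q ↦ q ∈ good C) wgt
    rw [sum_wgt_univ hn (by linarith), filter_mem_eq_inter] at h2
    have h3 : ∑ q ∈ G ∩ good C, wgt q ≤ ∑ q ∈ good C, wgt q :=
      sum_le_sum_of_subset_of_nonneg inter_subset_right fun q _ _ ↦ wgt_nonneg q
    linarith

lemma covering_absurd (hB : BigR n) (Ω : Cand n) {W : Finset (Fin Ω.M)}
    (hvol : cV * volume.real (Metric.closedBall (0 : Sp n) 1) ≤ volume.real (body Ω W))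
    (hW : ∀ C ∈ configs n, W ∉ covered Ω C) {X : Set (Sp n)} (hX : IsLocallyFinite X)
    (hcov : body Ω W + X = Set.univ) :
    ¬ ∀ᶠ R : ℝ in atTop, (X ∩ cube n R).encard / ENNReal.ofReal ((2 * R) ^ n) ≤
      ENNReal.ofReal (cD * n * Real.log n / volume.real (body Ω W)) := by
  intro hev
  have hn : 0 < n := by linarith [hB.two]
  have hη := err_pos hn
  have hk := hB.mult_pos
  have hcV : 0 < cV := by unfold cV; positivity
  set V := volume.real (Metric.closedBall (0 : Sp n) 1) with hV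
  have hV0 : 0 < V := ENNReal.toReal_pos (Metric.measure_closedBall_pos _ _ one_pos).ne'
    measure_closedBall_lt_top.ne
  set VK := volume.real (body Ω W) with hVK
  have hVK0 : 0 < VK := lt_of_lt_of_le (by positivity) hvol
  set ρ := cD * n * Real.log n / VK with hρ
  have hρ0 : 0 ≤ ρ := by
    have := Real.log_natCast_nonneg n
    unfold cD cκ cγ cA at hρ
    rw [hρ]; positivity
  have hlim : Tendsto (fun R : ℝ ↦ ((R + 4) / R) ^ n) atTop (nhds 1) := by
    have h1 : Tendsto (fun R : ℝ ↦ 1 + 4 / R) atTop (nhds 1) := by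
      simpa using (tendsto_const_nhds.div_atTop tendsto_id).const_add (1 : ℝ)
    have h2 := h1.pow n
    rw [one_pow] at h2
    refine h2.congr' ?_
    filter_upwards [eventually_gt_atTop 0] with R hR
    congr 1; field_simp
  obtain ⟨R, hR1, hR2, hR3⟩ := ((eventually_ge_atTop (1 : ℝ)).and
    ((hlim.eventually (eventually_le_nhds one_lt_two)).and
      ((tendsto_atTop_add_const_right atTop (4 : ℝ) tendsto_id).eventually hev))).exists
  simp only [id] at hR3
  have hfin := hX _ (isBounded_cube (R + 4))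
  set F := hfin.toFinset with hF
  have hcount : (#F : ℝ) ≤ 2 * ρ * (2 * R) ^ n := by
    have hpos : 0 < (2 * (R + 4)) ^ n := by positivity
    rw [ENNReal.div_le_iff (by simpa using hpos) ENNReal.ofReal_ne_top,
      hfin.encard_eq_coe_toFinset_card, ← hF, ← ENNReal.ofReal_mul hρ0,
      ENat.toENNReal_coe, ← ENNReal.ofReal_natCast, ENNReal.ofReal_le_ofReal_iff (by positivity)] at hR3
    refine hR3.trans ?_
    rw [div_pow, div_le_iff₀ (by positivity)] at hR2
    rw [mul_pow, mul_pow]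
    calc ρ * (2 ^ n * (R + 4) ^ n) ≤ ρ * (2 ^ n * (2 * R ^ n)) := by gcongr
      _ = _ := by ring
  have hcube : volume (cube n R) = ENNReal.ofReal ((2 * R) ^ n) := volume_cube (by linarith)
  have hreal : volume.real (cube n R) = (2 * R) ^ n := by
    rw [measureReal_def, hcube, ENNReal.toReal_ofReal (by positivity)]
  have hρV : 2 * ρ * V ≤ mult n / 2000 := by
    have h1 : V / VK ≤ 1 / cV := by rw [div_le_div_iff₀ hVK0 hcV]; linarith
    calc 2 * ρ * V = 2 * (cD * n * Real.log n) * (V / VK) := by rw [hρ]; ring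
      _ ≤ 2 * (cD * n * Real.log n) * (1 / cV) := by
          refine mul_le_mul_of_nonneg_left h1 ?_
          have := Real.log_natCast_nonneg n
          unfold cD cκ cγ cA; positivity
      _ = _ := by unfold cD mult; field_simp; ring
  have hb : (#F : ℝ) * ∫ u : Sp n, charge u ≤ 1 / 4 * volume.real (cube n R) := by
    rw [hreal]
    have hI : 0 ≤ ∫ u : Sp n, charge u := integral_nonneg (charge_nonneg hB)
    calc (#F : ℝ) * ∫ u : Sp n, charge u ≤ 2 * ρ * (2 * R) ^ n * ∫ u : Sp n, charge u :=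
          mul_le_mul_of_nonneg_right hcount hI
      _ = (2 * R) ^ n * (2 * ρ * ∫ u : Sp n, charge u) := by ring
      _ ≤ (2 * R) ^ n * (1 / 4) := by
          refine mul_le_mul_of_nonneg_left (le_of_mul_le_mul_left ?_ hV0) (by positivity)
          calc V * (2 * ρ * ∫ u : Sp n, charge u) = 2 * ρ * V * ∫ u : Sp n, charge u := by ring
            _ ≤ mult n / 2000 * ∫ u : Sp n, charge u := mul_le_mul_of_nonneg_right hρV hI
            _ ≤ 1 / 4 * V := integral_charge_le hB
            _ = _ := mul_comm _ _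
      _ = _ := mul_comm _ _
  obtain ⟨z0, hz0, hle⟩ := exists_centre integrable_charge (charge_nonneg hB)
    (by rw [hcube]; simp only [ne_eq, ENNReal.ofReal_eq_zero, not_le]; exact pow_pos (by linarith) n) (by rw [hcube]; exact ENNReal.ofReal_ne_top) hb
  set C := (F.filter fun x ↦ ‖x - z0‖ ≤ 2 + 6 * err n).image (fun x ↦ rd (x - z0)) with hC
  refine hW C (good_mass hB F z0 hle) fun q hq ↦ ?_
  obtain ⟨y, hy, x, hx, hyx⟩ := Set.mem_add.1 (hcov.symm ▸ Set.mem_univ (z0 + q))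
  have hqn : ‖q‖ ≤ 1 + 2 * err n := ((mem_gridBall hn).1 (mem_filter.1 hq).1).2
  have hy1 : ‖y‖ ≤ 1 := mem_closedBall_zero_iff.1 hy.1
  have hxz : x - z0 = q - y := by rw [sub_eq_sub_iff_add_eq_add, add_comm x y, hyx, add_comm]
  have hxn : ‖x - z0‖ ≤ 2 + 6 * err n := by
    rw [hxz]; exact (norm_sub_le _ _).trans (by linarith)
  have hxF : x ∈ F := by
    rw [hF, Set.Finite.mem_toFinset]
    refine ⟨hx, fun i ↦ ?_⟩
    have h1 := PiLp.norm_apply_le (x - z0) i
    rw [Real.norm_eq_abs, PiLp.sub_apply] at h1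
    have h3 := abs_sub_abs_le_abs_sub (x i) (z0 i)
    have h4 := hz0 i
    linarith [hB.err_small]
  have hcC : rd (x - z0) ∈ C := mem_image_of_mem _ (mem_filter.2 ⟨hxF, hxn⟩)
  have hvy : ‖(q - rd (x - z0)) - y‖ ≤ err n := by
    have : (q - rd (x - z0)) - y = (x - z0) - rd (x - z0) := by rw [hxz]; abel
    rw [this]; exact norm_sub_rd_le hn _
  refine ⟨q - rd (x - z0), mem_image_of_mem (fun c ↦ q - c) (mem_filter.2 ⟨hcC, ?_⟩),
    fun f hf hfk ↦ ?_⟩
  · calc ‖q - rd (x - z0)‖ ≤ ‖y‖ + ‖(q - rd (x - z0)) - y‖ := norm_le_norm_add_norm_sub' _ _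
      _ ≤ _ := by linarith
  · have h1 := inner_close hB Ω f (u := q - rd (x - z0)) (v := y) (by linarith)
    simp only [kill, mem_filter, mem_univ, true_and] at hfk
    have h2 := hy.2 f hf
    rw [real_inner_comm] at h2
    linarith

/-- The lower bound in a fixed large dimension. -/
theorem exists_body (hC : BigC n) (hF : BigF n) (hB : BigR n) :
    ∃ K : Set (Sp n), IsConvexBody K ∧
      ENNReal.ofReal (cD * n * Real.log n) ≤ thetaT K := by
  obtain ⟨Ω⟩ := exists_cand hC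
  obtain ⟨W, hvol, hW⟩ := exists_selection hF hB Ω
  refine ⟨body Ω W, isConvexBody_body hB Ω W, ?_⟩
  refine le_iInf fun X ↦ le_iInf fun hX ↦ le_iInf fun hcov ↦ ?_
  by_contra h
  push_neg at h
  set V := volume.real (body Ω W) with hV
  have hne : volume (body Ω W) ≠ ∞ :=
    measure_ne_top_of_subset Set.inter_subset_left measure_closedBall_lt_top.ne
  have hVpos : 0 < V := by
    refine lt_of_lt_of_le (mul_pos (by unfold cV; positivity) ?_) hvol
    exact ENNReal.toReal_pos (Metric.measure_closedBall_pos _ _ one_pos).ne'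
      measure_closedBall_lt_top.ne
  refine covering_absurd hB Ω hvol hW hX hcov ?_
  have hvolK : volume (body Ω W) = ENNReal.ofReal V := (ENNReal.ofReal_toReal hne).symm
  have hlt : limsup (fun R : ℝ ↦ ((X ∩ cube n R).encard : ℝ≥0∞) /
      ENNReal.ofReal ((2 * R) ^ n)) atTop < ENNReal.ofReal (cD * n * Real.log n / V) := by
    rw [ENNReal.ofReal_div_of_pos hVpos, ENNReal.lt_div_iff_mul_lt (Or.inl (by simpa using hVpos))
      (Or.inl ENNReal.ofReal_ne_top), ← hvolK, mul_comm]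
    exact h
  filter_upwards [eventually_lt_of_limsup_lt hlt] with R hR
  exact hR.le

end Vale.Agent.P230
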