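import Mathlib
import Vale.Agent.P230.Defs
import Vale.Agent.P230.Gauss
import Vale.Agent.P230.Cands
import Vale.Agent.P230.Config
import Vale.Agent.P230.Reduce

/-!
The numerical conditions hold in all large dimensions.
-/

open Filter Asymptotics

noncomputable section

namespace Vale.Agent.P230

lemma ev_dom (C : ℝ) {a b : ℝ} (j : ℕ) (hab : a < b) :
    ∀ᶠ n : ℕ in atTop, C * (n : ℝ) ^ a * Real.log n ^ j ≤ (n : ℝ) ^ b := by
  have h : (fun x : ℝ ↦ Real.log x ^ (j : ℝ)) =o[atTop] fun x ↦ x ^ (b - a) :=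
    isLittleO_log_rpow_rpow_atTop (j : ℝ) (by linarith)
  have hC : (0 : ℝ) < 1 / (|C| + 1) := by positivity
  have h2 := (h.def hC).and (eventually_ge_atTop (1 : ℝ))
  filter_upwards [tendsto_natCast_atTop_atTop.eventually h2] with n hn
  obtain ⟨hb, h1⟩ := hn
  rw [Real.norm_eq_abs, Real.norm_eq_abs, Real.rpow_natCast,
    abs_of_nonneg (pow_nonneg (Real.log_nonneg h1) j),
    abs_of_nonneg (Real.rpow_nonneg (by linarith) _), one_div, ← div_eq_inv_mul,
    le_div_iff₀ (by positivity)] at hb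
  have hpos : 0 ≤ (n : ℝ) ^ a := Real.rpow_nonneg (by linarith) _
  have hl := pow_nonneg (Real.log_nonneg h1) j
  calc C * (n : ℝ) ^ a * Real.log n ^ j ≤ (n : ℝ) ^ a * (Real.log n ^ j * (|C| + 1)) := by
        nlinarith [le_abs_self C, mul_nonneg hpos hl]
    _ ≤ (n : ℝ) ^ a * (n : ℝ) ^ (b - a) := mul_le_mul_of_nonneg_left hb hpos
    _ = _ := by rw [← Real.rpow_add (by linarith)]; congr 1; ring

lemma ev_log (C : ℝ) : ∀ᶠ n : ℕ in atTop, C ≤ Real.log n :=
  (Real.tendsto_log_atTop.comp tendsto_natCast_atTop_atTop).eventually_ge_atTop C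

lemma cast_pow_log {n : ℕ} (hn : 0 < n) (k : ℕ) :
    ((n : ℝ) ^ k)⁻¹ = Real.exp (-(k * Real.log n)) := by
  rw [Real.exp_neg, Real.exp_nat_mul, Real.exp_log (by exact_mod_cast hn)]

lemma thr_le {n : ℕ} (hn : 0 < n) : thr n ≤ 30000 * n := by
  have h1 : (1 : ℝ) ≤ n := by exact_mod_cast hn
  rw [thr, Real.sqrt_le_iff]
  unfold cS
  exact ⟨by positivity, by nlinarith⟩

lemma thr_le_sqrt {n : ℕ} : thr n ≤ 174 * Real.sqrt n := by
  rw [thr, Real.sqrt_mul' _ (Nat.cast_nonneg n)]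
  refine mul_le_mul_of_nonneg_right ?_ (Real.sqrt_nonneg _)
  rw [Real.sqrt_le_iff]; unfold cS; norm_num

lemma sqrt_le_thr {n : ℕ} : Real.sqrt n ≤ thr n :=
  Real.sqrt_le_sqrt (le_mul_of_one_le_left (Nat.cast_nonneg n) (by unfold cS; norm_num))

lemma ev_basic : ∀ᶠ n : ℕ in atTop, (10000000 : ℝ) ≤ n ∧ 2 ≤ n ∧
    1 ≤ Real.log n ∧ 10000000 * Real.log n ≤ Real.sqrt n ∧ 10000000 * Real.log n ≤ n := by
  filter_upwards [eventually_ge_atTop 10000000, ev_log 1,
    ev_dom 10000000 (a := 0) (b := 1 / 2) 1 (by norm_num)] with n hn hl hd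
  have h1 : (10000000 : ℝ) ≤ n := by exact_mod_cast hn
  rw [Real.rpow_zero, mul_one, pow_one, ← Real.sqrt_eq_rpow] at hd
  refine ⟨h1, by omega, hl, hd, hd.trans ?_⟩
  rw [Real.sqrt_le_iff]
  exact ⟨by positivity, by nlinarith⟩

lemma err_le {n : ℕ} (hn : (1 : ℝ) ≤ n) (k : ℕ) (hk : k ≤ 7) : err n ≤ ((n : ℝ) ^ k)⁻¹ :=
  inv_anti₀ (by positivity) (pow_le_pow_right₀ hn hk)

lemma ev_bigC : ∀ᶠ n : ℕ in atTop, BigC n := by
  set K := (Real.sqrt (2 * Real.pi))⁻¹ * Real.exp (-(3 / 2)) with hK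
  have hK0 : 0 < K := by positivity
  filter_upwards [ev_basic, ev_dom (120000 / K) (a := 0) (b := 2) 0 (by norm_num),
    ev_dom 32 (a := (3 / 2 : ℝ)) (b := 2) 0 (by norm_num),
    ev_dom 33750 (a := 1) (b := (3 / 2 : ℝ)) 0 (by norm_num),
    ev_dom 480000 (a := 1) (b := 2) 0 (by norm_num),
    ev_dom 64 (a := 0) (b := 2) 1 (by norm_num),
    ev_dom (32 * Real.log (90000 / K)) (a := 0) (b := 2) 0 (by norm_num),
    ev_dom (5 * cA + cG) (a := 0) (b := (3 / 2 : ℝ)) 1 (by norm_num)]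
    with n hb hKn h32 hpair hlin hlog hC h15
  obtain ⟨hbig, htwo, hl, hsq, hlin'⟩ := hb
  have hn : 0 < n := by omega
  have hN : (1 : ℝ) ≤ n := by linarith
  simp only [pow_zero, mul_one, pow_one, Real.rpow_zero, Real.rpow_one, Real.rpow_two]
    at hKn h32 hpair hlin hlog hC h15
  have hη : err n ≤ (n : ℝ)⁻¹ := by simpa using err_le hN 1 (by norm_num)
  have hη0 := err_pos hn
  have hthr := thr_le hn
  have hthr0 : 0 ≤ thr n := Real.sqrt_nonneg _
  have hs1 : 1 ≤ Real.sqrt n := Real.one_le_sqrt.2 hN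
  have hinv : (n : ℝ)⁻¹ ≤ 1 / 10000000 := by
    rw [one_div]; exact inv_anti₀ (by norm_num) hbig
  have hmar : mar n ≤ (n : ℝ)⁻¹ * (n : ℝ)⁻¹ := by
    rw [mar, ← mul_inv, sq]
  have hthr2 : 2 ≤ thr n := by linarith [sqrt_le_thr (n := n)]
  have hmarthr : 2 * mar n * thr n ≤ 1 / 4 := by
    calc 2 * mar n * thr n ≤ 2 * ((n : ℝ)⁻¹ * (n : ℝ)⁻¹) * (30000 * n) := by gcongr
      _ = 60000 * (n : ℝ)⁻¹ := by field_simp; ring
      _ ≤ 1 / 4 := by linarith
  refine ⟨htwo, hthr2, ?_, ?_, hmarthr, ?_, hl, ?_, ?_, ?_, ?_, ?_, ?_, ?_, ?_, ?_⟩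
  · refine hmar.trans ?_
    nlinarith [inv_nonneg.2 (by linarith : (0 : ℝ) ≤ n)]
  · calc 5 * err n * thr n ≤ 5 * ((n : ℝ) ^ 7)⁻¹ * (30000 * n) := by gcongr; rfl
      _ = 150000 * ((n : ℝ) ^ 6)⁻¹ := by field_simp; ring
      _ ≤ (n : ℝ) ^ 4 * ((n : ℝ) ^ 6)⁻¹ := by
          gcongr
          calc (150000 : ℝ) ≤ n := by linarith
            _ ≤ _ := le_self_pow₀ hN (by norm_num)
      _ = mar n := by unfold mar; field_simp
  · calc 11 * err n * thr n ^ 2 = 11 * err n * (30000 * n) := by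
          rw [thr, Real.sq_sqrt (by unfold cS; positivity)]; rfl
      _ ≤ 11 * ((n : ℝ) ^ 2)⁻¹ * (30000 * n) := by gcongr; exact err_le hN 2 (by norm_num)
      _ = 330000 * (n : ℝ)⁻¹ := by field_simp; ring
      _ ≤ 1 := by linarith
  · calc 5 * err n ≤ 5 * ((n : ℝ) ^ 2)⁻¹ := by gcongr; exact err_le hN 2 (by norm_num)
      _ ≤ 1 / n := by
          rw [← div_eq_mul_inv, div_le_div_iff₀ (by positivity) (by positivity)]; nlinarith
      _ ≤ _ := by gcongr
  · rw [div_le_one (by linarith)]; linarith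
  · have h1 : (dep1 n + 1) / n * thr n ≤ 5 * Real.log n * 174 / Real.sqrt n := by
      have h2 : dep1 n + 1 ≤ 5 * Real.log n := by unfold dep1; linarith
      have h3 := thr_le_sqrt (n := n)
      calc (dep1 n + 1) / n * thr n ≤ 5 * Real.log n / n * (174 * Real.sqrt n) := by
            gcongr
        _ = 5 * Real.log n * 174 / Real.sqrt n := by
            have : (n : ℝ) = Real.sqrt n * Real.sqrt n := (Real.mul_self_sqrt (by linarith)).symm
            nth_rewrite 2 [this]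
            field_simp
    have h4 : 5 * Real.log n * 174 / Real.sqrt n ≤ 1 / 4 := by
      rw [div_le_iff₀ (by linarith)]; linarith
    have h5 : mar n ≤ 1 / 8 := by
      refine hmar.trans ?_
      nlinarith [inv_nonneg.2 (by linarith : (0 : ℝ) ≤ n)]
    nlinarith
  · linarith [sqrt_le_thr (n := n)]
  · have e : (n : ℝ) ^ 3 * Real.exp (-(6 * Real.log n)) = ((n : ℝ) ^ 3)⁻¹ := by
      have := cast_pow_log hn 6
      push_cast at this
      rw [← this]; field_simp
    rw [e, ← hK, le_div_iff₀ (by linarith)]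
    rw [div_le_iff₀ hK0] at hKn
    calc ((n : ℝ) ^ 3)⁻¹ * (4 * thr n) ≤ ((n : ℝ) ^ 3)⁻¹ * (120000 * n) :=
          mul_le_mul_of_nonneg_left (by linarith) (by positivity)
      _ = 120000 / (n : ℝ) ^ 2 := by field_simp
      _ ≤ K := by rw [div_le_iff₀ (by positivity)]; linarith
  · have hg := gTail_ge (a := thr n) (by linarith)
    rw [← hK] at hg
    have ht : thr n ^ 2 = 30000 * n := by
      rw [thr, Real.sq_sqrt (by unfold cS; positivity)]; rfl
    set E := Real.exp (-((n : ℝ) ^ 2) / 8) with hE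
    have h1 : Real.exp (-((n : ℝ) ^ 2) / 2) ≤ E := Real.exp_le_exp.2 (by nlinarith)
    have h2 : E + 2 * n * Real.exp (-((n : ℝ) ^ 2) / 2) ≤ 3 * n * E := by
      nlinarith [Real.exp_pos (-((n : ℝ) ^ 2) / 8)]
    refine h2.trans ?_
    refine le_trans ?_ (mul_le_mul_of_nonneg_left hg (Real.exp_nonneg _))
    have h3 : 3 * n * (thr n / K) ≤ Real.exp (2 * Real.log n + Real.log (90000 / K)) := by
      have e2 : Real.exp (2 * Real.log n + Real.log (90000 / K)) = (n : ℝ) ^ 2 * (90000 / K) := by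
        have e3 : Real.exp (2 * Real.log n) = (n : ℝ) ^ 2 := by
          rw [show (2 : ℝ) = ((2 : ℕ) : ℝ) by norm_num, Real.exp_nat_mul,
            Real.exp_log (by linarith)]
        rw [Real.exp_add, e3, Real.exp_log (by positivity)]
      rw [e2]
      calc 3 * (n : ℝ) * (thr n / K) ≤ 3 * n * (30000 * n / K) := by gcongr
        _ = _ := by ring
    rw [show tol n * (K * (Real.exp (-(thr n ^ 2) / 2) / thr n)) =
      tol n * Real.exp (-(thr n ^ 2) / 2) / (thr n / K) by field_simp]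
    rw [le_div_iff₀ (by positivity)]
    calc 3 * n * E * (thr n / K) = E * (3 * n * (thr n / K)) := by ring
      _ ≤ E * Real.exp (2 * Real.log n + Real.log (90000 / K)) :=
          mul_le_mul_of_nonneg_left h3 (Real.exp_nonneg _)
      _ ≤ _ := by
          rw [hE, tol, ← Real.exp_add, ← Real.exp_add]
          refine Real.exp_le_exp.2 ?_
          rw [ht]
          linarith
  · refine Real.exp_le_exp.2 (neg_le_neg ?_)
    unfold dep1 cA cG at *
    linarith
  · refine Real.exp_le_exp.2 (neg_le_neg ?_)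
    unfold cS
    linarith
  · refine Real.exp_le_exp.2 (neg_le_neg ?_)
    unfold cA cG at *
    linarith

lemma ev_mult : ∀ᶠ n : ℕ in atTop, 0 < mult n ∧ mult n ≤ (n : ℝ) ^ 3 := by
  filter_upwards [ev_basic] with n ⟨hbig, _, hl, _, hlin⟩
  have hκ : 0 < cκ := by unfold cκ cγ cA; norm_num
  refine ⟨?_, ?_⟩
  · unfold mult; positivity
  · have : cκ ≤ 1 := by unfold cκ cγ cA; norm_num
    unfold mult
    calc cκ * n * Real.log n ≤ 1 * n * n := by gcongr; linarith
      _ ≤ _ := by nlinarith [mul_le_mul_of_nonneg_left (show (1 : ℝ) ≤ n by linarith) (sq_nonneg (n : ℝ))]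

lemma ev_bigF : ∀ᶠ n : ℕ in atTop, BigF n := by
  filter_upwards [ev_basic, ev_mult,
    ev_dom (34 * Real.exp cA) (a := (1 / 2 : ℝ)) (b := (7 / 10 : ℝ)) 0 (by norm_num),
    ev_dom (3 * (cκ * (cG + 1))) (a := (1 / 2 : ℝ)) (b := 1 - cγ / 2) 2
      (by unfold cγ; norm_num),
    ev_dom (3 * (2 * (cA + 2))) (a := (4 / 5 : ℝ)) (b := 1 - cγ / 2) 1 (by unfold cγ; norm_num),
    ev_dom (3 * (5 * cκ * (cA + 2))) (a := 1 - cγ) (b := 1 - cγ / 2) 2 (by unfold cγ; norm_num),
    ev_dom 1 (a := 1 - cγ / 2) (b := 1 - cγ / 4) 0 (by unfold cγ; norm_num),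
    ev_dom 1 (a := 0) (b := 1 - cγ / 4) 1 (by unfold cγ; norm_num),
    ev_dom 10 (a := 1 - cγ / 2) (b := 1) 0 (by unfold cγ; norm_num),
    ev_log (16 * 10 / cγ)]
    with n hb hm hrem hs1 hs2 hs3 hsep1 hsep2 hsl hlogbig
  obtain ⟨hbig, htwo, hl, hsq, hlin⟩ := hb
  obtain ⟨hm0, hm3⟩ := hm
  have hn : 0 < n := by omega
  have hN : (1 : ℝ) ≤ n := by linarith
  have hN0 : (0 : ℝ) < n := by linarith
  simp only [pow_zero, mul_one, one_mul, pow_one, Real.rpow_zero, Real.rpow_one]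
    at hrem hsep1 hsep2 hsl
  have hγ : (0 : ℝ) < cγ := by unfold cγ; norm_num
  have hγ1 : cγ ≤ 1 := by unfold cγ; norm_num
  have hA0 : (0 : ℝ) ≤ cA := by unfold cA; norm_num
  have hd0 : dep0 n + 1 ≤ 2 * Real.log n := by unfold dep0; nlinarith
  have hexp_dep0 : Real.exp (-dep0 n) = (n : ℝ) ^ (-cγ) := by
    rw [Real.rpow_def_of_pos hN0, dep0]; congr 1; ring
  have hslack : slack n = (n : ℝ) ^ (1 - cγ / 2) := rfl
  have hsep : sep n = Real.exp (-(cγ / 8) * Real.log n) := by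
    rw [sep, Real.rpow_def_of_pos hN0]; congr 1; ring
  refine ⟨htwo, hm3, hm0.le, ?_, ?_, ?_, ?_, ?_, ?_, ?_, ?_, ?_, ?_, ?_, ?_, ?_⟩
  · unfold dep0; positivity
  · unfold dep0 dep1; exact mul_le_mul_of_nonneg_right (by unfold cγ; norm_num) (by linarith)
  · have e : cS * n * rad0 n ^ 2 / 8 = (4 : ℕ) * Real.log n := by
      rw [rad0, div_pow, thr, Real.sq_sqrt (by positivity), Real.sq_sqrt (by unfold cS; positivity)]
      unfold cS; field_simp; ring
    rw [e, ← cast_pow_log hn 4]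
    calc mult n * (32 * ((n : ℝ) ^ 4)⁻¹) ≤ (n : ℝ) ^ 3 * (32 * ((n : ℝ) ^ 4)⁻¹) := by gcongr
      _ = 32 / n := by field_simp
      _ ≤ 1 := by rw [div_le_one hN0]; linarith
      _ ≤ _ := Real.one_le_sqrt.2 hN
  · have e : Real.exp (-(cA * (dep0 n + 1))) = Real.exp (-cA) * (n : ℝ) ^ (-(1 / 10) : ℝ) := by
      rw [Real.rpow_def_of_pos hN0, ← Real.exp_add, dep0]
      unfold cA cγ; congr 1; ring
    rw [e, heavy, clus, Real.sqrt_eq_rpow]
    have hpow : (n : ℝ) ^ (4 / 5 : ℝ) * (n : ℝ) ^ (-(1 / 10) : ℝ) = (n : ℝ) ^ (7 / 10 : ℝ) := by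
      rw [← Real.rpow_add hN0]; norm_num
    have hee : Real.exp (-cA) * Real.exp cA = 1 := by
      rw [← Real.exp_add, neg_add_cancel, Real.exp_zero]
    have h := mul_le_mul_of_nonneg_left hrem (Real.exp_nonneg (-cA))
    calc 17 * (n : ℝ) ^ (1 / 2 : ℝ) =
          Real.exp (-cA) * (34 * Real.exp cA * (n : ℝ) ^ (1 / 2 : ℝ)) / 2 := by
          linear_combination (-17 * (n : ℝ) ^ (1 / 2 : ℝ)) * hee
      _ ≤ Real.exp (-cA) * (n : ℝ) ^ (7 / 10 : ℝ) / 2 := by linarith
      _ = _ := by rw [← hpow]; ring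
  · have : cG ≤ 9999999 := by unfold cG; norm_num
    nlinarith
  · have t1 : mult n / clus n * (cG * Real.log n + 1) ≤
        cκ * (cG + 1) * (n : ℝ) ^ (1 / 2 : ℝ) * Real.log n ^ 2 := by
      rw [← Real.sqrt_eq_rpow, mult, clus]
      have e : cκ * n * Real.log n / Real.sqrt n = cκ * Real.sqrt n * Real.log n := by
        rw [div_eq_iff (by positivity)]
        linear_combination (-cκ * Real.log n) * Real.mul_self_sqrt hN0.le
      rw [e]
      have hk : 0 ≤ cκ * Real.sqrt n * Real.log n := by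
        have : (0 : ℝ) ≤ cκ := by unfold cκ cγ cA; norm_num
        positivity
      calc cκ * Real.sqrt n * Real.log n * (cG * Real.log n + 1)
          ≤ cκ * Real.sqrt n * Real.log n * ((cG + 1) * Real.log n) :=
            mul_le_mul_of_nonneg_left (by linarith) hk
        _ = _ := by ring
    have t2 : heavy n * ((cA + 2) * (dep0 n + 1)) ≤
        2 * (cA + 2) * (n : ℝ) ^ (4 / 5 : ℝ) * Real.log n := by
      calc heavy n * ((cA + 2) * (dep0 n + 1)) ≤ heavy n * ((cA + 2) * (2 * Real.log n)) := by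
            refine mul_le_mul_of_nonneg_left ?_ (by unfold heavy; positivity)
            exact mul_le_mul_of_nonneg_left hd0 (by linarith)
        _ = _ := by unfold heavy; ring
    have t3 : deepMult n * ((cA + 2) * (dep1 n + 1)) ≤
        5 * cκ * (cA + 2) * (n : ℝ) ^ (1 - cγ) * Real.log n ^ 2 := by
      have e : (n : ℝ) ^ (1 - cγ) = n * (n : ℝ) ^ (-cγ) := by
        rw [sub_eq_add_neg, Real.rpow_add hN0, Real.rpow_one]
      rw [deepMult, hexp_dep0, mult, e]
      have hk : 0 ≤ cκ * n * Real.log n * (n : ℝ) ^ (-cγ) := by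
        have : (0 : ℝ) ≤ cκ := by unfold cκ cγ cA; norm_num
        positivity
      calc cκ * n * Real.log n * (n : ℝ) ^ (-cγ) * ((cA + 2) * (dep1 n + 1))
          ≤ cκ * n * Real.log n * (n : ℝ) ^ (-cγ) * ((cA + 2) * (5 * Real.log n)) := by
            refine mul_le_mul_of_nonneg_left (mul_le_mul_of_nonneg_left ?_ (by linarith)) hk
            unfold dep1; linarith
        _ = _ := by ring
    rw [pow_one] at hs2
    rw [hslack]
    linarith
  · have e : sep n ^ 2 * n = (n : ℝ) ^ (1 - cγ / 4) := by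
      rw [sep, ← Real.rpow_natCast ((n : ℝ) ^ (-(cγ / 8))) 2, ← Real.rpow_mul hN0.le,
        ← Real.rpow_add_one hN0.ne']
      congr 1; push_cast; ring
    have h7 : 32 * mult n ^ 2 ≤ Real.exp ((7 : ℕ) * Real.log n) / 2 := by
      rw [Real.exp_nat_mul, Real.exp_log hN0]
      calc 32 * mult n ^ 2 ≤ 32 * ((n : ℝ) ^ 3) ^ 2 := by gcongr
        _ ≤ (n : ℝ) ^ 7 / 2 := by
            nlinarith [mul_le_mul_of_nonneg_right hbig (by positivity : (0 : ℝ) ≤ (n : ℝ) ^ 6),
              show (0 : ℝ) < (n : ℝ) ^ 6 by positivity]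
    push_cast at h7
    calc mult n ^ 2 * (32 * Real.exp (-(cS * n * sep n ^ 2 / 8))) * Real.exp (2 * slack n)
        = 32 * mult n ^ 2 * (Real.exp (-(cS * (sep n ^ 2 * n) / 8)) * Real.exp (2 * slack n)) := by
          ring_nf
      _ ≤ Real.exp (7 * Real.log n) / 2 *
          (Real.exp (-(cS * (sep n ^ 2 * n) / 8)) * Real.exp (2 * slack n)) :=
          mul_le_mul_of_nonneg_right h7 (by positivity)
      _ = Real.exp (7 * Real.log n - cS * (sep n ^ 2 * n) / 8 + 2 * slack n) / 2 := by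
          rw [div_mul_eq_mul_div, ← Real.exp_add, ← Real.exp_add]; ring_nf
      _ ≤ 1 / 2 := by
          gcongr
          rw [Real.exp_le_one_iff, e, hslack]
          unfold cS
          linarith
  · have h4 : 1024 * mult n ≤ Real.exp ((4 : ℕ) * Real.log n) := by
      rw [Real.exp_nat_mul, Real.exp_log hN0]
      calc 1024 * mult n ≤ 1024 * (n : ℝ) ^ 3 := by gcongr
        _ ≤ n * (n : ℝ) ^ 3 := by gcongr; linarith
        _ = _ := by ring
    push_cast at h4
    have hkey : Real.exp (4 * Real.log n + 2 * slack n + 3 / 2 * n + n - 33 / 10 * n) ≤ 1 := by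
      rw [Real.exp_le_one_iff, hslack]; linarith
    rw [sub_eq_add_neg, Real.exp_add, Real.exp_add, Real.exp_add, Real.exp_add] at hkey
    unfold Tmax
    have hh := mul_le_mul_of_nonneg_right h4 (by positivity :
      (0 : ℝ) ≤ Real.exp (2 * slack n) * Real.exp (3 / 2 * n) * Real.exp (n : ℝ) *
        Real.exp (-(33 / 10 * n)))
    linarith
  · have h2e : (2 : ℝ) ≤ Real.exp 1 := by linarith [Real.add_one_le_exp (1 : ℝ)]
    calc Real.exp (3 / 2 * n) *
          (Real.exp (8 * (cA + 2) * mult n) * (Tmax n ^ 2 * (2 * sep n) ^ n))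
        ≤ Real.exp (3 / 2 * n) * (Real.exp (8 * (cA + 2) * mult n) *
          (Real.exp n ^ 2 * (Real.exp 1 * Real.exp (-(cγ / 8) * Real.log n)) ^ n)) := by
          rw [hsep]; unfold Tmax; gcongr
      _ = Real.exp (3 / 2 * n + (8 * (cA + 2) * mult n +
          ((2 : ℕ) * n + n * (1 + -(cγ / 8) * Real.log n)))) := by
          simp only [← Real.exp_add, ← Real.exp_nat_mul]
      _ ≤ Real.exp (-3) := by
          refine Real.exp_le_exp.2 ?_
          have hm' : 8 * (cA + 2) * mult n = cγ / 16 * (n * Real.log n) := by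
            unfold mult cκ cA; ring
          rw [hm']
          rw [div_le_iff₀ hγ] at hlogbig
          push_cast
          nlinarith [mul_le_mul_of_nonneg_left hlogbig hN0.le]
      _ ≤ 1 / 8 := by
          rw [Real.exp_neg, one_div]
          refine inv_anti₀ (by norm_num) ?_
          rw [show (3 : ℝ) = ((3 : ℕ) : ℝ) * 1 by norm_num, Real.exp_nat_mul]
          nlinarith [pow_le_pow_left₀ (by norm_num) h2e 3]
  · unfold Tmax
    have h4 : 4 * (n : ℝ) ^ 3 ≤ Real.exp ((4 : ℕ) * Real.log n) := by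
      rw [Real.exp_nat_mul, Real.exp_log hN0]
      calc 4 * (n : ℝ) ^ 3 ≤ n * (n : ℝ) ^ 3 := by gcongr; linarith
        _ = _ := by ring
    have h5 : Real.exp n * Real.exp ((4 : ℕ) * Real.log n) ≤ Real.exp (3 / 2 * n) := by
      rw [← Real.exp_add]; refine Real.exp_le_exp.2 ?_; push_cast; linarith
    rw [le_div_iff₀ (by norm_num : (0 : ℝ) < 4)]
    calc Real.exp n * (n : ℝ) ^ 3 * 4 = Real.exp n * (4 * (n : ℝ) ^ 3) := by ring
      _ ≤ _ := (mul_le_mul_of_nonneg_left h4 (Real.exp_nonneg _)).trans h5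
  · rw [err, cast_pow_log hn 7, ← Real.exp_nat_mul, ← Real.exp_add, ← Real.exp_add,
      Real.exp_le_one_iff]
    have hm' : 4 * (cA + 2) * mult n = cγ / 32 * (n * Real.log n) := by
      unfold mult cκ cA; ring
    rw [hm']
    push_cast
    have a1 := mul_le_mul_of_nonneg_left hl hN0.le
    have a2 := mul_le_mul_of_nonneg_right hγ1 (mul_nonneg hN0.le (by linarith : 0 ≤ Real.log n))
    linarith only [a1, a2, hN0]
  · rw [err, cast_pow_log hn 7, hsep]
    refine Real.exp_le_exp.2 ?_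
    push_cast
    nlinarith
  · calc err n ≤ ((n : ℝ) ^ 1)⁻¹ := err_le hN 1 (by norm_num)
      _ ≤ 1 / 1000 := by rw [pow_one, one_div]; exact inv_anti₀ (by norm_num) (by linarith)

lemma ev_bigR : ∀ᶠ n : ℕ in atTop, BigR n := by
  have hcV : 0 < cV := by unfold cV; positivity
  filter_upwards [ev_basic, ev_mult, eventually_gt_atTop ⌈-Real.log cV⌉₊]
    with n hb hm hbigV
  obtain ⟨hbig, htwo, hl, hsq, hlin⟩ := hb
  obtain ⟨hm0, hm3⟩ := hm
  have hn : 0 < n := by omega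
  have hN : (1 : ℝ) ≤ n := by linarith
  have hN0 : (0 : ℝ) < n := by linarith
  have hη : err n ≤ (n : ℝ)⁻¹ := by simpa using err_le hN 1 (by norm_num)
  have hη0 := err_pos hn
  have hinv : (n : ℝ)⁻¹ ≤ 1 / 10000000 := by
    rw [one_div]; exact inv_anti₀ (by norm_num) hbig
  refine ⟨htwo, ?_, ?_, ?_, ?_, ?_, ?_, hm0, ?_, ?_, ?_, by linarith⟩
  · have h8 : 2 + 6 * err n ≤ Real.exp (4 / 5) := by
      have := Real.quadratic_le_exp_of_nonneg (show (0 : ℝ) ≤ 4 / 5 by norm_num)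
      linarith
    calc mult n / 2000 * (2 + 6 * err n) ^ n
        ≤ (n : ℝ) ^ 3 / 2000 * Real.exp (4 / 5) ^ n := by gcongr
      _ = Real.exp ((3 : ℕ) * Real.log n + n * (4 / 5)) / 2000 := by
          rw [Real.exp_add, Real.exp_nat_mul, Real.exp_log hN0, Real.exp_nat_mul]; ring
      _ ≤ Real.exp n / 16 := by
          have := Real.exp_le_exp.2 (show ((3 : ℕ) : ℝ) * Real.log n + n * (4 / 5) ≤ n by
            push_cast; linarith)
          linarith [Real.exp_pos (n : ℝ)]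
  · have h1 : 7 * err n * n ≤ 1 / 2 := by
      calc 7 * err n * n ≤ 7 * ((n : ℝ) ^ 2)⁻¹ * n := by gcongr; exact err_le hN 2 (by norm_num)
        _ = 7 * (n : ℝ)⁻¹ := by field_simp
        _ ≤ _ := by linarith
    refine (Real.exp_le_exp.2 h1).trans ?_
    refine (Real.exp_bound_div_one_sub_of_interval (by norm_num) (by norm_num)).trans ?_
    norm_num
  · have e : Real.exp (-dep1 n) = ((n : ℝ) ^ 4)⁻¹ := by
      rw [cast_pow_log hn 4, dep1]; norm_num
    rw [e]
    calc 2 * (mult n / 2000) * ((n : ℝ) ^ 4)⁻¹ ≤ 2 * ((n : ℝ) ^ 3 / 2000) * ((n : ℝ) ^ 4)⁻¹ := by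
          gcongr
      _ = (n : ℝ)⁻¹ / 1000 := by field_simp; ring
      _ ≤ _ := by linarith
  · unfold dep0 cγ; linarith
  · unfold dep1; linarith
  · unfold dep0 cγ; positivity
  · have hK : (2 * ((⌈3 / mesh n⌉₊ : ℕ) : ℝ) + 1) ≤ (n : ℝ) ^ 9 := by
      have h1 := Nat.ceil_lt_add_one (show (0 : ℝ) ≤ 3 / mesh n by unfold mesh; positivity)
      have h2 : 3 / mesh n = 3 * (n : ℝ) ^ 8 := by rw [mesh, div_inv_eq_mul]
      rw [h2] at h1 ⊢
      calc 2 * ((⌈3 * (n : ℝ) ^ 8⌉₊ : ℕ) : ℝ) + 1 ≤ 9 * (n : ℝ) ^ 8 := by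
            linarith [one_le_pow₀ (n := 8) hN]
        _ ≤ n * (n : ℝ) ^ 8 := by gcongr; linarith
        _ = _ := by ring
    calc (2 * ((⌈3 / mesh n⌉₊ : ℕ) : ℝ) + 1) ^ n + 1
        ≤ ((n : ℝ) ^ 9) ^ n + ((n : ℝ) ^ 9) ^ n :=
          add_le_add (pow_le_pow_left₀ (by positivity) hK n) (one_le_pow₀ (one_le_pow₀ hN))
      _ ≤ Real.exp 1 * Real.exp ((n : ℕ) * ((9 : ℕ) * Real.log n)) := by
          rw [Real.exp_nat_mul, Real.exp_nat_mul, Real.exp_log hN0, ← two_mul]
          gcongr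
          linarith [Real.add_one_le_exp (1 : ℝ)]
      _ ≤ _ := by
          rw [← Real.exp_add]
          refine Real.exp_le_exp.2 ?_
          push_cast
          have h9 : 9 * Real.log n + 1 ≤ n := by linarith
          have := mul_le_mul_of_nonneg_left h9 hN0.le
          linarith
  · have hT : (n : ℝ) ≤ Tmax n := by
      unfold Tmax; linarith [Real.add_one_le_exp (n : ℝ)]
    have h3 : 1 + (n : ℝ) ^ 2 - (n : ℝ) ^ 3 ≤ -1 := by nlinarith
    have h4 : -Real.log cV < n := Nat.lt_of_ceil_lt hbigV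
    refine (Real.exp_lt_exp.2 ?_).trans_eq (Real.exp_log hcV)
    nlinarith [mul_le_mul_of_nonneg_left h3 (by linarith : 0 ≤ Tmax n)]
  · calc (n : ℝ) ^ 2 * (2 * err n) ≤ (n : ℝ) ^ 2 * (2 * ((n : ℝ) ^ 5)⁻¹) := by
          gcongr; exact err_le hN 5 (by norm_num)
      _ = 2 / n * mar n := by unfold mar; field_simp
      _ ≤ 1 * mar n := by
          gcongr
          · exact (mar_pos hn).le
          · rw [div_le_one hN0]; linarith
      _ = _ := one_mul _

/-- In every large dimension some convex body has covering density of order `n log n`. -/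
theorem eventually_exists_body :
    ∀ᶠ n : ℕ in atTop, ∃ K : Set (EuclideanSpace ℝ (Fin n)), IsConvexBody K ∧
      ENNReal.ofReal (cD * n * Real.log n) ≤ thetaT K := by
  filter_upwards [ev_bigC, ev_bigF, ev_bigR] with n h1 h2 h3 using exists_body h1 h2 h3

theorem cD_pos : 0 < cD := by unfold cD cV cκ cγ cA; positivity

end Vale.Agent.P230
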