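import Mathlib
import Vale.Agent.P230.Statement

/-!
Every convex body has translative covering density at most a constant times `n log n`.
-/

open MeasureTheory Filter Topology
open scoped Pointwise ENNReal RealInnerProductSpace

noncomputable section

namespace Vale.Agent.P230

variable {n : ℕ}

/-- Integer translations by multiples of `2L`. -/
def shift (L : ℝ) (k : Fin n → ℤ) : EuclideanSpace ℝ (Fin n) :=
  WithLp.toLp 2 fun i ↦ 2 * L * (k i : ℝ)

/-- A finite set repeated periodically. -/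
def periodize (L : ℝ) (P : Finset (EuclideanSpace ℝ (Fin n))) : Set (EuclideanSpace ℝ (Fin n)) :=
  {x | ∃ p ∈ P, ∃ k : Fin n → ℤ, x = p + shift L k}

lemma cube_isClosed (R : ℝ) : IsClosed (cube n R) := by
  have e : cube n R = ⋂ i, {x : EuclideanSpace ℝ (Fin n) | |x i| ≤ R} := by ext; simp [cube]
  rw [e]
  exact isClosed_iInter fun i ↦ isClosed_le (by fun_prop) continuous_const

lemma cube_bounded (R : ℝ) : Bornology.IsBounded (cube n R) := by
  refine (Metric.isBounded_iff_subset_closedBall 0).2 ⟨Real.sqrt n * |R|, fun x hx ↦ ?_⟩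
  rw [mem_closedBall_zero_iff, EuclideanSpace.norm_eq, Real.sqrt_le_iff]
  refine ⟨by positivity, ?_⟩
  refine (Finset.sum_le_sum (g := fun _ ↦ |R| ^ 2) fun i _ ↦ ?_).trans ?_
  · rw [Real.norm_eq_abs]; exact pow_le_pow_left₀ (abs_nonneg _) ((hx i).trans (le_abs_self R)) 2
  · simp [mul_pow]

lemma volume_real_cube {R : ℝ} (hR : 0 ≤ R) : volume.real (cube n R) = (2 * R) ^ n := by
  have e : cube n R = (WithLp.ofLp : EuclideanSpace ℝ (Fin n) → Fin n → ℝ) ⁻¹'
      Set.Icc (fun _ ↦ -R) (fun _ ↦ R) := by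
    ext x; simp [cube, abs_le, Pi.le_def, forall_and]
  rw [measureReal_def, e, (PiLp.volume_preserving_ofLp (Fin n)).measure_preimage
    measurableSet_Icc.nullMeasurableSet, Real.volume_Icc_pi]
  simp only [sub_neg_eq_add, ← two_mul, Finset.prod_const, Finset.card_univ, Fintype.card_fin]
  rw [← ENNReal.ofReal_pow (by positivity), ENNReal.toReal_ofReal (by positivity)]

/-- A periodic covering bounds the covering density. -/
lemma thetaT_le_periodic {K : Set (EuclideanSpace ℝ (Fin n))} {L : ℝ} (hL : 0 < L)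
    (P : Finset (EuclideanSpace ℝ (Fin n)))
    (hcov : cube n L ⊆ K + (P : Set (EuclideanSpace ℝ (Fin n)))) :
    thetaT K ≤ volume K * ENNReal.ofReal (P.card / (2 * L) ^ n) := by
  classical
  set M : ℝ := ∑ p ∈ P, ‖p‖ with hMdef
  have hM : ∀ p ∈ P, ∀ i, |p i| ≤ M := fun p hp i ↦ by
    rw [← Real.norm_eq_abs]
    exact (PiLp.norm_apply_le p i).trans
      (Finset.single_le_sum (fun q _ ↦ norm_nonneg q) hp)
  have hM0 : 0 ≤ M := Finset.sum_nonneg fun q _ ↦ norm_nonneg q
  set X := periodize L P with hX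
  have count : ∀ R : ℝ, 0 ≤ R → (X ∩ cube n R).Finite ∧
      ((X ∩ cube n R).encard : ℝ≥0∞) ≤
        ENNReal.ofReal (P.card * (2 * ((R + M) / (2 * L)) + 3) ^ n) := by
    intro R hR
    set K0 : ℕ := ⌈(R + M) / (2 * L)⌉₊ with hK0
    set T := (P ×ˢ Fintype.piFinset fun _ : Fin n ↦ Finset.Icc (-(K0 : ℤ)) K0).image
      fun a ↦ a.1 + shift L a.2
    have hsub : X ∩ cube n R ⊆ (T : Set (EuclideanSpace ℝ (Fin n))) := by
      rintro x ⟨⟨p, hp, k, rfl⟩, hx⟩
      refine Finset.mem_coe.2 (Finset.mem_image.2 ⟨(p, k), Finset.mem_product.2 ⟨hp,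
        Fintype.mem_piFinset.2 fun i ↦ Finset.mem_Icc.2 ?_⟩, rfl⟩)
      have h1 := hx i
      simp only [shift, PiLp.add_apply] at h1
      have h2 := hM p hp i
      rw [abs_le] at h1 h2
      have h3 : |(k i : ℝ)| ≤ (R + M) / (2 * L) := by
        rw [le_div_iff₀ (by positivity), ← abs_of_pos (show (0:ℝ) < 2 * L by positivity), ← abs_mul]
        rw [abs_le]
        constructor <;> linarith
      have h4 := h3.trans (Nat.le_ceil _)
      rw [abs_le] at h4
      exact ⟨by exact_mod_cast h4.1, by exact_mod_cast h4.2⟩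
    refine ⟨T.finite_toSet.subset hsub, ?_⟩
    calc ((X ∩ cube n R).encard : ℝ≥0∞) ≤ ((T : Set (EuclideanSpace ℝ (Fin n))).encard : ℝ≥0∞) := by
          exact_mod_cast Set.encard_le_encard hsub
      _ = ENNReal.ofReal T.card := by
          rw [Set.encard_coe_eq_coe_finsetCard, ENat.toENNReal_coe, ENNReal.ofReal_natCast]
      _ ≤ _ := by
          refine ENNReal.ofReal_le_ofReal ?_
          have h1 : T.card ≤ P.card * (2 * K0 + 1) ^ n := by
            refine Finset.card_image_le.trans (le_of_eq ?_)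
            have hc : (Finset.Icc (-(K0 : ℤ)) K0).card = 2 * K0 + 1 := by
              rw [Int.card_Icc]; omega
            rw [Finset.card_product, Fintype.card_piFinset]
            simp [hc]
          calc (T.card : ℝ) ≤ (P.card * (2 * K0 + 1) ^ n : ℕ) := by exact_mod_cast h1
            _ ≤ _ := by
              push_cast
              refine mul_le_mul_of_nonneg_left (pow_le_pow_left₀ (by positivity) ?_ n) (by positivity)
              have := Nat.ceil_lt_add_one (show (0 : ℝ) ≤ (R + M) / (2 * L) by positivity)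
              rw [← hK0] at this
              linarith
  have hlf : IsLocallyFinite X := by
    intro B hB
    obtain ⟨r, hr⟩ := (Metric.isBounded_iff_subset_closedBall 0).1 hB
    refine (count (max r 0) (le_max_right _ _)).1.subset fun x hx ↦ ⟨hx.1, fun i ↦ ?_⟩
    rw [← Real.norm_eq_abs]
    exact (PiLp.norm_apply_le x i).trans
      ((mem_closedBall_zero_iff.1 (hr hx.2)).trans (le_max_left _ _))
  have hall : K + X = Set.univ := by
    refine Set.eq_univ_of_forall fun z ↦ ?_
    set k : Fin n → ℤ := fun i ↦ ⌊(z i + L) / (2 * L)⌋ with hk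
    have hmem : z - shift L k ∈ cube n L := by
      intro i
      have h1 := Int.floor_le ((z i + L) / (2 * L))
      have h2 := Int.lt_floor_add_one ((z i + L) / (2 * L))
      rw [le_div_iff₀ (by positivity)] at h1
      rw [div_lt_iff₀ (by positivity)] at h2
      simp only [shift, PiLp.sub_apply, hk]
      rw [abs_le]
      constructor <;> nlinarith
    obtain ⟨y, hy, p, hp, hyp⟩ := Set.mem_add.1 (hcov hmem)
    refine Set.mem_add.2 ⟨y, hy, p + shift L k, ⟨p, Finset.mem_coe.1 hp, k, rfl⟩, ?_⟩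
    rw [← add_assoc, hyp, sub_add_cancel]
  refine iInf_le_of_le X (iInf_le_of_le hlf (iInf_le_of_le hall (mul_le_mul' le_rfl ?_)))
  set g : ℝ → ℝ := fun R ↦ P.card * (2 * ((R + M) / (2 * L)) + 3) ^ n / (2 * R) ^ n with hg
  have hlim : Tendsto g atTop (𝓝 (P.card / (2 * L) ^ n)) := by
    have h1 : Tendsto (fun R : ℝ ↦ 1 / (2 * L) + (M / (2 * L) + 3 / 2) / R) atTop
        (𝓝 (1 / (2 * L))) := by
      simpa using (tendsto_const_nhds.div_atTop tendsto_id).const_add (1 / (2 * L))
    have h2 := ((h1.pow n).const_mul (P.card : ℝ))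
    rw [one_div, inv_pow, ← div_eq_mul_inv] at h2
    refine h2.congr' ?_
    filter_upwards [eventually_gt_atTop 0] with R hR
    rw [hg]
    simp only
    rw [mul_div_assoc, ← div_pow]
    congr 2
    field_simp
    ring
  calc limsup (fun R : ℝ ↦ ((X ∩ cube n R).encard : ℝ≥0∞) / ENNReal.ofReal ((2 * R) ^ n)) atTop
      ≤ limsup (fun R : ℝ ↦ ENNReal.ofReal (g R)) atTop := by
        refine limsup_le_limsup ?_
        filter_upwards [eventually_gt_atTop 0] with R hR
        rw [hg, ENNReal.ofReal_div_of_pos (by positivity)]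
        exact ENNReal.div_le_div_right (count R hR.le).2 _
    _ = _ := (ENNReal.tendsto_ofReal hlim).limsup_eq

/-- Some reflection of a convex body meets it in a fraction at least `2^{-n}`. -/
lemma exists_centre_sym {K : Set (EuclideanSpace ℝ (Fin n))} (hK : IsConvexBody K) :
    ∃ c : EuclideanSpace ℝ (Fin n), volume.real K ≤
      2 ^ n * volume.real {x | x + c ∈ K ∧ -x + c ∈ K} := by
  obtain ⟨hconv, hcomp, hint⟩ := hK
  have hKm : MeasurableSet K := hcomp.isClosed.measurableSet
  have hKne : volume K ≠ ∞ := hcomp.measure_ne_top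
  set f : EuclideanSpace ℝ (Fin n) → EuclideanSpace ℝ (Fin n) → ℝ≥0∞ :=
    fun t x ↦ K.indicator (1 : EuclideanSpace ℝ (Fin n) → ℝ≥0∞) x * K.indicator (1 : EuclideanSpace ℝ (Fin n) → ℝ≥0∞) (t - x) with hf
  set F : EuclideanSpace ℝ (Fin n) → ℝ≥0∞ := fun t ↦ ∫⁻ x, f t x with hF
  have hmeas : Measurable (Function.uncurry f) := by
    exact ((measurable_one.indicator hKm).comp measurable_snd).mul
      ((measurable_one.indicator hKm).comp (measurable_fst.sub measurable_snd))
  have htot : ∫⁻ t, F t = volume K * volume K := by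
    simp only [hF]
    rw [lintegral_lintegral_swap hmeas.aemeasurable]
    have : ∀ x, ∫⁻ t, f t x = K.indicator (1 : EuclideanSpace ℝ (Fin n) → ℝ≥0∞) x * volume K := by
      intro x
      simp only [hf]
      have hm : Measurable fun t ↦ K.indicator (1 : EuclideanSpace ℝ (Fin n) → ℝ≥0∞) (t - x) :=
        (measurable_one.indicator hKm).comp (measurable_id.sub_const x)
      rw [lintegral_const_mul _ hm, lintegral_sub_right_eq_self (K.indicator (1 : EuclideanSpace ℝ (Fin n) → ℝ≥0∞)) x,
        lintegral_indicator_one hKm]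
    simp only [this]
    rw [lintegral_mul_const _ (measurable_one.indicator hKm), lintegral_indicator_one hKm]
  have hsupp : ∫⁻ t in (2 : ℝ) • K, F t = ∫⁻ t, F t := by
    rw [← lintegral_indicator (hcomp.smul (2 : ℝ)).isClosed.measurableSet]
    refine lintegral_congr fun t ↦ ?_
    by_cases ht : t ∈ (2 : ℝ) • K
    · rw [Set.indicator_of_mem ht]
    · rw [Set.indicator_of_notMem ht]
      symm
      simp only [hF, hf]
      have hm : Measurable fun x ↦ K.indicator (1 : EuclideanSpace ℝ (Fin n) → ℝ≥0∞) x *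
          K.indicator (1 : EuclideanSpace ℝ (Fin n) → ℝ≥0∞) (t - x) :=
        (measurable_one.indicator hKm).mul
          ((measurable_one.indicator hKm).comp (measurable_const.sub measurable_id))
      rw [lintegral_eq_zero_iff hm]
      refine Eventually.of_forall fun x ↦ ?_
      simp only [Pi.mul_apply, Function.comp_apply, Pi.zero_apply, mul_eq_zero]
      by_contra hc
      push_neg at hc
      simp only [ne_eq, Set.indicator_apply_eq_zero, Classical.not_imp] at hc
      refine ht ⟨(1 / 2 : ℝ) • x + (1 / 2 : ℝ) • (t - x),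
        hconv hc.1.1 hc.2.1 (by norm_num) (by norm_num) (by norm_num), ?_⟩
      simp only; module
  have h2K : volume ((2 : ℝ) • K) = ENNReal.ofReal (2 ^ n) * volume K := by
    rw [Measure.addHaar_smul, finrank_euclideanSpace_fin, abs_of_nonneg (by positivity)]
  have hpos : 0 < volume K := Measure.measure_pos_of_nonempty_interior _ hint
  have hne0 : volume ((2 : ℝ) • K) ≠ 0 := by
    rw [h2K]; exact mul_ne_zero (by simp) hpos.ne'
  have hFm : Measurable F := hmeas.lintegral_prod_right'
  obtain ⟨t, -, ht⟩ := exists_setLAverage_le hne0 (hcomp.smul (2 : ℝ)).isClosed.measurableSet.nullMeasurableSet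
    (by rw [hsupp, htot]; exact ENNReal.mul_ne_top hKne hKne)
  rw [setLAverage_eq, hsupp, htot, h2K] at ht
  refine ⟨(1 / 2 : ℝ) • t, ?_⟩
  have hFt : F t = volume {x | x + (1 / 2 : ℝ) • t ∈ K ∧ -x + (1 / 2 : ℝ) • t ∈ K} := by
    have hset : MeasurableSet (K ∩ {x | t - x ∈ K}) :=
      hKm.inter (hKm.preimage (measurable_const.sub measurable_id))
    have e1 : F t = volume (K ∩ {x | t - x ∈ K}) := by
      rw [← lintegral_indicator_one hset, hF]
      refine lintegral_congr fun x ↦ ?_
      simp only [hf, Set.inter_indicator_one, Pi.mul_apply]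
      rfl
    rw [e1, ← measure_preimage_add_right volume ((1 / 2 : ℝ) • t)]
    congr 1
    ext x
    simp only [Set.mem_preimage, Set.mem_inter_iff, Set.mem_ofPred_eq]
    rw [show t - (x + (1 / 2 : ℝ) • t) = -x + (1 / 2 : ℝ) • t by module]
  rw [hFt] at ht
  rw [mul_comm (ENNReal.ofReal _), ENNReal.mul_div_mul_left _ _ hpos.ne' hKne] at ht
  have hfin : volume {x | x + (1 / 2 : ℝ) • t ∈ K ∧ -x + (1 / 2 : ℝ) • t ∈ K} ≠ ∞ :=
    measure_ne_top_of_subset (s := (fun x ↦ x + (1 / 2 : ℝ) • t) ⁻¹' K) (fun x hx ↦ hx.1)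
      (by rw [measure_preimage_add_right]; exact hKne)
  have := ENNReal.toReal_mono hfin ht
  rw [ENNReal.toReal_div, ENNReal.toReal_ofReal (by positivity)] at this
  rw [div_le_iff₀ (by positivity), mul_comm] at this
  exact this

lemma measureReal_add_singleton (A : Set (EuclideanSpace ℝ (Fin n)))
    (y : EuclideanSpace ℝ (Fin n)) : volume.real ((fun s ↦ s + y) '' A) = volume.real A := by
  have e : (fun s ↦ s + y) '' A = (fun x ↦ x + -y) ⁻¹' A := by
    ext x; simp
  rw [e, measureReal_def, measure_preimage_add_right, ← measureReal_def]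

/-- Greedy choice of translates. -/
lemma greedy {A U0 Q' : Set (EuclideanSpace ℝ (Fin n))} (hA : IsCompact A)
    (hU0m : MeasurableSet U0) (hU0 : volume U0 ≠ ∞) (hQ'm : MeasurableSet Q')
    (hQ' : volume Q' ≠ ∞) (hQ'0 : volume Q' ≠ 0)
    (hsub : ∀ u ∈ U0, ∀ a ∈ A, u - a ∈ Q') (N : ℕ)
    (ha : volume.real A ≤ volume.real Q') :
    ∃ P : Finset (EuclideanSpace ℝ (Fin n)), P.card ≤ N ∧
      volume.real (U0 \ (A + (P : Set (EuclideanSpace ℝ (Fin n))))) ≤
        (1 - volume.real A / volume.real Q') ^ N * volume.real U0 := by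
  classical
  have hQpos : 0 < volume.real Q' := ENNReal.toReal_pos hQ'0 hQ'
  induction N with
  | zero => exact ⟨∅, by simp⟩
  | succ N ih =>
    obtain ⟨P, hP, hle⟩ := ih
    set U := U0 \ (A + (P : Set (EuclideanSpace ℝ (Fin n)))) with hU
    have hUm : MeasurableSet U :=
      hU0m.diff (hA.add P.finite_toSet.isCompact).isClosed.measurableSet
    have hUne : volume U ≠ ∞ := measure_ne_top_of_subset Set.diff_subset hU0
    have hAm : MeasurableSet A := hA.isClosed.measurableSet
    set g : EuclideanSpace ℝ (Fin n) → EuclideanSpace ℝ (Fin n) → ℝ≥0∞ :=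
      fun p u ↦ U.indicator (1 : EuclideanSpace ℝ (Fin n) → ℝ≥0∞) u * A.indicator (1 : EuclideanSpace ℝ (Fin n) → ℝ≥0∞) (u - p) with hg
    set G : EuclideanSpace ℝ (Fin n) → ℝ≥0∞ := fun p ↦ ∫⁻ u, g p u with hG
    have hgm : Measurable (Function.uncurry g) :=
      ((measurable_one.indicator hUm).comp measurable_snd).mul
        ((measurable_one.indicator hAm).comp (measurable_snd.sub measurable_fst))
    have htot : ∫⁻ p in Q', G p = volume U * volume A := by
      simp only [hG]
      rw [lintegral_lintegral_swap hgm.aemeasurable]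
      have : ∀ u, ∫⁻ p in Q', g p u = U.indicator (1 : EuclideanSpace ℝ (Fin n) → ℝ≥0∞) u * volume A := by
        intro u
        simp only [hg]
        by_cases hu : u ∈ U
        · simp only [Set.indicator_of_mem hu, Pi.one_apply, one_mul]
          rw [← lintegral_indicator hQ'm]
          have e : (Q'.indicator fun p ↦ A.indicator (1 : EuclideanSpace ℝ (Fin n) → ℝ≥0∞) (u - p)) =
              fun p ↦ A.indicator (1 : EuclideanSpace ℝ (Fin n) → ℝ≥0∞) (u - p) := by
            funext p
            by_cases hp : p ∈ Q'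
            · rw [Set.indicator_of_mem hp]
            · rw [Set.indicator_of_notMem hp, Set.indicator_of_notMem]
              exact fun h ↦ hp (by simpa using hsub u hu.1 _ h)
          rw [e, lintegral_sub_left_eq_self (A.indicator (1 : EuclideanSpace ℝ (Fin n) → ℝ≥0∞)) u,
            lintegral_indicator_one hAm]
        · simp [Set.indicator_of_notMem hu]
      simp only [this]
      rw [lintegral_mul_const _ (measurable_one.indicator hUm), lintegral_indicator_one hUm]
    obtain ⟨p, -, hp⟩ := exists_setLAverage_le hQ'0 hQ'm.nullMeasurableSet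
      (by rw [htot]; exact ENNReal.mul_ne_top hUne hA.measure_ne_top)
    rw [setLAverage_eq, htot] at hp
    have hGp : G p = volume (U ∩ (fun u ↦ u - p) ⁻¹' A) := by
      have hs : MeasurableSet (U ∩ (fun u ↦ u - p) ⁻¹' A) :=
        hUm.inter (hAm.preimage (measurable_id.sub_const p))
      rw [← lintegral_indicator_one hs, hG]
      refine lintegral_congr fun u ↦ ?_
      simp only [hg, Set.inter_indicator_one, Pi.mul_apply]
      rfl
    rw [hGp] at hp
    refine ⟨insert p P, (Finset.card_insert_le _ _).trans (by omega), ?_⟩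
    have hsub' : U0 \ (A + ((insert p P : Finset _) : Set (EuclideanSpace ℝ (Fin n)))) ⊆
        U \ (U ∩ (fun u ↦ u - p) ⁻¹' A) := by
      rintro u ⟨hu0, hu⟩
      refine ⟨⟨hu0, fun h ↦ hu (Set.add_subset_add_left (by simp) h)⟩, fun h ↦ hu ?_⟩
      exact Set.mem_add.2 ⟨u - p, h.2, p, by simp, sub_add_cancel _ _⟩
    have h1 : volume.real U * volume.real A / volume.real Q' ≤
        volume.real (U ∩ (fun u ↦ u - p) ⁻¹' A) := by
      have := ENNReal.toReal_mono (measure_ne_top_of_subset Set.inter_subset_left hUne) hp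
      rwa [ENNReal.toReal_div, ENNReal.toReal_mul] at this
    have h2 := measureReal_diff (μ := volume) (Set.inter_subset_left
      (s := U) (t := (fun u ↦ u - p) ⁻¹' A)) (hUm.inter (hAm.preimage (measurable_id.sub_const p))) hUne
    have h3 := (measureReal_mono hsub' (measure_ne_top_of_subset Set.diff_subset hUne))
    have h4 : 0 ≤ 1 - volume.real A / volume.real Q' := by
      rw [sub_nonneg, div_le_one hQpos]; exact ha
    calc _ ≤ volume.real U - volume.real U * volume.real A / volume.real Q' := by linarith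
      _ = (1 - volume.real A / volume.real Q') * volume.real U := by ring
      _ ≤ _ := by rw [pow_succ', mul_assoc]; exact mul_le_mul_of_nonneg_left hle h4

/-- The closing arithmetic. -/
lemma upper_arith (hn : 3 ≤ n) {V T ℓ a q b : ℝ} {N cP cY c' : ℕ} (hV0 : 0 < V) (hT : 0 < T)
    (hb : 1 / 8 ≤ b) (hq0 : 0 < q) (hqle : q ≤ 2 * T) (ha : a = b * V / q)
    (hℓ : ℓ = n * Real.log (2 * n) + 1) (hNdef : N = ⌈ℓ / a⌉₊) (hP : cP ≤ N)
    (hY : (cY : ℝ) * V ≤ T) (hc : c' ≤ cP + cY) (hVT : V ≤ T) :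
    V * ((c' : ℝ) / T) ≤ 100 * n * Real.log n := by
  have hN : (3 : ℝ) ≤ n := by exact_mod_cast hn
  have hlog : 1 ≤ Real.log n := by
    rw [Real.le_log_iff_exp_le (by linarith)]
    linarith [Real.exp_one_lt_d9]
  have h10 : (1 : ℝ) ≤ n * Real.log n := by nlinarith
  have hℓle : ℓ ≤ 3 * (n * Real.log n) := by
    rw [hℓ, Real.log_mul (by norm_num) (by linarith)]
    have h2 : Real.log 2 ≤ 1 := by linarith [Real.log_le_sub_one_of_pos (two_pos (α := ℝ))]
    have h3 : (n : ℝ) * Real.log 2 ≤ n * Real.log n :=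
      mul_le_mul_of_nonneg_left (h2.trans hlog) (by linarith)
    linarith
  have hℓ0 : 0 ≤ ℓ := by
    rw [hℓ]
    have := Real.log_nonneg (by linarith : (1 : ℝ) ≤ 2 * n)
    positivity
  have hb0 : 0 < b := by linarith
  have ha0 : 0 < a := by rw [ha]; positivity
  have h2 := Nat.ceil_lt_add_one (div_nonneg hℓ0 ha0.le)
  rw [← hNdef] at h2
  have h3 : V * (ℓ / a) ≤ 16 * ℓ * T := by
    have e : V * (ℓ / a) = ℓ * q / b := by
      rw [ha]; field_simp
    rw [e, div_le_iff₀ hb0]
    calc ℓ * q ≤ ℓ * (2 * T) := mul_le_mul_of_nonneg_left hqle hℓ0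
      _ = 16 * ℓ * T * (1 / 8) := by ring
      _ ≤ _ := mul_le_mul_of_nonneg_left hb (by positivity)
  have h1 : V * N ≤ 16 * ℓ * T + V := by
    have := mul_le_mul_of_nonneg_left h2.le hV0.le
    linarith
  have h6 : (c' : ℝ) ≤ N + cY := by exact_mod_cast hc.trans (Nat.add_le_add_right hP cY)
  have h7 := mul_le_mul_of_nonneg_left h6 hV0.le
  have h9 := mul_le_mul_of_nonneg_right hℓle hT.le
  have h11 := mul_le_mul_of_nonneg_right h10 hT.le
  rw [mul_div_assoc', div_le_iff₀ hT]
  linarith

/-- Every convex body has covering density at most a constant times `n log n`. -/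
theorem thetaT_le (hn : 3 ≤ n) {K : Set (EuclideanSpace ℝ (Fin n))} (hK : IsConvexBody K) :
    thetaT K ≤ ENNReal.ofReal (100 * n * Real.log n) := by
  classical
  obtain ⟨c, hc⟩ := exists_centre_sym hK
  obtain ⟨hconv, hcomp, hint⟩ := hK
  have hN : (3 : ℝ) ≤ n := by exact_mod_cast hn
  set V := volume.real K with hV
  have hV0 : 0 < V := ENNReal.toReal_pos (Measure.measure_pos_of_nonempty_interior _ hint).ne'
    hcomp.measure_ne_top
  set K0 : Set (EuclideanSpace ℝ (Fin n)) := (fun x ↦ x + c) ⁻¹' K with hK0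
  set Ks : Set (EuclideanSpace ℝ (Fin n)) := {x | x + c ∈ K ∧ -x + c ∈ K} with hKs
  have hK0c : IsCompact K0 := (Homeomorph.addRight c).isCompact_preimage.2 hcomp
  have hK0v : Convex ℝ K0 := hconv.translate_preimage_left c
  have hKsK : Ks ⊆ K0 := fun x hx ↦ hx.1
  have hKsc : IsClosed Ks := (hcomp.isClosed.preimage (by fun_prop)).inter
    (hcomp.isClosed.preimage (by fun_prop : Continuous fun x : EuclideanSpace ℝ (Fin n) ↦ -x + c))
  have hKssym : ∀ x ∈ Ks, -x ∈ Ks := fun x hx ↦ ⟨hx.2, by simpa using hx.1⟩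
  have hKsv : Convex ℝ Ks := by
    have e : Ks = K0 ∩ -K0 := by ext x; rfl
    rw [e]; exact hK0v.inter hK0v.neg
  have hS0 : 0 < volume.real Ks := by
    by_contra h; push_neg at h
    nlinarith [measureReal_nonneg (μ := volume) (s := Ks), pow_pos (two_pos (α := ℝ)) n]
  have h0K : (0 : EuclideanSpace ℝ (Fin n)) ∈ K0 := by
    obtain ⟨x, hx⟩ : Ks.Nonempty := Set.nonempty_iff_ne_empty.2 fun h ↦ by simp [h] at hS0
    have := hK0v (hKsK hx) (hKsK (hKssym x hx)) (a := 1 / 2) (b := 1 / 2) (by norm_num)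
      (by norm_num) (by norm_num)
    simpa using this
  set ε := 1 / (n : ℝ) with hε
  have hε0 : 0 < ε := by positivity
  have hε1 : 2 * ε ≤ 1 := by rw [hε, mul_one_div, div_le_one (by positivity)]; linarith
  set A := (1 - ε) • K0 with hA
  have hAc : IsCompact A := hK0c.smul _
  obtain ⟨r, hr⟩ := (Metric.isBounded_iff_subset_closedBall 0).1 hK0c.isBounded
  have hr0 : 0 ≤ r := le_trans (norm_nonneg _) (mem_closedBall_zero_iff.1 (hr h0K))
  have hrc : ∀ x ∈ K0, ∀ i, |x i| ≤ r := fun x hx i ↦ by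
    rw [← Real.norm_eq_abs]
    exact (PiLp.norm_apply_le x i).trans (mem_closedBall_zero_iff.1 (hr hx))
  have hsmall : ∀ {t : ℝ}, 0 ≤ t → t ≤ 1 → ∀ x ∈ K0, t • x ∈ K0 := fun ht0 ht1 x hx ↦
    hK0v.smul_mem_of_zero_mem h0K hx ⟨ht0, ht1⟩
  -- choose the period
  have hev : ∀ᶠ L : ℝ in atTop, ((L + 2 * r) / L) ^ n ≤ 2 ∧ V ≤ (2 * L) ^ n ∧ 0 < L := by
    have h1 : Tendsto (fun L : ℝ ↦ ((L + 2 * r) / L) ^ n) atTop (𝓝 1) := by
      have h := ((tendsto_const_nhds (x := 2 * r)).div_atTop tendsto_id).const_add (1 : ℝ)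
      simp only [add_zero] at h
      have h' := h.pow n
      rw [one_pow] at h'
      refine h'.congr' ?_
      filter_upwards [eventually_gt_atTop 0] with L hL
      congr 1; simp only [id]; field_simp
    have h2 : Tendsto (fun L : ℝ ↦ (2 * L) ^ n) atTop atTop :=
      (tendsto_pow_atTop (by omega)).comp (Tendsto.const_mul_atTop two_pos tendsto_id)
    filter_upwards [h1.eventually (eventually_le_nhds one_lt_two), h2.eventually_ge_atTop V,
      eventually_gt_atTop 0] with L a b c using ⟨a, b, c⟩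
  obtain ⟨L, hL2, hLV, hL0⟩ := hev.exists
  set U0 := cube n (L + r)
  set Q' := cube n (L + 2 * r)
  set q := volume.real Q' with hq
  have hqe : q = (2 * (L + 2 * r)) ^ n := volume_real_cube (by linarith)
  have hq0 : 0 < q := by rw [hqe]; positivity
  have hqle : q ≤ 2 * (2 * L) ^ n := by
    rw [hqe, mul_pow, mul_pow]
    rw [div_pow, div_le_iff₀ (by positivity)] at hL2
    nlinarith [pow_pos (two_pos (α := ℝ)) n]
  have hQne : volume Q' ≠ ∞ := (cube_bounded _).measure_lt_top.ne
  have hQ0 : volume Q' ≠ 0 := fun h ↦ by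
    rw [hq, measureReal_def, h] at hq0; simp at hq0
  have hAK : ∀ x ∈ A, x ∈ K0 := by
    rintro _ ⟨x, hx, rfl⟩; exact hsmall (by linarith) (by linarith) x hx
  have hsubQ : ∀ u ∈ U0, ∀ x ∈ A, u - x ∈ Q' := fun u hu x hx i ↦ by
    rw [PiLp.sub_apply]
    linarith [abs_sub (u i) (x i), hu i, hrc x (hAK x hx) i]
  have hK0vol : volume.real K0 = V := by
    rw [hV, hK0, measureReal_def, measure_preimage_add_right, ← measureReal_def]
  have hAvol : volume.real A = (1 - ε) ^ n * V := by
    rw [hA, measureReal_def, Measure.addHaar_smul, finrank_euclideanSpace_fin, ENNReal.toReal_mul,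
      ENNReal.toReal_ofReal (abs_nonneg _), ← measureReal_def, hK0vol,
      abs_of_nonneg (pow_nonneg (by linarith) n)]
  have hb4 : 1 / 8 ≤ (1 - ε) ^ n := by
    have h1 : Real.exp (-(3 / 2) * ε) ≤ 1 - ε := by
      have h2 : Real.exp (-(3 / 2) * ε) ≤ 1 / (1 + 3 / 2 * ε) := by
        rw [neg_mul, Real.exp_neg, one_div]
        exact inv_anti₀ (by positivity) (by linarith [Real.add_one_le_exp (3 / 2 * ε)])
      refine h2.trans ?_
      rw [div_le_iff₀ (by positivity)]
      have hε3 : ε ≤ 1 / 3 := by rw [hε]; exact one_div_le_one_div_of_le (by norm_num) hN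
      nlinarith
    refine le_trans ?_ (pow_le_pow_left₀ (Real.exp_nonneg _) h1 n)
    rw [← Real.exp_nat_mul, hε, show (n : ℝ) * (-(3 / 2) * (1 / n)) = -(3 / 2) by field_simp,
      Real.exp_neg, one_div]
    refine inv_anti₀ (Real.exp_pos _) ?_
    have h3 : Real.exp (3 / 2) ^ 2 = Real.exp 1 ^ 3 := by
      rw [← Real.exp_nat_mul, ← Real.exp_nat_mul]; congr 1; norm_num
    nlinarith [Real.exp_pos (3 / 2), Real.exp_pos 1, Real.exp_one_lt_d9,
      pow_le_pow_left₀ (Real.exp_pos 1).le Real.exp_one_lt_d9.le 3]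
  set a := volume.real A / q with ha
  have hAq : volume.real A ≤ q :=
    measureReal_mono (fun x hx i ↦ by linarith [hrc x (hAK x hx) i]) hQne
  have ha0 : 0 < a := by rw [ha, hAvol]; positivity
  have ha1 : a ≤ 1 := (div_le_one hq0).2 hAq
  set ℓ := n * Real.log (2 * n) + 1 with hℓ
  have hℓ0 : 0 ≤ ℓ := by
    have := Real.log_nonneg (by linarith : (1 : ℝ) ≤ 2 * n)
    positivity
  set N := ⌈ℓ / a⌉₊ with hNdef
  obtain ⟨P, hPcard, hPle⟩ := greedy hAc (cube_isClosed _).measurableSet
    (cube_bounded (L + r)).measure_lt_top.ne (cube_isClosed _).measurableSet hQne hQ0 hsubQ N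
    (hAq.trans_eq hq)
  rw [← hq, ← ha] at hPle
  set S := ε • Ks with hS
  have hSc : IsCompact S := (hK0c.of_isClosed_subset hKsc hKsK).smul _
  have hSvol : volume.real S = ε ^ n * volume.real Ks := by
    rw [hS, measureReal_def, Measure.addHaar_smul, finrank_euclideanSpace_fin, ENNReal.toReal_mul,
      ENNReal.toReal_ofReal (abs_nonneg _), ← measureReal_def,
      abs_of_nonneg (pow_nonneg hε0.le n)]
  -- packing of the uncovered part
  set Unc := cube n L \ (K0 + (P : Set (EuclideanSpace ℝ (Fin n))))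
  set Good : Finset (EuclideanSpace ℝ (Fin n)) → Prop := fun Y ↦
    (∀ y ∈ Y, y ∈ Unc) ∧ (Y : Set (EuclideanSpace ℝ (Fin n))).PairwiseDisjoint
      fun y ↦ (fun s ↦ s + y) '' S
  have hbound : ∀ Y, Good Y → (Y.card : ℝ) * V ≤ (2 * L) ^ n := by
    rintro Y ⟨hY1, hY2⟩
    have hsub : (⋃ y ∈ Y, (fun s ↦ s + y) '' S) ⊆
        U0 \ (A + (P : Set (EuclideanSpace ℝ (Fin n)))) := by
      simp only [Set.iUnion_subset_iff]
      rintro y hy _ ⟨_, ⟨k, hk, rfl⟩, rfl⟩
      obtain ⟨hyc, hyu⟩ := hY1 y hy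
      refine ⟨fun i ↦ ?_, fun h ↦ hyu ?_⟩
      · have h1 := hrc _ (hsmall hε0.le (by linarith) k (hKsK hk)) i
        simp only [PiLp.add_apply] at h1 ⊢
        linarith [abs_add_le ((ε • k) i) (y i), hyc i]
      · obtain ⟨x, ⟨x', hx', hxx⟩, p, hp, hxp⟩ := Set.mem_add.1 h
        refine Set.mem_add.2 ⟨(1 - ε) • x' + ε • (-k),
          hK0v hx' (hKsK (hKssym k hk)) (by linarith) hε0.le (by ring), p, hp, ?_⟩
        simp only at hxx hxp
        rw [smul_neg, hxx, add_assoc, add_comm (-(ε • k)), ← add_assoc, hxp]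
        abel
    have h1 := (measureReal_mono hsub
      (measure_ne_top_of_subset Set.diff_subset (cube_bounded _).measure_lt_top.ne)).trans hPle
    have hterm : ∀ y : EuclideanSpace ℝ (Fin n), IsCompact ((fun s ↦ s + y) '' S) := fun y ↦
      hSc.image (continuous_id.add continuous_const)
    rw [measureReal_biUnion_finset hY2 (fun y _ ↦ (hterm y).isClosed.measurableSet)
      (fun y _ ↦ (hterm y).measure_ne_top)] at h1
    simp only [measureReal_add_singleton, Finset.sum_const, nsmul_eq_mul, hSvol] at h1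
    have hU0 : volume.real U0 ≤ 2 * (2 * L) ^ n := by
      refine le_trans ?_ hqle
      rw [volume_real_cube (by linarith), hqe]
      exact pow_le_pow_left₀ (by positivity) (by linarith) n
    have h2 : (1 - a) ^ N ≤ (1 / (2 * n)) ^ n / 2 := by
      calc (1 - a) ^ N ≤ Real.exp (-a) ^ N :=
            pow_le_pow_left₀ (by linarith) (by linarith [Real.add_one_le_exp (-a)]) N
        _ ≤ Real.exp (-ℓ) := by
            rw [← Real.exp_nat_mul]; refine Real.exp_le_exp.2 ?_
            have h3 := Nat.le_ceil (ℓ / a)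
            rw [div_le_iff₀ ha0, ← hNdef] at h3
            linarith
        _ ≤ _ := by
            rw [hℓ, neg_add, Real.exp_add, Real.exp_neg, Real.exp_nat_mul,
              Real.exp_log (by positivity), one_div, inv_pow, div_eq_mul_inv, Real.exp_neg]
            gcongr
            linarith [Real.add_one_le_exp (1 : ℝ)]
    have h5 := h1.trans (mul_le_mul h2 hU0 measureReal_nonneg (by positivity))
    have he : (1 / (2 * (n : ℝ))) ^ n = ε ^ n * (1 / 2) ^ n := by
      rw [hε, ← mul_pow]; congr 1; ring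
    rw [he] at h5
    have h6 : (Y.card : ℝ) * volume.real Ks ≤ (1 / 2) ^ n * (2 * L) ^ n := by
      have hεn : 0 < ε ^ n := by positivity
      refine le_of_mul_le_mul_left ?_ hεn
      linarith
    calc (Y.card : ℝ) * V ≤ Y.card * (2 ^ n * volume.real Ks) := by gcongr
      _ = 2 ^ n * (Y.card * volume.real Ks) := by ring
      _ ≤ 2 ^ n * ((1 / 2) ^ n * (2 * L) ^ n) := by gcongr
      _ = _ := by rw [← mul_assoc, ← mul_pow]; norm_num
  obtain ⟨Y, hY, hmax⟩ : ∃ Y, Good Y ∧ ∀ Y', Good Y' → Y'.card ≤ Y.card := by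
    set B := ⌈(2 * L) ^ n / V⌉₊
    set T := (Finset.range (B + 1)).filter fun m ↦ ∃ Y, Good Y ∧ Y.card = m
    have hin : ∀ Y, Good Y → Y.card ∈ T := fun Y hY ↦ by
      refine Finset.mem_filter.2 ⟨Finset.mem_range.2 (Nat.lt_succ_of_le ?_), Y, hY, rfl⟩
      have h := (le_div_iff₀ hV0).2 (hbound Y hY)
      exact_mod_cast h.trans (Nat.le_ceil _)
    have hne : T.Nonempty := ⟨_, hin ∅ ⟨by simp, by simp⟩⟩
    obtain ⟨Y, hY, hYc⟩ := (Finset.mem_filter.1 (T.max'_mem hne)).2
    exact ⟨Y, hY, fun Y' hY' ↦ hYc ▸ T.le_max' _ (hin Y' hY')⟩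
  have hcov0 : cube n L ⊆ K0 + ((P ∪ Y : Finset _) : Set (EuclideanSpace ℝ (Fin n))) := by
    intro z hz
    by_contra hno
    have hzP : z ∉ K0 + (P : Set (EuclideanSpace ℝ (Fin n))) := fun h ↦
      hno (Set.add_subset_add_left (by simp) h)
    have hzY : z ∉ Y := fun h ↦ hno (Set.mem_add.2 ⟨0, h0K, z, by simp [h], zero_add z⟩)
    have hg : Good (insert z Y) := by
      refine ⟨fun y hy ↦ ?_, ?_⟩
      · rcases Finset.mem_insert.1 hy with rfl | hy
        · exact ⟨hz, hzP⟩
        · exact hY.1 y hy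
      · rw [Finset.coe_insert]
        refine hY.2.insert_of_notMem hzY fun y hy ↦ Set.disjoint_left.2 ?_
        rintro _ ⟨_, ⟨k, hk, rfl⟩, rfl⟩ ⟨_, ⟨k', hk', rfl⟩, he⟩
        simp only at he
        refine hno (Set.mem_add.2 ⟨(2 * ε) • ((1 / 2 : ℝ) • k' + (1 / 2 : ℝ) • (-k)), ?_, y,
          by simp [Finset.mem_coe.1 hy], ?_⟩)
        · exact hsmall (by positivity) hε1 _
            (hKsK (hKsv hk' (hKssym k hk) (by norm_num) (by norm_num) (by norm_num)))
        · have e : (2 * ε) • ((1 / 2 : ℝ) • k' + (1 / 2 : ℝ) • (-k)) = ε • k' - ε • k := by module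
          rw [e, sub_add_eq_add_sub, he]
          abel
    have h := hmax _ hg
    rw [Finset.card_insert_of_notMem hzY] at h
    omega
  set P' := (P ∪ Y).image fun p ↦ p - c
  have hcov : cube n L ⊆ K + (P' : Set (EuclideanSpace ℝ (Fin n))) := by
    intro z hz
    obtain ⟨x, hx, p, hp, hxp⟩ := Set.mem_add.1 (hcov0 hz)
    exact Set.mem_add.2 ⟨x + c, hx, p - c,
      Finset.mem_coe.2 (Finset.mem_image_of_mem _ (Finset.mem_coe.1 hp)), by rw [← hxp]; abel⟩
  refine (thetaT_le_periodic hL0 P' hcov).trans ?_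
  rw [show volume K = ENNReal.ofReal V from (ENNReal.ofReal_toReal hcomp.measure_ne_top).symm,
    ← ENNReal.ofReal_mul hV0.le]
  refine ENNReal.ofReal_le_ofReal ?_
  refine upper_arith hn hV0 (by positivity) hb4 hq0 hqle ?_ hℓ hNdef hPcard (hbound Y hY) ?_ hLV
  · rw [ha, hAvol]
  · exact Finset.card_image_le.trans (Finset.card_union_le P Y)

end Vale.Agent.P230
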